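import Mathlib.LinearAlgebra.Dimension.RankNullity
import Mathlib.LinearAlgebra.FiniteDimensional.Lemmas
import Mathlib.Algebra.Exact.Basic
import Mathlib.Tactic

/-!
# Algebra for the Smith-theoretic window argument (P216, Theorem A)

Everything is about graded finite dimensional vector spaces, exact sequences and involutions.
No topology.
-/

open Module LinearMap

namespace Vale.Agent.P216.AS

variable {k : Type*} [Field k]

/-! ## Dimension counts in exact sequences -/

section Dim

variable {A B C D : Type*} [AddCommGroup A] [Module k A] [AddCommGroup B] [Module k B]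
  [AddCommGroup C] [Module k C] [AddCommGroup D] [Module k D]

/-- exactness gives `dim B = dim im φ + dim im ψ`. -/
theorem finrank_of_exact [FiniteDimensional k B] (φ : A →ₗ[k] B) (ψ : B →ₗ[k] C)
    (h : Function.Exact φ ψ) :
    finrank k B = finrank k (LinearMap.range φ) + finrank k (LinearMap.range ψ) := by
  have h1 := LinearMap.finrank_range_add_finrank_ker ψ
  rw [LinearMap.exact_iff.mp h] at h1
  omega

theorem finrank_le_of_exact [FiniteDimensional k A] [FiniteDimensional k B]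
    [FiniteDimensional k C] (φ : A →ₗ[k] B) (ψ : B →ₗ[k] C)
    (h : Function.Exact φ ψ) : finrank k B ≤ finrank k A + finrank k C := by
  rw [finrank_of_exact φ ψ h]
  exact add_le_add (LinearMap.finrank_range_le φ) (Submodule.finrank_le _)

end Dim

/-! ## Involutions -/

section Inv

variable {A B C : Type*} [AddCommGroup A] [Module k A] [AddCommGroup B] [Module k B]
  [AddCommGroup C] [Module k C]

/-- the `ε`-eigenspace of `r` -/
def eig (r : A →ₗ[k] A) (ε : k) : Submodule k A := LinearMap.ker (r - ε • LinearMap.id)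

theorem mem_eig {r : A →ₗ[k] A} {ε : k} {a : A} : a ∈ eig r ε ↔ r a = ε • a := by
  simp [eig, sub_eq_zero]

/-- integer trace of an involution: `dim (+1) - dim (-1)`. -/
noncomputable def chi (r : A →ₗ[k] A) : ℤ :=
  (finrank k (eig r (1 : k)) : ℤ) - (finrank k (eig r (-1 : k)) : ℤ)

theorem finrank_eig_of_exact [FiniteDimensional k A] [FiniteDimensional k B]
    [FiniteDimensional k C] (h2 : (2 : k) ≠ 0)
    {ρ : A →ₗ[k] A} {r : B →ₗ[k] B} {t : C →ₗ[k] C} {ε : k} {η : k} (hε : ε * ε = 1)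
    (hη : η * η = 1)
    (hr : ∀ b, r (r b) = b) (φ : A →ₗ[k] B) (ψ : B →ₗ[k] C)
    (hφ : Function.Injective φ) (hψ : Function.Surjective ψ) (h : Function.Exact φ ψ)
    (c1 : ∀ a, φ (ρ a) = ε • r (φ a)) (c2 : ∀ b, ψ (r b) = t (ψ b)) :
    finrank k (eig r η) = finrank k (eig ρ (ε * η)) + finrank k (eig t η) := by
  -- restriction of ψ to the eigenspace
  let ψ' : eig r η →ₗ[k] C := ψ.comp (eig r η).subtype
  have hrange : LinearMap.range ψ' = eig t η := by
    apply le_antisymm
    · rintro _ ⟨⟨b, hb⟩, rfl⟩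
      rw [mem_eig] at hb ⊢
      change t (ψ b) = η • ψ b
      rw [← c2, hb, map_smul]
    · intro c hc
      rw [mem_eig] at hc
      obtain ⟨b, rfl⟩ := hψ c
      have hb' : (2 : k)⁻¹ • (b + η • r b) ∈ eig r η := by
        rw [mem_eig, map_smul, map_add, map_smul, hr, smul_comm]
        congr 1
        rw [smul_add, smul_smul, hη, one_smul]
        abel
      refine ⟨⟨_, hb'⟩, ?_⟩
      change ψ ((2 : k)⁻¹ • (b + η • r b)) = ψ b
      rw [map_smul, map_add, map_smul, c2, hc, smul_smul, hη, one_smul, ← two_smul k,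
        smul_smul, inv_mul_cancel₀ h2, one_smul]
  have hker : LinearMap.ker ψ' ≃ₗ[k] eig ρ (ε * η) := by
    symm
    refine LinearEquiv.ofBijective
      (LinearMap.codRestrict _ (LinearMap.codRestrict _ (φ.comp (eig ρ (ε * η)).subtype) ?_) ?_)
      ⟨?_, ?_⟩
    · rintro ⟨a, ha⟩
      rw [mem_eig] at ha ⊢
      change r (φ a) = η • φ a
      have := c1 a
      rw [ha, map_smul] at this
      have h3 : ε • ((ε * η) • φ a) = ε • (ε • r (φ a)) := by rw [this]
      rw [smul_smul, smul_smul, ← mul_assoc, hε, one_mul, one_smul] at h3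
      exact h3.symm
    · rintro ⟨a, ha⟩
      rw [LinearMap.mem_ker]
      change ψ (φ a) = 0
      exact (h (φ a)).mpr ⟨a, rfl⟩
    · rintro ⟨a, ha⟩ ⟨a', ha'⟩ he
      have : φ a = φ a' := congrArg (fun z => ((z : eig r η) : B)) (congrArg Subtype.val he)
      exact Subtype.ext (hφ this)
    · rintro ⟨⟨b, hb⟩, hb0⟩
      rw [LinearMap.mem_ker] at hb0
      change ψ b = 0 at hb0
      obtain ⟨a, rfl⟩ := (h b).mp hb0
      rw [mem_eig] at hb
      refine ⟨⟨a, ?_⟩, ?_⟩
      · rw [mem_eig]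
        apply hφ
        rw [c1, hb, map_smul, smul_smul]
      · rfl
  have := LinearMap.finrank_range_add_finrank_ker ψ'
  rw [hrange, LinearEquiv.finrank_eq hker] at this
  omega

/-- additivity of the integer trace in a short exact sequence -/
theorem chi_of_exact [FiniteDimensional k A] [FiniteDimensional k B]
    [FiniteDimensional k C] (h2 : (2 : k) ≠ 0)
    {ρ : A →ₗ[k] A} {r : B →ₗ[k] B} {t : C →ₗ[k] C}
    (hr : ∀ b, r (r b) = b) (φ : A →ₗ[k] B) (ψ : B →ₗ[k] C)
    (hφ : Function.Injective φ) (hψ : Function.Surjective ψ) (h : Function.Exact φ ψ)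
    (c1 : ∀ a, φ (ρ a) = r (φ a)) (c2 : ∀ b, ψ (r b) = t (ψ b)) :
    chi r = chi ρ + chi t := by
  have e1 := finrank_eig_of_exact h2 (ε := 1) (η := 1) (by simp) (by simp) hr φ ψ hφ hψ h
    (by simpa using c1) c2
  have e2 := finrank_eig_of_exact h2 (ε := 1) (η := -1) (by simp) (by simp) hr φ ψ hφ hψ h
    (by simpa using c1) c2
  rw [one_mul] at e1 e2
  unfold chi
  rw [e1, e2]
  push_cast
  ring

theorem chi_of_exact_neg [FiniteDimensional k A] [FiniteDimensional k B]
    [FiniteDimensional k C] (h2 : (2 : k) ≠ 0)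
    {ρ : A →ₗ[k] A} {r : B →ₗ[k] B} {t : C →ₗ[k] C}
    (hr : ∀ b, r (r b) = b) (φ : A →ₗ[k] B) (ψ : B →ₗ[k] C)
    (hφ : Function.Injective φ) (hψ : Function.Surjective ψ) (h : Function.Exact φ ψ)
    (c1 : ∀ a, φ (ρ a) = - r (φ a)) (c2 : ∀ b, ψ (r b) = t (ψ b)) :
    chi r = - chi ρ + chi t := by
  have e1 := finrank_eig_of_exact h2 (ε := -1) (η := 1) (by simp) (by simp) hr φ ψ hφ hψ h
    (by simpa using c1) c2
  have e2 := finrank_eig_of_exact h2 (ε := -1) (η := -1) (by simp) (by simp) hr φ ψ hφ hψ h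
    (by simpa using c1) c2
  rw [mul_one] at e1
  rw [neg_one_mul, neg_neg] at e2
  unfold chi
  rw [e1, e2]
  push_cast
  ring

/-- If an invertible operator anticommutes with `r`, then `chi r = 0`. -/
theorem chi_eq_zero_of_anticomm (r Q : A →ₗ[k] A)
    (hQ : Function.Bijective Q) (hrQ : ∀ a, r (Q a) = - Q (r a)) : chi r = 0 := by
  have key : eig r (1 : k) ≃ₗ[k] eig r (-1 : k) := by
    refine LinearEquiv.ofBijective
      (LinearMap.codRestrict _ (Q.comp (eig r (1 : k)).subtype) ?_) ⟨?_, ?_⟩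
    · rintro ⟨a, ha⟩
      rw [mem_eig] at ha ⊢
      change r (Q a) = (-1 : k) • Q a
      rw [hrQ, ha, one_smul, neg_one_smul]
    · rintro ⟨a, ha⟩ ⟨a', ha'⟩ he
      exact Subtype.ext (hQ.1 (congrArg Subtype.val he))
    · rintro ⟨b, hb⟩
      obtain ⟨a, rfl⟩ := hQ.2 b
      rw [mem_eig, neg_one_smul, hrQ, neg_inj] at hb
      refine ⟨⟨a, ?_⟩, rfl⟩
      rw [mem_eig, one_smul]
      exact hQ.1 hb
  unfold chi
  rw [LinearEquiv.finrank_eq key, sub_self]

end Inv

/-! ## Smith numerics -/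

section Smith

variable (F E : ℕ → Type*) [∀ n, AddCommGroup (F n)] [∀ n, Module k (F n)]
  [∀ n, AddCommGroup (E n)] [∀ n, Module k (E n)]

/-- The `u`-sequence
`0 → F 0 → E 0 → 0`, `0 → F 1 → E 1 → F 0 → F 2 → E 2 → F 1 → F 3 → ⋯`. -/
structure USeq (k : Type*) [Field k] (F E : ℕ → Type*) [∀ n, AddCommGroup (F n)]
    [∀ n, Module k (F n)] [∀ n, AddCommGroup (E n)] [∀ n, Module k (E n)] where
  u : ∀ n, F n →ₗ[k] F (n + 2)
  π : ∀ n, F n →ₗ[k] E n
  d : ∀ n, E (n + 1) →ₗ[k] F n
  inj0 : Function.Injective (π 0)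
  surj0 : Function.Surjective (π 0)
  inj1 : Function.Injective (π 1)
  ex1 : ∀ n, Function.Exact (π (n + 1)) (d n)
  ex2 : ∀ n, Function.Exact (d n) (u n)
  ex3 : ∀ n, Function.Exact (u n) (π (n + 2))

variable {F E}

namespace USeq

variable (S : USeq k F E)

include S

theorem e0 : finrank k (E 0) = finrank k (F 0) :=
  (LinearEquiv.finrank_eq (LinearEquiv.ofBijective _ ⟨S.inj0, S.surj0⟩)).symm

theorem e1 [∀ n, FiniteDimensional k (F n)] [∀ n, FiniteDimensional k (E n)] :
    finrank k (E 1) = finrank k (F 1) + finrank k (LinearMap.ker (S.u 0)) := by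
  have h := finrank_of_exact (S.π 1) (S.d 0) (S.ex1 0)
  rw [LinearMap.finrank_range_of_inj S.inj1, ← LinearMap.exact_iff.mp (S.ex2 0)] at h
  exact h

theorem e2 [∀ n, FiniteDimensional k (F n)] [∀ n, FiniteDimensional k (E n)] (n : ℕ) :
    finrank k (E (n + 2)) + finrank k (F n) = finrank k (F (n + 2)) +
      finrank k (LinearMap.ker (S.u n)) + finrank k (LinearMap.ker (S.u (n + 1))) := by
  have h := finrank_of_exact (S.π (n + 2)) (S.d (n + 1)) (S.ex1 (n + 1))
  rw [← LinearMap.exact_iff.mp (S.ex2 (n + 1))] at h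
  have h3 := finrank_of_exact (S.u n) (S.π (n + 2)) (S.ex3 n)
  have h4 := LinearMap.finrank_range_add_finrank_ker (S.u n)
  omega

/-- the basic count -/
theorem sum_e [∀ n, FiniteDimensional k (F n)] [∀ n, FiniteDimensional k (E n)] (m : ℕ) :
    ∑ n ∈ Finset.range (m + 2), finrank k (E n) = finrank k (F (m + 1)) + finrank k (F m) +
      (∑ n ∈ Finset.range (m + 1), finrank k (LinearMap.ker (S.u n)) +
       ∑ n ∈ Finset.range m, finrank k (LinearMap.ker (S.u n))) := by
  induction m with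
  | zero =>
    simp [Finset.sum_range_succ, S.e0, S.e1]
    omega
  | succ m ih =>
    have := S.e2 m
    rw [Finset.sum_range_succ, ih, Finset.sum_range_succ (n := m + 1),
      Finset.sum_range_succ (n := m)]
    change _ = finrank k (F (m + 2)) + _ + _
    omega

/-- Smith: if the total dimension of `E` is at most `2N` and the stable value of
`dim F (m+1) + dim F m` is at least `2N`, then `u` is injective. -/
theorem injective_of_le [∀ n, FiniteDimensional k (F n)] [∀ n, FiniteDimensional k (E n)]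
    (N : ℕ) (hE : ∀ m, ∑ n ∈ Finset.range m, finrank k (E n) ≤ 2 * N)
    (hF : ∀ m, ∃ m' ≥ m, 2 * N ≤ finrank k (F (m' + 1)) + finrank k (F m')) (n : ℕ) :
    Function.Injective (S.u n) := by
  obtain ⟨m', hm', h1⟩ := hF (n + 1)
  have h2 := S.sum_e m'
  have h3 := hE (m' + 2)
  have h4 : ∑ n ∈ Finset.range m', finrank k (LinearMap.ker (S.u n)) = 0 := by omega
  rw [Finset.sum_eq_zero_iff] at h4
  have h5 := h4 n (Finset.mem_range.mpr (by omega))
  rw [← LinearMap.ker_eq_bot]
  exact Submodule.finrank_eq_zero.mp h5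

theorem smith_le [∀ n, FiniteDimensional k (F n)] [∀ n, FiniteDimensional k (E n)]
    (N N' : ℕ) (hE : ∀ m, ∑ n ∈ Finset.range m, finrank k (E n) ≤ 2 * N)
    (hF : ∃ m', 2 * N' ≤ finrank k (F (m' + 1)) + finrank k (F m')) : N' ≤ N := by
  obtain ⟨m', h1⟩ := hF
  have h2 := S.sum_e m'
  have h3 := hE (m' + 2)
  omega

/-- the generator count -/
theorem sum_e_of_inj [∀ n, FiniteDimensional k (F n)] [∀ n, FiniteDimensional k (E n)]
    (hu : ∀ n, Function.Injective (S.u n)) (m : ℕ) :
    ∑ n ∈ Finset.range (m + 2), finrank k (E n) = finrank k (F (m + 1)) + finrank k (F m) := by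
  rw [S.sum_e m, Finset.sum_eq_zero, Finset.sum_eq_zero]
  · rfl
  · intro n _; rw [LinearMap.ker_eq_bot.mpr (hu n)]; exact finrank_bot k _
  · intro n _; rw [LinearMap.ker_eq_bot.mpr (hu n)]; exact finrank_bot k _

end USeq

end Smith

end Vale.Agent.P216.AS
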