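import Vale.Agent.P216.AS.Htpy
import Vale.Agent.P216.AS.Les

/-! The bridge between the modules `Hr`, `Ha` and the ranks `hh`, `qr` of `P265.H336`. -/

open Set Matrix

namespace Vale.Agent.P216.AS

open Vale.Agent.P265.AS (qr Zs Bs hh)

variable {k : Type} [Field k]

section Alg

variable {C : Amb k} {S T S' T' : Sub C} {n : ℕ}

theorem rank_H (S T : Sub C) (n : ℕ) : Module.rank k (H S T n) = qr (Zc S T n) (Bc S T n) := rfl

/-- The rank of a map induced by inclusions. -/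
theorem rank_Hinc (hS : S ≤ S') (hT : T ≤ T') (n : ℕ) :
    LinearMap.rank (Hinc hS hT n) = qr (Zc S T n) (Bc S' T' n) := by
  have e : LinearMap.range (Hinc hS hT n) =
      LinearMap.range (Hinc hS hT n ∘ₗ H.mkL S T n) := by
    rw [LinearMap.range_comp, LinearMap.range_eq_top.2 H.mkL_surjective, Submodule.map_top]
  unfold LinearMap.rank qr
  rw [e, ← (Hinc hS hT n ∘ₗ H.mkL S T n).quotKerEquivRange.rank_eq]
  have hk : LinearMap.ker (Hinc hS hT n ∘ₗ H.mkL S T n) =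
      (Bc S' T' n).comap (Zc S T n).subtype := by
    ext x
    rw [LinearMap.mem_ker, LinearMap.comp_apply, H.mkL_apply, Hinc_mk, H.mk_eq_zero]
    rfl
  rw [hk]

end Alg

section Topology

variable {E : Type} [PseudoMetricSpace E] {g : E → E} {χ : k} {X A Y B : Set E} {n : ℕ}

theorem eqv_unit {n : ℕ} {f : (Fin n → E) → k} :
    Eqv (fun _ : Unit => g) (fun _ : Unit => χ) X f ↔ P265.AS.Eqv g χ X f :=
  ⟨fun h x hx => h () x hx, fun h _ x hx => h x hx⟩

theorem mem_Zc_iff_Zs {f : (Fin (n + 1) → E) → k} :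
    f ∈ Zc (Zr (fun _ : Unit => g) (fun _ : Unit => χ) X A)
      (Zr (fun _ : Unit => g) (fun _ : Unit => χ) X X) n ↔ f ∈ Zs g χ X A n := by
  rw [mem_Zc_rel, P265.AS.mem_Zs, eqv_unit]
  constructor
  · rintro ⟨h, ⟨ε, hε, h1⟩, ⟨ε', hε', h2⟩⟩
    exact ⟨h, min ε ε', lt_min hε hε', fun x hx => h2 x (hx.mono le_rfl (min_le_right _ _)),
      fun x hx => h1 x (hx.mono le_rfl (min_le_left _ _))⟩
  · rintro ⟨h, ε, hε, h1, h2⟩
    exact ⟨h, ⟨ε, hε, h2⟩, ε, hε, h1⟩

theorem mem_Bc_iff_Bs {f : (Fin (n + 1) → E) → k} (hf : P265.AS.Eqv g χ X f) :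
    f ∈ Bc (Zr (fun _ : Unit => g) (fun _ : Unit => χ) X A)
      (Zr (fun _ : Unit => g) (fun _ : Unit => χ) X X) n ↔ f ∈ Bs g χ X A n := by
  rw [P265.AS.mem_Bs]
  cases n with
  | zero =>
    rw [mem_Bc_zero]
    constructor
    · rintro ⟨-, ε, hε, h⟩
      exact ⟨0, fun x _ => by simp, ε, hε, fun x hx => by rw [h x hx, P265.AS.d_zero]; rfl,
        fun _ _ => rfl⟩
    · rintro ⟨b, -, ε, hε, h1, h2⟩
      refine ⟨eqv_unit.2 hf, ε, hε, fun x hx => ?_⟩
      rw [h1 x hx, P265.AS.d_zero_apply]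
      exact h2 _ ⟨fun i => i.elim0, fun i => i.elim0⟩
  | succ n =>
    rw [mem_Bc_succ]
    constructor
    · rintro ⟨b, ⟨hb, ε, hε, h1⟩, -, ε', hε', h2⟩
      refine ⟨b, eqv_unit.1 hb, min ε ε', lt_min hε hε', fun x hx => ?_,
        fun x hx => h1 x (hx.mono le_rfl (min_le_left _ _))⟩
      have := h2 x (hx.mono le_rfl (min_le_right _ _))
      exact sub_eq_zero.1 this
    · rintro ⟨b, hb, ε, hε, h1, h2⟩
      refine ⟨b, ⟨eqv_unit.2 hb, ε, hε, h2⟩, (eqv_unit.2 hf).sub (eqv_unit.2 hb).d, ε, hε,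
        fun x hx => ?_⟩
      exact sub_eq_zero.2 (h1 x hx)

/-- The rank of a restriction map in the language of `P265`. -/
theorem rank_resR (hY : Y ⊆ X) (hB : B ⊆ A) :
    LinearMap.rank (resR hY hB n : Hr (fun _ : Unit => g) (fun _ : Unit => χ) X A n →ₗ[k]
      Hr (fun _ : Unit => g) (fun _ : Unit => χ) Y B n) = qr (Zs g χ X A n) (Bs g χ Y B n) := by
  unfold resR
  rw [rank_Hinc]
  have hE : ∀ f ∈ Zs g χ X A n, P265.AS.Eqv g χ Y f := fun f hf =>
    P265.AS.Eqv.mono ((P265.AS.mem_Zs).1 hf).1 hY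
  refine le_antisymm ?_ ?_
  · refine P265.AS.qr_le_of_inj LinearMap.id (fun f hf => mem_Zc_iff_Zs.1 hf) fun f hf h => ?_
    exact (mem_Bc_iff_Bs (hE f (mem_Zc_iff_Zs.1 hf))).2 h
  · refine P265.AS.qr_le_of_inj LinearMap.id (fun f hf => mem_Zc_iff_Zs.2 hf) fun f hf h => ?_
    exact (mem_Bc_iff_Bs (hE f hf)).1 h

/-- The rank of relative cohomology. -/
theorem rank_Hr : Module.rank k (Hr (fun _ : Unit => g) (fun _ : Unit => χ) X A n) =
    hh g χ X A n := by
  have h := rank_resR (g := g) (χ := χ) (n := n) (le_refl X) (le_refl A)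
  have e : (resR (le_refl X) (le_refl A) n : Hr (fun _ : Unit => g) (fun _ : Unit => χ) X A n →ₗ[k]
      Hr (fun _ : Unit => g) (fun _ : Unit => χ) X A n) = LinearMap.id :=
    LinearMap.ext fun x => Hinc_refl _ _ x
  rw [e] at h
  unfold LinearMap.rank at h
  rw [LinearMap.range_id, rank_top] at h
  exact h

/-- Absolute cohomology is relative cohomology with `A = ∅`. -/
def HaEquiv {I : Type} (a : I → E → E) (χ : I → k) (X : Set E) (n : ℕ) :
    Ha a χ X n ≃ₗ[k] Hr a χ X ∅ n where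
  toFun := Hinc (by rw [Zr_empty]) le_rfl n
  invFun := Hinc (by rw [Zr_empty]) le_rfl n
  map_add' := map_add _
  map_smul' := map_smul _
  left_inv x := by rw [Hinc_comp, Hinc_refl]
  right_inv x := by rw [Hinc_comp, Hinc_refl]

/-- The rank of absolute cohomology. -/
theorem rank_Ha : Module.rank k (Ha (fun _ : Unit => g) (fun _ : Unit => χ) X n) =
    hh g χ X ∅ n := by
  rw [(HaEquiv _ _ _ _).rank_eq, rank_Hr]

/-- The rank of a restriction map in absolute cohomology. -/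
theorem rank_res (hY : Y ⊆ X) :
    LinearMap.rank (res hY n : Ha (fun _ : Unit => g) (fun _ : Unit => χ) X n →ₗ[k]
      Ha (fun _ : Unit => g) (fun _ : Unit => χ) Y n) = qr (Zs g χ X ∅ n) (Bs g χ Y ∅ n) := by
  rw [← rank_resR hY (le_refl ∅)]
  have e : (resR hY (le_refl ∅) n : Hr (fun _ : Unit => g) (fun _ : Unit => χ) X ∅ n →ₗ[k]
      Hr (fun _ : Unit => g) (fun _ : Unit => χ) Y ∅ n) =
      ((HaEquiv _ _ Y n).toLinearMap ∘ₗ res hY n) ∘ₗ (HaEquiv _ _ X n).symm.toLinearMap := by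
    refine LinearMap.ext fun x => ?_
    obtain ⟨f, hf, rfl⟩ := H.exists_mk x
    rfl
  unfold LinearMap.rank
  rw [e, LinearMap.range_comp, LinearEquiv.range, Submodule.map_top, LinearMap.range_comp]
  exact (LinearEquiv.submoduleMap (HaEquiv _ _ Y n) _).rank_eq

theorem finite_Ha_iff : Module.Finite k (Ha (fun _ : Unit => g) (fun _ : Unit => χ) X n) ↔
    hh g χ X ∅ n < Cardinal.aleph0 := by
  rw [← rank_Ha, Module.rank_lt_aleph0_iff]

theorem finite_Hr_iff : Module.Finite k (Hr (fun _ : Unit => g) (fun _ : Unit => χ) X A n) ↔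
    hh g χ X A n < Cardinal.aleph0 := by
  rw [← rank_Hr, Module.rank_lt_aleph0_iff]

theorem finrank_Ha : Module.finrank k (Ha (fun _ : Unit => g) (fun _ : Unit => χ) X n) =
    Cardinal.toNat (hh g χ X ∅ n) := by
  rw [← rank_Ha]; rfl

theorem finrank_Hr : Module.finrank k (Hr (fun _ : Unit => g) (fun _ : Unit => χ) X A n) =
    Cardinal.toNat (hh g χ X A n) := by
  rw [← rank_Hr]; rfl

end Topology

end Vale.Agent.P216.AS
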