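import Vale.Agent.P265.H336.Coh
import Vale.Agent.P216.AS.Cx

/-! Alexander-Spanier cochains on subsets of a metric space, with symmetries: definitions.
The tuple algebra (`AS.d`, `AS.prism`, `AS.pb`, ...) is that of `P265.H336.AS`. -/

open Set Matrix

namespace Vale.Agent.P216.AS

open Vale.Agent.P265 (AS.d AS.dL AS.pb AS.prism)

variable {E E' E'' : Type} {k : Type} [Field k] {I : Type}

/-- The ambient complex of all cochains on `E`. -/
abbrev ASK (E k : Type) [Field k] : Amb k where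
  K n := (Fin (n + 1) → E) → k
  d n := P265.AS.dL E k (n + 1)
  d_d _ x := P265.AS.d_d x

theorem ASK_d {n : ℕ} (f : (Fin (n + 1) → E) → k) : (ASK E k).d n f = P265.AS.d f := rfl

/-- `f` transforms under the maps `a i` by the scalars `χ i`, on the tuples of `X`. -/
def Eqv (a : I → E → E) (χ : I → k) (X : Set E) {n : ℕ} (f : (Fin n → E) → k) : Prop :=
  ∀ i x, (∀ j, x j ∈ X) → f (a i ∘ x) = χ i * f x

theorem Eqv.mono {a : I → E → E} {χ : I → k} {X Y : Set E} {n : ℕ} {f : (Fin n → E) → k}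
    (h : Eqv a χ Y f) (hXY : X ⊆ Y) : Eqv a χ X f := fun i x hx => h i x fun j => hXY (hx j)

theorem eqv_zero {a : I → E → E} {χ : I → k} {X : Set E} {n : ℕ} :
    Eqv a χ X (0 : (Fin n → E) → k) := fun i x _ => by simp

theorem Eqv.add {a : I → E → E} {χ : I → k} {X : Set E} {n : ℕ} {f f' : (Fin n → E) → k}
    (h : Eqv a χ X f) (h' : Eqv a χ X f') : Eqv a χ X (f + f') := fun i x hx => by
  rw [Pi.add_apply, Pi.add_apply, h i x hx, h' i x hx, mul_add]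

theorem Eqv.smul {a : I → E → E} {χ : I → k} {X : Set E} {n : ℕ} {f : (Fin n → E) → k} (c : k)
    (h : Eqv a χ X f) : Eqv a χ X (c • f) := fun i x hx => by
  rw [Pi.smul_apply, Pi.smul_apply, h i x hx, smul_eq_mul, smul_eq_mul, mul_left_comm]

theorem Eqv.d {a : I → E → E} {χ : I → k} {X : Set E} {n : ℕ} {f : (Fin n → E) → k}
    (h : Eqv a χ X f) : Eqv a χ X (P265.AS.d f) := by
  intro i x hx
  have h1 : P265.AS.d f (a i ∘ x) = P265.AS.d (P265.AS.pb (a i) f) x := by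
    rw [P265.AS.d_pb]; rfl
  have h2 : P265.AS.d (P265.AS.pb (a i) f) x = P265.AS.d (χ i • f) x := by
    apply P265.AS.d_congr
    intro y hy
    exact h i y (P265.AS.sub_mem hx hy)
  rw [h1, h2, P265.AS.d_smul]; rfl

/-- The submodule of equivariant cochains. -/
def eqvS (a : I → E → E) (χ : I → k) (X : Set E) (n : ℕ) : Submodule k ((Fin n → E) → k) where
  carrier := {f | Eqv a χ X f}
  zero_mem' := eqv_zero
  add_mem' := Eqv.add
  smul_mem' c _ h := h.smul c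

/-- All equivariant cochains. -/
def Cc (a : I → E → E) (χ : I → k) (X : Set E) : Sub (ASK E k) where
  S n := eqvS a χ X (n + 1)
  d_mem h := Eqv.d h

theorem mem_Cc {a : I → E → E} {χ : I → k} {X : Set E} {n : ℕ} {f : (Fin (n + 1) → E) → k} :
    f ∈ Cc a χ X n ↔ Eqv a χ X f := Iff.rfl

theorem Cc_anti {a : I → E → E} {χ : I → k} {X Y : Set E} (h : X ⊆ Y) :
    Cc a χ Y ≤ Cc a χ X := fun _ _ hf => Eqv.mono hf h

section Metric

variable [PseudoMetricSpace E] [PseudoMetricSpace E'] [PseudoMetricSpace E'']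

/-- Small tuples of `X`: the entries lie in `X` and have mutual distances `< ε`. -/
abbrev Sm (X : Set E) (ε : ℝ) {n : ℕ} (x : Fin n → E) : Prop := P265.AS.Sm X ε x

/-- `f` vanishes on the small tuples of `A`. -/
def Van (A : Set E) {n : ℕ} (f : (Fin n → E) → k) : Prop := ∃ ε > 0, ∀ x, Sm A ε x → f x = 0

theorem Van.mono {A B : Set E} {n : ℕ} {f : (Fin n → E) → k} (h : Van B f) (hAB : A ⊆ B) :
    Van A f := by
  obtain ⟨ε, hε, h⟩ := h
  exact ⟨ε, hε, fun x hx => h x (hx.mono hAB le_rfl)⟩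

theorem van_zero {A : Set E} {n : ℕ} : Van A (0 : (Fin n → E) → k) := ⟨1, one_pos, fun _ _ => rfl⟩

theorem Van.add {A : Set E} {n : ℕ} {f f' : (Fin n → E) → k} (h : Van A f) (h' : Van A f') :
    Van A (f + f') := by
  obtain ⟨ε, hε, h⟩ := h
  obtain ⟨ε', hε', h'⟩ := h'
  refine ⟨min ε ε', lt_min hε hε', fun x hx => ?_⟩
  rw [Pi.add_apply, h x (hx.mono le_rfl (min_le_left _ _)),
    h' x (hx.mono le_rfl (min_le_right _ _)), add_zero]

theorem Van.smul {A : Set E} {n : ℕ} {f : (Fin n → E) → k} (c : k) (h : Van A f) :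
    Van A (c • f) := by
  obtain ⟨ε, hε, h⟩ := h
  exact ⟨ε, hε, fun x hx => by rw [Pi.smul_apply, h x hx, smul_zero]⟩

theorem Van.d {A : Set E} {n : ℕ} {f : (Fin n → E) → k} (h : Van A f) :
    Van A (P265.AS.d f) := by
  obtain ⟨ε, hε, h⟩ := h
  exact ⟨ε, hε, fun x hx => P265.AS.d_eq_zero fun y hy => h y (hx.sub hy)⟩

/-- Equivariant (on `X`) cochains vanishing on the small tuples of `A`. -/
def Zr (a : I → E → E) (χ : I → k) (X A : Set E) : Sub (ASK E k) where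
  S _ :=
    { carrier := {f | Eqv a χ X f ∧ Van A f}
      zero_mem' := ⟨eqv_zero, van_zero⟩
      add_mem' := fun h h' => ⟨h.1.add h'.1, h.2.add h'.2⟩
      smul_mem' := fun c _ h => ⟨h.1.smul c, h.2.smul c⟩ }
  d_mem h := ⟨h.1.d, h.2.d⟩

theorem mem_Zr {a : I → E → E} {χ : I → k} {X A : Set E} {n : ℕ} {f : (Fin (n + 1) → E) → k} :
    f ∈ Zr a χ X A n ↔ Eqv a χ X f ∧ Van A f := Iff.rfl

theorem Zr_le_Cc {a : I → E → E} {χ : I → k} {X A : Set E} : Zr a χ X A ≤ Cc a χ X :=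
  fun _ _ h => h.1

theorem Zr_anti {a : I → E → E} {χ : I → k} {X Y A B : Set E} (h : X ⊆ Y) (h' : A ⊆ B) :
    Zr a χ Y B ≤ Zr a χ X A := fun _ _ hf => ⟨hf.1.mono h, hf.2.mono h'⟩

theorem Zr_empty {a : I → E → E} {χ : I → k} {X : Set E} : Zr a χ X ∅ = Cc a χ X := by
  refine le_antisymm Zr_le_Cc fun n f hf => ⟨hf, 1, one_pos, fun x hx => ?_⟩
  exact absurd (hx.1 0) (notMem_empty _)

/-- The tuples of `X` with mutual distances `< ε` and entries `ε`-close to `A`. -/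
def SmN (X A : Set E) (ε : ℝ) {n : ℕ} (x : Fin n → E) : Prop :=
  Sm X ε x ∧ ∀ i, ∃ y ∈ A, dist (x i) y < ε

theorem SmN.mono {X Y A B : Set E} {ε δ : ℝ} {n : ℕ} {x : Fin n → E} (h : SmN X A ε x)
    (hXY : X ⊆ Y) (hAB : A ⊆ B) (hε : ε ≤ δ) : SmN Y B δ x :=
  ⟨h.1.mono hXY hε, fun i => by
    obtain ⟨y, hy, h⟩ := h.2 i
    exact ⟨y, hAB hy, h.trans_le hε⟩⟩

theorem SmN.sub {X A : Set E} {ε : ℝ} {m n : ℕ} {x : Fin n → E} {y : Fin m → E}
    (h : SmN X A ε x) (hy : P265.AS.Sub y x) : SmN X A ε y :=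
  ⟨h.1.sub hy, fun i => by
    obtain ⟨j, hj⟩ := hy i
    exact hj ▸ h.2 j⟩

/-- `f` vanishes on the small tuples of `X` near `A`. -/
def VanN (X A : Set E) {n : ℕ} (f : (Fin n → E) → k) : Prop :=
  ∃ ε > 0, ∀ x, SmN X A ε x → f x = 0

theorem VanN.mono {X Y A B : Set E} {n : ℕ} {f : (Fin n → E) → k} (h : VanN Y B f) (hX : X ⊆ Y)
    (hAB : A ⊆ B) : VanN X A f := by
  obtain ⟨ε, hε, h⟩ := h
  exact ⟨ε, hε, fun x hx => h x (hx.mono hX hAB le_rfl)⟩

theorem vanN_zero {X A : Set E} {n : ℕ} : VanN X A (0 : (Fin n → E) → k) :=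
  ⟨1, one_pos, fun _ _ => rfl⟩

theorem VanN.add {X A : Set E} {n : ℕ} {f f' : (Fin n → E) → k} (h : VanN X A f)
    (h' : VanN X A f') : VanN X A (f + f') := by
  obtain ⟨ε, hε, h⟩ := h
  obtain ⟨ε', hε', h'⟩ := h'
  refine ⟨min ε ε', lt_min hε hε', fun x hx => ?_⟩
  rw [Pi.add_apply, h x (hx.mono le_rfl le_rfl (min_le_left _ _)),
    h' x (hx.mono le_rfl le_rfl (min_le_right _ _)), add_zero]

theorem VanN.smul {X A : Set E} {n : ℕ} {f : (Fin n → E) → k} (c : k) (h : VanN X A f) :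
    VanN X A (c • f) := by
  obtain ⟨ε, hε, h⟩ := h
  exact ⟨ε, hε, fun x hx => by rw [Pi.smul_apply, h x hx, smul_zero]⟩

theorem VanN.d {X A : Set E} {n : ℕ} {f : (Fin n → E) → k} (h : VanN X A f) :
    VanN X A (P265.AS.d f) := by
  obtain ⟨ε, hε, h⟩ := h
  exact ⟨ε, hε, fun x hx => P265.AS.d_eq_zero fun y hy => h y (hx.sub hy)⟩

/-- Equivariant (on `X`) cochains vanishing on the small tuples of `X` near `A` (germs). -/
def Zn (a : I → E → E) (χ : I → k) (X A : Set E) : Sub (ASK E k) where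
  S _ :=
    { carrier := {f | Eqv a χ X f ∧ VanN X A f}
      zero_mem' := ⟨eqv_zero, vanN_zero⟩
      add_mem' := fun h h' => ⟨h.1.add h'.1, h.2.add h'.2⟩
      smul_mem' := fun c _ h => ⟨h.1.smul c, h.2.smul c⟩ }
  d_mem h := ⟨h.1.d, h.2.d⟩

theorem mem_Zn {a : I → E → E} {χ : I → k} {X A : Set E} {n : ℕ} {f : (Fin (n + 1) → E) → k} :
    f ∈ Zn a χ X A n ↔ Eqv a χ X f ∧ VanN X A f := Iff.rfl

theorem Zn_le_Zr {a : I → E → E} {χ : I → k} {X A : Set E} (hA : A ⊆ X) :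
    Zn a χ X A ≤ Zr a χ X A := by
  rintro n f ⟨h, ε, hε, h1⟩
  exact ⟨h, ε, hε, fun x hx => h1 x ⟨hx.mono hA le_rfl, fun i => ⟨x i, hx.1 i, by simpa using hε⟩⟩⟩

theorem Zr_self_eq_Zn {a : I → E → E} {χ : I → k} {X : Set E} : Zr a χ X X = Zn a χ X X :=
  le_antisymm (fun _ _ h => ⟨h.1, by
    obtain ⟨ε, hε, h1⟩ := h.2
    exact ⟨ε, hε, fun x hx => h1 x hx.1⟩⟩) (Zn_le_Zr le_rfl)

theorem Zn_anti {a : I → E → E} {χ : I → k} {X Y A B : Set E} (h : X ⊆ Y) (h' : A ⊆ B) :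
    Zn a χ Y B ≤ Zn a χ X A := by
  rintro n f ⟨hf, ε, hε, h1⟩
  exact ⟨hf.mono h, ε, hε, fun x hx => h1 x (hx.mono h h' le_rfl)⟩

/-- The cohomology of the pair `(X, A)`. -/
abbrev Hr (a : I → E → E) (χ : I → k) (X A : Set E) (n : ℕ) : Type :=
  H (Zr a χ X A) (Zr a χ X X) n

/-- The cohomology of `X`. -/
abbrev Ha (a : I → E → E) (χ : I → k) (X : Set E) (n : ℕ) : Type :=
  H (Cc a χ X) (Zr a χ X X) n

/-- Restriction. -/
def resR {a : I → E → E} {χ : I → k} {X A Y B : Set E} (hY : Y ⊆ X) (hB : B ⊆ A) (n : ℕ) :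
    Hr a χ X A n →ₗ[k] Hr a χ Y B n :=
  Hinc (Zr_anti hY hB) (Zr_anti hY hY) n

/-- Restriction. -/
def res {a : I → E → E} {χ : I → k} {X Y : Set E} (hY : Y ⊆ X) (n : ℕ) :
    Ha a χ X n →ₗ[k] Ha a χ Y n :=
  Hinc (Cc_anti hY) (Zr_anti hY hY) n

/-! ### Relative cocycles and coboundaries in explicit form -/

theorem mem_Zc_rel {a : I → E → E} {χ : I → k} {X A : Set E} {n : ℕ}
    {f : (Fin (n + 1) → E) → k} : f ∈ Zc (Zr a χ X A) (Zr a χ X X) n ↔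
      Eqv a χ X f ∧ Van A f ∧ Van X (P265.AS.d f) :=
  ⟨fun h => ⟨h.1.1, h.1.2, h.2.2⟩, fun h => ⟨⟨h.1, h.2.1⟩, h.1.d, h.2.2⟩⟩

theorem mem_Zc_abs {a : I → E → E} {χ : I → k} {X : Set E} {n : ℕ}
    {f : (Fin (n + 1) → E) → k} : f ∈ Zc (Cc a χ X) (Zr a χ X X) n ↔
      Eqv a χ X f ∧ Van X (P265.AS.d f) :=
  ⟨fun h => ⟨h.1, h.2.2⟩, fun h => ⟨h.1, h.1.d, h.2⟩⟩

end Metric

end Vale.Agent.P216.AS
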