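import Mathlib.Data.Nat.Prime.Infinite
import Mathlib.Topology.Instances.Real.Lemmas
import Mathlib.Topology.Order.Basic
import Mathlib.Tactic

/-!
# Endgame of Theorem A (P216, step (4) of note 8651): choice of the prime and of the window

Pure real analysis: the numbers `N p s = dim H(X_s; L ⊗ F_p)` are bounded by `K`, constant on
critical-free intervals, satisfy the Smith inequality; windows of Smith equality whose image under
`1/p` is critical-free have bounded length.  Contradiction.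
-/

open Filter Topology Set

namespace Vale.Agent.P216.AS

/-- all lengths of iterates of closed geodesics of prime lengths `ℓ i` -/
def Crit {ι : Type*} (ℓ : ι → ℝ) : Set ℝ := {x | ∃ i, ∃ m : ℕ, 0 < m ∧ x = m * ℓ i}

theorem gap_lemma {ι : Type*} (ℓ : ι → ℝ) (hℓ : ∀ i, 0 < ℓ i) (T : Finset ι) :
    ∀ w : ℝ, 0 < w → ∃ c : ℝ, 0 < c ∧ ∀ x : ℝ, ∃ y : ℝ, x ≤ y ∧ y + c ≤ x + w ∧
      ∀ z ∈ Ioo y (y + c), ∀ i ∈ T, ∀ m : ℕ, z ≠ m * ℓ i := by
  classical
  induction T using Finset.induction_on with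
  | empty =>
    intro w hw
    exact ⟨w, hw, fun x => ⟨x, le_refl _, le_refl _, by simp⟩⟩
  | insert i T hi ih =>
    intro w hw
    have hw' : 0 < min w (ℓ i) / 2 := by
      have := hℓ i
      positivity
    obtain ⟨c, hc, hcx⟩ := ih (min w (ℓ i) / 2) hw'
    refine ⟨c, hc, fun x => ?_⟩
    set v := min w (ℓ i) / 2 with hv
    have hvw : v + v ≤ w := by
      have := min_le_left w (ℓ i)
      rw [hv]; linarith
    have hvl : v + v ≤ ℓ i := by
      have := min_le_right w (ℓ i)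
      rw [hv]; linarith
    -- one of the two halves contains no multiple of `ℓ i`
    have key : (∀ z ∈ Ioo x (x + v), ∀ m : ℕ, z ≠ m * ℓ i) ∨
        (∀ z ∈ Ioo (x + v) (x + v + v), ∀ m : ℕ, z ≠ m * ℓ i) := by
      by_contra hcon
      push Not at hcon
      obtain ⟨⟨z, hz, m, hm⟩, ⟨z', hz', m', hm'⟩⟩ := hcon
      have h1 : z < z' := lt_trans hz.2 hz'.1
      have h2 : z' - z < v + v := by
        have := hz.1
        have := hz'.2
        linarith
      have h3 : (m : ℝ) < m' := by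
        by_contra h
        push Not at h
        have : (m' : ℝ) * ℓ i ≤ m * ℓ i := mul_le_mul_of_nonneg_right h (hℓ i).le
        linarith
      have h4 : (m : ℝ) + 1 ≤ m' := by
        have : m + 1 ≤ m' := by exact_mod_cast h3
        exact_mod_cast this
      have h5 : ((m : ℝ) + 1) * ℓ i ≤ m' * ℓ i := mul_le_mul_of_nonneg_right h4 (hℓ i).le
      have h6 : ℓ i ≤ z' - z := by rw [hm, hm']; linarith
      linarith
    rcases key with h | h
    · obtain ⟨y, hy1, hy2, hy3⟩ := hcx x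
      refine ⟨y, hy1, by linarith, ?_⟩
      intro z hz j hj m
      rcases Finset.mem_insert.mp hj with rfl | hj
      · exact h z ⟨by linarith [hz.1], by linarith [hz.2]⟩ m
      · exact hy3 z hz j hj m
    · obtain ⟨y, hy1, hy2, hy3⟩ := hcx (x + v)
      refine ⟨y, by linarith, by linarith, ?_⟩
      intro z hz j hj m
      rcases Finset.mem_insert.mp hj with rfl | hj
      · exact h z ⟨by linarith [hz.1], by linarith [hz.2]⟩ m
      · exact hy3 z hz j hj m

theorem eventually_not_crit {ι : Type*} [Finite ι] (ℓ : ι → ℝ) (hℓ : ∀ i, 0 < ℓ i) {s : ℝ}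
    (hs0 : 0 < s) (hs : s ∉ Crit ℓ) : ∀ᶠ z in 𝓝 s, z ∉ Crit ℓ := by
  have h : ∀ i, ∀ᶠ z in 𝓝 s, ∀ m : ℕ, 0 < m → z ≠ m * ℓ i := by
    intro i
    have hl := hℓ i
    set n := ⌊s / ℓ i⌋₊ with hn
    have h1 : (n : ℝ) ≤ s / ℓ i := Nat.floor_le (by positivity)
    have h2 : s / ℓ i < n + 1 := Nat.lt_floor_add_one _
    have h3 : s < (n + 1) * ℓ i := by rwa [div_lt_iff₀ hl] at h2
    have h4 : (n : ℝ) * ℓ i ≤ s := by rwa [le_div_iff₀ hl] at h1
    have h5 : (n : ℝ) * ℓ i < s := by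
      rcases Nat.eq_zero_or_pos n with h0 | h0
      · rw [h0]; simpa using hs0
      · rcases h4.lt_or_eq with h | h
        · exact h
        · exact absurd ⟨i, n, h0, h.symm⟩ hs
    filter_upwards [Ioo_mem_nhds h5 h3] with z hz m _ hzm
    rw [hzm] at hz
    have h6 : (n : ℝ) < m := by
      by_contra hc
      push Not at hc
      have := mul_le_mul_of_nonneg_right hc hl.le
      linarith [hz.1]
    have h7 : (m : ℝ) < n + 1 := by
      by_contra hc
      push Not at hc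
      have := mul_le_mul_of_nonneg_right hc hl.le
      linarith [hz.2]
    have h8 : n < m := by exact_mod_cast h6
    have h9 : m < n + 1 := by exact_mod_cast h7
    omega
  filter_upwards [eventually_all.mpr h] with z hz
  rintro ⟨i, m, hm, rfl⟩
  exact hz i m hm rfl

theorem mul_mem_crit {ι : Type*} {ℓ : ι → ℝ} {p : ℕ} (hp : 0 < p) {s : ℝ} (hs : s ∈ Crit ℓ) :
    (p : ℝ) * s ∈ Crit ℓ := by
  obtain ⟨i, m, hm, rfl⟩ := hs
  exact ⟨i, p * m, Nat.mul_pos hp hm, by push_cast; ring⟩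

/-- **Endgame.** -/
theorem endgame {ι : Type*} [Finite ι] (ℓ : ι → ℝ) (hℓ : ∀ i, 0 < ℓ i)
    (N : ℕ → ℝ → ℕ) (K : ℕ) (C : ℝ)
    (hK : ∀ p : ℕ, p.Prime → 2 < p → ∀ s : ℝ, 0 < s → s ∉ Crit ℓ → N p s ≤ K)
    (hconst : ∀ p : ℕ, p.Prime → 2 < p → ∀ s t : ℝ, 0 < s → s ≤ t →
      (∀ x ∈ Icc s t, x ∉ Crit ℓ) → N p s = N p t)
    (hsmith : ∀ p : ℕ, p.Prime → 2 < p → ∀ s : ℝ, 0 < s → s ∉ Crit ℓ → p * s ∉ Crit ℓ →
      N p s ≤ N p (p * s))
    (hwin : ∀ p : ℕ, p.Prime → 2 < p → ∀ α β : ℝ, 0 < α → α < β →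
      (∀ x ∈ Ioo α β, x / p ∉ Crit ℓ) →
      (∀ s ∈ Ioo α β, s ∉ Crit ℓ → N p (s / p) = N p s) → β - α ≤ C) : False := by
  classical
  have := Fintype.ofFinite ι
  obtain ⟨c, hc, hgap⟩ := gap_lemma ℓ hℓ Finset.univ 1 one_pos
  obtain ⟨p, hpC, hp⟩ := Nat.exists_infinite_primes (max 3 (⌊C / c⌋₊ + 1))
  have hp3 : 2 < p := lt_of_lt_of_le (by norm_num) ((le_max_left _ _).trans hpC)
  have hpc : C < p * c := by
    have h1 : (⌊C / c⌋₊ + 1 : ℕ) ≤ p := (le_max_right _ _).trans hpC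
    have h2 : C / c < ⌊C / c⌋₊ + 1 := Nat.lt_floor_add_one _
    have h3 : ((⌊C / c⌋₊ : ℝ) + 1) ≤ p := by exact_mod_cast h1
    have h4 : C / c < p := lt_of_lt_of_le h2 h3
    rwa [div_lt_iff₀ hc] at h4
  have hp0 : (0 : ℝ) < p := by
    have : 0 < p := by omega
    exact_mod_cast this
  have hp1 : (1 : ℝ) < p := by
    have : 1 < p := by omega
    exact_mod_cast this
  -- regular values exist
  have hreg : ∃ s : ℝ, 0 < s ∧ s ∉ Crit ℓ := by
    obtain ⟨y, hy1, hy2, hy3⟩ := hgap 1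
    refine ⟨y + c / 2, by linarith, ?_⟩
    rintro ⟨i, m, _, h⟩
    exact hy3 (y + c / 2) ⟨by linarith, by linarith⟩ i (Finset.mem_univ i) m h
  -- maximal value
  let P : ℕ → Prop := fun n => ∃ s : ℝ, 0 < s ∧ s ∉ Crit ℓ ∧ N p s = n
  have hPbdd : ∀ n, P n → n ≤ K := by
    rintro n ⟨s, hs0, hs, rfl⟩
    exact hK p hp hp3 s hs0 hs
  obtain ⟨s₁, hs₁0, hs₁⟩ := hreg
  have hPne : P (N p s₁) := ⟨s₁, hs₁0, hs₁, rfl⟩
  obtain ⟨Nmax, hNmax, hmax⟩ : ∃ n, P n ∧ ∀ m, P m → m ≤ n :=
    ⟨Nat.findGreatest P K, Nat.findGreatest_spec (hPbdd _ hPne) hPne,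
      fun m hm => Nat.le_findGreatest (hPbdd m hm) hm⟩
  obtain ⟨s₀, hs₀0, hs₀, hNs₀⟩ := hNmax
  have hle : ∀ s : ℝ, 0 < s → s ∉ Crit ℓ → N p s ≤ Nmax := fun s h0 h => hmax _ ⟨s, h0, h, rfl⟩
  -- a critical-free neighbourhood
  obtain ⟨e, he, hball⟩ := Metric.eventually_nhds_iff.mp
    ((eventually_not_crit ℓ hℓ hs₀0 hs₀).and (lt_mem_nhds hs₀0))
  set t := s₀ - e / 2 with ht
  have htin : ∀ x ∈ Icc t (t + e / 2 + e / 4), x ∉ Crit ℓ ∧ 0 < x := by
    intro x hx
    have h1 : dist x s₀ < e := by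
      rw [Real.dist_eq, abs_lt]
      constructor
      · have := hx.1; rw [ht] at this; linarith
      · have := hx.2; rw [ht] at this; linarith
    exact hball h1
  have ht0 : 0 < t := (htin t ⟨le_refl _, by linarith⟩).2
  have hNt : ∀ x ∈ Ioo t (t + e / 2), N p x = Nmax := by
    intro x hx
    have h1 : x ≤ s₀ := by have := hx.2; rw [ht] at this; linarith
    rw [← hNs₀]
    apply hconst p hp hp3 x s₀ (by linarith [hx.1]) h1
    intro y hy
    apply (htin y ⟨by linarith [hx.1, hy.1], ?_⟩).1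
    have := hy.2
    rw [ht]; linarith
  -- blow up
  have hpow : ∀ j : ℕ, ∀ x ∈ Ioo ((p : ℝ) ^ j * t) ((p : ℝ) ^ j * (t + e / 2)),
      x ∉ Crit ℓ → N p x = Nmax := by
    intro j
    induction j with
    | zero => intro x hx _; exact hNt x (by simpa using hx)
    | succ j ih =>
      intro x hx hxc
      have hx0 : 0 < x := lt_trans (by positivity) hx.1
      have hxp : x / p ∉ Crit ℓ := by
        intro h
        apply hxc
        have := mul_mem_crit (p := p) (by omega) h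
        rwa [mul_div_cancel₀ x hp0.ne'] at this
      have h1 : N p (x / p) = Nmax := by
        apply ih _ _ hxp
        constructor
        · rw [lt_div_iff₀ hp0]
          have := hx.1
          rw [pow_succ] at this
          linarith
        · rw [div_lt_iff₀ hp0]
          have := hx.2
          rw [pow_succ] at this
          linarith
      have h2 : N p (x / p) ≤ N p (p * (x / p)) := by
        apply hsmith p hp hp3 (x / p) (by positivity) hxp
        rwa [mul_div_cancel₀ x hp0.ne']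
      rw [mul_div_cancel₀ x hp0.ne', h1] at h2
      exact le_antisymm (hle x hx0 hxc) h2
  -- a long interval
  obtain ⟨j, hj⟩ : ∃ j : ℕ, 2 / e < (p : ℝ) ^ j := pow_unbounded_of_one_lt _ hp1
  have hlong : 1 < (p : ℝ) ^ j * (e / 2) := by
    rw [div_lt_iff₀ he] at hj
    linarith
  obtain ⟨y, hy1, hy2, hy3⟩ := hgap ((p : ℝ) ^ j * t)
  have hy0 : 0 < y := lt_of_lt_of_le (by positivity) hy1
  have hcontra := hwin p hp hp3 (p * y) (p * (y + c)) (by positivity)
    (mul_lt_mul_of_pos_left (by linarith) hp0) ?_ ?_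
  · have : (p : ℝ) * (y + c) - p * y = p * c := by ring
    linarith
  · rintro x hx ⟨i, m, _, h⟩
    refine hy3 (x / p) ⟨?_, ?_⟩ i (Finset.mem_univ i) m h
    · rw [lt_div_iff₀ hp0]; linarith [hx.1]
    · rw [div_lt_iff₀ hp0]; linarith [hx.2]
  · intro s hs hsc
    have hsp : s / p ∈ Ioo y (y + c) := by
      constructor
      · rw [lt_div_iff₀ hp0]; linarith [hs.1]
      · rw [div_lt_iff₀ hp0]; linarith [hs.2]
    have hspc : s / p ∉ Crit ℓ := by
      rintro ⟨i, m, _, h⟩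
      exact hy3 (s / p) hsp i (Finset.mem_univ i) m h
    have h1 : N p (s / p) = Nmax := by
      apply hpow j _ _ hspc
      constructor
      · linarith [hsp.1]
      · have : (p : ℝ) ^ j * (t + e / 2) = (p : ℝ) ^ j * t + (p : ℝ) ^ j * (e / 2) := by ring
        linarith [hsp.2]
    have hs0 : 0 < s := lt_trans (by positivity) hs.1
    have h2 : N p (s / p) ≤ N p (p * (s / p)) := by
      apply hsmith p hp hp3 (s / p) (by positivity) hspc
      rwa [mul_div_cancel₀ s hp0.ne']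
    rw [mul_div_cancel₀ s hp0.ne', h1] at h2
    rw [h1]
    exact le_antisymm h2 (hle s hs0 hsc)

end Vale.Agent.P216.AS
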