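import Vale.Agent.P216.AS.Setup707
import Vale.Agent.P216.Bor.Reg
import Vale.Agent.P216.H985.LefMain
import Vale.Agent.P216.H609.Count

set_option linter.unusedSectionVars false

/-! # End of the topological half: no system with bounded bars, bounded cohomology and a base -/

open Set Topology
open Module (finrank)

namespace Vale.Agent.P216.AS

/-! ### Induction along the line -/

/-- A transitive relation on regular levels which holds over critical-free intervals and across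
each critical level holds everywhere. -/
theorem line_rel {K : Set ℝ} (hK : ∀ s t, (K ∩ Icc s t).Finite) {R : ℝ → ℝ → Prop} {α β : ℝ}
    (trans : ∀ a b c, α < a → a ≤ b → b ≤ c → c < β → a ∉ K → b ∉ K → c ∉ K →
      R a b → R b c → R a c)
    (hreg : ∀ s t, α < s → s ≤ t → t < β → (∀ x ∈ Icc s t, x ∉ K) → R s t)
    (hcross : ∀ c ∈ K, α < c → c < β → ∀ ε > 0, ∃ s t, c - ε < s ∧ s < c ∧ c < t ∧ t < c + ε ∧
      s ∉ K ∧ t ∉ K ∧ R s t) {s t : ℝ} (hs : α < s) (hst : s ≤ t) (ht : t < β) (hsK : s ∉ K)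
    (htK : t ∉ K) : R s t := by
  generalize hn : (K ∩ Icc s t).ncard = n
  induction n using Nat.strong_induction_on generalizing s t with
  | _ n ih =>
    rcases (K ∩ Icc s t).eq_empty_or_nonempty with h0 | ⟨c, hcK, hc⟩
    · refine hreg s t hs hst ht fun x hx hxK => ?_
      have : x ∈ K ∩ Icc s t := ⟨hxK, hx⟩
      rw [h0] at this
      exact this
    · have hsc : s < c := lt_of_le_of_ne hc.1 fun h => hsK (h ▸ hcK)
      have hct : c < t := lt_of_le_of_ne hc.2 fun h => htK (h ▸ hcK)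
      obtain ⟨a, b, h1, h2, h3, h4, haK, hbK, hR⟩ := hcross c hcK (hs.trans hsc) (hct.trans ht)
        (min (c - s) (t - c)) (lt_min (by linarith) (by linarith))
      have h5 : s < a := by have := min_le_left (c - s) (t - c); linarith
      have h6 : b < t := by have := min_le_right (c - s) (t - c); linarith
      have hfin := hK s t
      have hcard : ∀ x y, s ≤ x → y ≤ t → (c < x ∨ y < c) →
          (K ∩ Icc x y).ncard < n := by
        intro x y hx hy hxy
        rw [← hn]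
        refine Set.ncard_lt_ncard ⟨fun z hz => ⟨hz.1, hx.trans hz.2.1, hz.2.2.trans hy⟩, ?_⟩ hfin
        intro hsub
        have := hsub ⟨hcK, hc⟩
        rcases hxy with h | h
        · exact absurd this.2.1 (not_le.2 h)
        · exact absurd this.2.2 (not_le.2 h)
      have r1 : R s a := ih _ (hcard s a le_rfl (by linarith) (Or.inr h2)) hs h5.le
        (by linarith) hsK haK rfl
      have r2 : R b t := ih _ (hcard b t (by linarith) le_rfl (Or.inl h3)) (by linarith) h6.le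
        ht hbK htK rfl
      have r3 : R s b := trans s a b hs h5.le (by linarith) (by linarith) hsK haK hbK r1 hR
      exact trans s b t hs (by linarith) h6.le ht hsK hbK htK r3 r2

/-- regular values exist in each interval -/
theorem exists_regular {K : Set ℝ} (hK : ∀ s t, (K ∩ Icc s t).Finite) {s t : ℝ} (h : s < t) :
    ∃ x ∈ Ioo s t, x ∉ K := by
  by_contra hcon
  push Not at hcon
  have h1 : Ioo s t ⊆ K ∩ Icc s t := fun x hx => ⟨hcon x hx, hx.1.le, hx.2.le⟩
  exact (Ioo_infinite h) ((hK s t).subset h1)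

/-- both `c - e` and `c + e` are regular for arbitrarily small `e` -/
theorem exists_regular_pm {K : Set ℝ} (hK : ∀ s t, (K ∩ Icc s t).Finite) (c : ℝ) {ε : ℝ}
    (hε : 0 < ε) : ∃ e, 0 < e ∧ e < ε ∧ c - e ∉ K ∧ c + e ∉ K := by
  by_contra hcon
  push Not at hcon
  have h1 : Ioo 0 ε ⊆ (fun e => c - e) ⁻¹' (K ∩ Icc (c - ε) (c + ε)) ∪
      (fun e => c + e) ⁻¹' (K ∩ Icc (c - ε) (c + ε)) := by
    intro e he
    by_cases h : c - e ∈ K
    · exact Or.inl ⟨h, by linarith [he.2], by linarith [he.1]⟩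
    · exact Or.inr ⟨hcon e he.1 he.2 h, by linarith [he.1], by linarith [he.2]⟩
  refine (Ioo_infinite hε) (Set.Finite.subset (Set.Finite.union ?_ ?_) h1)
  · exact (hK _ _).preimage fun x _ y _ h => by simpa using h
  · exact (hK _ _).preimage fun x _ y _ h => by simpa using h

/-! ### Crossing -/

namespace GCx.Pair

variable {k : Type} [Field k] {C : Amb k} {G : GCx C} {R : Rev G}

/-- if all `u` are injective then torsion classes vanish -/
theorem mem_Bc_of_uTors {P : G.Pair} (hu : ∀ n, Function.Injective (P.u n)) {n : ℕ}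
    {c : ∀ q, C.K q} (hc : c ∈ Zc (G.TotS P.S P.hS) (G.TotS P.T P.hT) n) (m : ℕ)
    (h : (c : G.Tot.K (n + 2 * m)) ∈ Bc (G.TotS P.S P.hS) (G.TotS P.T P.hT) (n + 2 * m)) :
    (c : G.Tot.K n) ∈ Bc (G.TotS P.S P.hS) (G.TotS P.T P.hT) n := by
  induction m with
  | zero => exact h
  | succ m ih =>
    apply ih
    rw [show n + 2 * (m + 1) = n + 2 * m + 2 by ring] at h
    have hc' : c ∈ Zc (G.TotS P.S P.hS) (G.TotS P.T P.hT) (n + 2 * m) := H609.umap_aux n m hc
    have h1 : P.u (n + 2 * m) (H.mk (C := G.Tot) c hc') = 0 := H.mk_eq_zero.mpr h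
    have h2 : H.mk (C := G.Tot) c hc' = 0 := hu _ (by rw [h1, map_zero])
    exact H.mk_eq_zero.mp h2

variable {T S U : Sub C} (hT : G.Stable T) (hS : G.Stable S) (hU : G.Stable U)
  (hTS : T ≤ S) (hSU : S ≤ U)

section Cross

variable (ht : H609.UTors G S T hS hT)
  (hu : ∀ n, Function.Injective ((ofLe hT hU (hTS.trans hSU)).u n))

include ht hu

theorem cross_inc_eq_zero (n : ℕ) (x : (ofLe hT hS hTS).FF n) :
    (resF (P := ofLe hT hS hTS) (P' := ofLe hT hU (hTS.trans hSU)) hSU le_rfl n) x = 0 := by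
  obtain ⟨c, hc, rfl⟩ := H.exists_mk x
  obtain ⟨m, hm⟩ := ht n c hc
  refine H.mk_eq_zero.mpr ?_
  refine mem_Bc_of_uTors (P := ofLe hT hU (hTS.trans hSU)) hu
    (Zc_mono (TotS_mono hS hU hSU) le_rfl n hc) m ?_
  exact Bc_mono (TotS_mono hS hU hSU) le_rfl _ hm

theorem cross_injective (n : ℕ) : Function.Injective
    (resF (P := ofLe hT hU (hTS.trans hSU)) (P' := ofLe hS hU hSU) le_rfl hTS n) := by
  rw [injective_iff_map_eq_zero]
  intro x hx
  obtain ⟨y, rfl⟩ := (exact_mid (TotS_mono hT hS hTS) (TotS_mono hS hU hSU) x).mp hx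
  exact cross_inc_eq_zero hT hS hU hTS hSU ht hu n y

theorem cross_del_surjective (n : ℕ) : Function.Surjective (delF hT hS hU hTS hSU n) := by
  intro y
  have h1 := cross_inc_eq_zero hT hS hU hTS hSU ht hu (n + 1) y
  exact (exact_inc (TotS_mono hT hS hTS) (TotS_mono hS hU hSU) y).mp h1

theorem cross_chi (h2 : (2 : k) ≠ 0) (rT : R.Stable T) (rS : R.Stable S) (rU : R.Stable U)
    [∀ n, FiniteDimensional k ((ofLe hT hU (hTS.trans hSU)).FF n)]
    [∀ n, FiniteDimensional k ((ofLe hS hU hSU).FF n)]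
    [∀ n, FiniteDimensional k ((ofLe hT hS hTS).FF n)]
    (hchi : ∀ n, chi (rF (P := ofLe hT hS hTS) (R := R) ⟨rS, rT⟩ n) = 0) (n : ℕ) :
    chi (rF (P := ofLe hS hU hSU) (R := R) ⟨rU, rS⟩ n) =
      chi (rF (P := ofLe hT hU (hTS.trans hSU)) (R := R) ⟨rU, rT⟩ n) := by
  have h := chi_of_exact (k := k) h2
    (ρ := rF (P := ofLe hT hU (hTS.trans hSU)) (R := R) ⟨rU, rT⟩ n)
    (r := rF (P := ofLe hS hU hSU) (R := R) ⟨rU, rS⟩ n)
    (t := rF (P := ofLe hT hS hTS) (R := R) ⟨rS, rT⟩ (n + 1))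
    (level (P := ofLe hS hU hSU) (R := R) ⟨rU, rS⟩ |>.rF_rF n)
    (resF (P := ofLe hT hU (hTS.trans hSU)) (P' := ofLe hS hU hSU) le_rfl hTS n)
    (delF hT hS hU hTS hSU n)
    (cross_injective hT hS hU hTS hSU ht hu n)
    (cross_del_surjective hT hS hU hTS hSU ht hu n)
    (exact_del (TotS_mono hT hS hTS) (TotS_mono hS hU hSU))
    (fun x => (rF_resF (P := ofLe hT hU (hTS.trans hSU)) (P' := ofLe hS hU hSU) (R := R)
      ⟨rU, rT⟩ ⟨rU, rS⟩ le_rfl hTS n x).symm)
    (fun x => (rF_delF T S U hT hS hU hTS hSU R ⟨rU, rS⟩ ⟨rS, rT⟩ n x).symm)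
  rw [h, hchi (n + 1), add_zero]

end Cross

/-- equality of the characters through a bijection -/
theorem chi_rF_of_bijective {P P' : G.Pair} (hR : P.RStable R) (hR' : P'.RStable R)
    (hS : P.S ≤ P'.S) (hT : P.T ≤ P'.T) (n : ℕ) (h : Function.Bijective (resF hS hT n)) :
    chi (rF hR n) = chi (rF hR' n) :=
  H985.chi_congr (resF hS hT n) h fun x => (rF_resF hR hR' hS hT n x).symm

theorem resF_bijective {P P' : G.Pair} (hS : P.S ≤ P'.S) (hT : P.T ≤ P'.T)
    (h : ∀ n, Function.Bijective (resH hS hT n)) (n : ℕ) : Function.Bijective (resF hS hT n) :=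
  (IsGMor.id_of_le hS hT).mapF_bijective (fun n => h n) n

end GCx.Pair

end Vale.Agent.P216.AS

namespace Vale.Agent.P216.GSys

open AS AS.GCx.Pair

variable {Λ : Type} [PseudoMetricSpace Λ] (S : GSys Λ)

section Pairs

variable (k : Type) [Field k] (p : ℕ) (hp : 0 < p)

theorem goodSub {s t : ℝ} (h : s ≤ t) : (S.sym k p hp).GoodSub (S.X t) (S.X s) :=
  ⟨S.mono s t h, S.rot_mem p s, S.θ_mem s⟩

/-- The invariant pair of `(X t, X s)`. -/
def Q {s t : ℝ} (h : s ≤ t) : (S.sym k p hp).gcx.Pair :=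
  Sym.PR (S.good k p hp t) (S.goodSub k p hp (le_refl t)) (S.goodSub k p hp h) (S.mono s t h)

theorem Q_rstable {s t : ℝ} (h : s ≤ t) : (S.Q k p hp h).RStable (S.sym k p hp).rev :=
  Sym.PR_rstable _ _ _ _

/-- The system of Block LEFN. -/
theorem sys : H985.Sys (S.sym k p hp).gcx (S.sym k p hp).rev (fun _ : Unit => S.τ)
    (fun _ : Unit => (-1 : k)) S.X where
  mono := fun s t h => S.mono s t h
  inv s _ x := ⟨fun h => by
    have := S.τ_mem s h
    rwa [S.τ_τ] at this, fun h => S.τ_mem s h⟩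
  gC s := (S.P k p hp s).hS
  gZ s t h := (S.Q k p hp h).hS
  rC s := (S.P_rstable k p hp s).S
  rZ s t h := (S.Q_rstable k p hp h).S

end Pairs

/-! ### What the owners of the blocks LOC and CROSS prove -/

/-- LOC: localisation at the fixed points, counted. -/
def Loc : Prop := ∀ (p : ℕ) [Fact p.Prime] (hp : 0 < p), 2 < p → ∀ s : ℝ, 0 < s →
  (∀ n, Module.Finite (ZMod p) (S.V (ZMod p) s n)) →
  (∀ n, Module.Finite (ZMod p) (S.V (ZMod p) (p * s) n)) →
  ∀ J, (∀ j ≥ J, finrank (ZMod p) (S.V (ZMod p) s j) = 0) → ∀ m, ∃ n ≥ m,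
    2 * ∑ j ∈ Finset.range J, finrank (ZMod p) (S.V (ZMod p) s j) ≤
      finrank (ZMod p) ((S.P (ZMod p) p hp (p * s)).FF (n + 1)) +
      finrank (ZMod p) ((S.P (ZMod p) p hp (p * s)).FF n)

/-- CROSS (i): the relative equivariant cohomology across a free level is torsion. -/
def CrossTors : Prop := ∀ (p : ℕ) [Fact p.Prime] (hp : 0 < p), 2 < p → ∀ a : ℝ, 0 < a →
  a / (p : ℝ) ∉ AS.Crit S.ℓ → ∃ e₀ > 0, e₀ < a ∧ ∀ e, ∀ h : 0 < e, e ≤ e₀ →
    H609.UTors (S.sym (ZMod p) p hp).gcx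
      (S.Q (ZMod p) p hp (show a - e ≤ a + e by linarith)).S
      (S.Q (ZMod p) p hp (show a - e ≤ a + e by linarith)).T
      (S.Q (ZMod p) p hp (show a - e ≤ a + e by linarith)).hS
      (S.Q (ZMod p) p hp (show a - e ≤ a + e by linarith)).hT

/-- CROSS (ii): the relative cohomology across a level is balanced. -/
def CrossBal : Prop := ∀ (p : ℕ) [Fact p.Prime] (hp : 0 < p), 2 < p → ∀ a : ℝ, 0 < a →
  ∃ e₀ > 0, e₀ < a ∧ ∀ e, ∀ h : 0 < e, e ≤ e₀ →
    (∀ n, Module.Finite (ZMod p)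
      ((S.Q (ZMod p) p hp (show a - e ≤ a + e by linarith)).HH n)) →
    (∀ n, chi (rH (S.Q_rstable (ZMod p) p hp (show a - e ≤ a + e by linarith)) n) = 0) ∧
    ∀ n, chi (rF (S.Q_rstable (ZMod p) p hp (show a - e ≤ a + e by linarith)) n) = 0

/-! ### The numbers `N p s` -/

/-- total dimension of the cohomology of `X s` over `ZMod p` -/
noncomputable def N (p : ℕ) (s : ℝ) : ℕ :=
  open Classical in
  if h : p.Prime then
    have := Fact.mk h
    sSup (Set.range fun m => ∑ n ∈ Finset.range m, finrank (ZMod p) (S.V (ZMod p) s n))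
  else 0

theorem N_eq (p : ℕ) [h : Fact p.Prime] (s : ℝ) : S.N p s =
    sSup (Set.range fun m => ∑ n ∈ Finset.range m, finrank (ZMod p) (S.V (ZMod p) s n)) := by
  unfold N
  rw [dif_pos h.out]

/-- bound at a regular level -/
def Bd (K : ℕ) : Prop := ∀ p : ℕ, ∀ _ : Fact p.Prime, 2 < p → ∀ s : ℝ, 0 < s →
  s ∉ AS.Crit S.ℓ → (∀ n, Module.Finite (ZMod p) (S.V (ZMod p) s n)) ∧
    ∀ m, ∑ n ∈ Finset.range m, finrank (ZMod p) (S.V (ZMod p) s n) ≤ K

section Numbers

variable {S} {K : ℕ} (hK : S.Bd K) {p : ℕ} [hpp : Fact p.Prime] (h2 : 2 < p) {s : ℝ} (hs : 0 < s)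
  (hsc : s ∉ AS.Crit S.ℓ)

include hK h2 hs hsc

theorem N_le : S.N p s ≤ K := by
  rw [N_eq]
  refine csSup_le ⟨_, ⟨0, rfl⟩⟩ ?_
  rintro _ ⟨m, rfl⟩
  exact (hK p hpp h2 s hs hsc).2 m

theorem le_N (m : ℕ) :
    ∑ n ∈ Finset.range m, finrank (ZMod p) (S.V (ZMod p) s n) ≤ S.N p s := by
  rw [N_eq]
  refine le_csSup ⟨K, ?_⟩ ⟨m, rfl⟩
  rintro _ ⟨m, rfl⟩
  exact (hK p hpp h2 s hs hsc).2 m

theorem exists_N : ∃ J, (∀ j ≥ J, finrank (ZMod p) (S.V (ZMod p) s j) = 0) ∧
    ∑ n ∈ Finset.range J, finrank (ZMod p) (S.V (ZMod p) s n) = S.N p s := by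
  have h1 := Nat.sSup_mem (s := Set.range fun m =>
    ∑ n ∈ Finset.range m, finrank (ZMod p) (S.V (ZMod p) s n)) ⟨_, ⟨0, rfl⟩⟩ ⟨K, by
      rintro _ ⟨m, rfl⟩
      exact (hK p hpp h2 s hs hsc).2 m⟩
  rw [← N_eq] at h1
  obtain ⟨J, hJ⟩ := h1
  refine ⟨J, fun j hj => ?_, hJ⟩
  have h3 := le_N hK h2 hs hsc (j + 1)
  rw [Finset.sum_range_succ] at h3
  have h4 : ∑ n ∈ Finset.range J, finrank (ZMod p) (S.V (ZMod p) s n) ≤
      ∑ n ∈ Finset.range j, finrank (ZMod p) (S.V (ZMod p) s n) :=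
    Finset.sum_le_sum_of_subset (Finset.range_subset_range.2 hj)
  have h5 : ∑ n ∈ Finset.range J, finrank (ZMod p) (S.V (ZMod p) s n) = S.N p s := hJ
  omega

end Numbers

theorem N_const {p : ℕ} (hp : p.Prime) {s t : ℝ} (hs : 0 < s) (hst : s ≤ t)
    (hcrit : ∀ x ∈ Icc s t, x ∉ AS.Crit S.ℓ) : S.N p s = S.N p t := by
  have := Fact.mk hp
  rw [N_eq, N_eq]
  congr 2
  funext m
  refine Finset.sum_congr rfl fun n _ => ?_
  exact (H985.finrank_eq_of_bijective _
    (S.res_bijective (k := ZMod p) hs hst hcrit (S.mono s t hst) n)).symm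

end Vale.Agent.P216.GSys

namespace Vale.Agent.P216.GSys

open AS AS.GCx.Pair

variable {Λ : Type} [PseudoMetricSpace Λ] (S : GSys Λ)

/-- restriction of `F` from level `t` to level `s` is injective and the characters of the reversal
agree -/
def PP (k : Type) [Field k] (p : ℕ) (hp : 0 < p) (s t : ℝ) : Prop := ∃ h : s ≤ t, ∀ n,
  Function.Injective ((S.levelHom k p hp h).fF n) ∧
    chi ((S.level k p hp t).rF n) = chi ((S.level k p hp s).rF n)

section PP

variable {k : Type} [Field k] {p : ℕ} {hp : 0 < p}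

theorem PP.trans {a b c : ℝ} (h1 : S.PP k p hp a b) (h2 : S.PP k p hp b c) :
    S.PP k p hp a c := by
  obtain ⟨hab, h1⟩ := h1
  obtain ⟨hbc, h2⟩ := h2
  refine ⟨hab.trans hbc, fun n => ⟨?_, (h2 n).2.trans (h1 n).2⟩⟩
  intro x y hxy
  apply (h2 n).1
  apply (h1 n).1
  have key : ∀ x, (S.levelHom k p hp (hab.trans hbc)).fF n x =
      (S.levelHom k p hp hab).fF n ((S.levelHom k p hp hbc).fF n x) := by
    intro x
    obtain ⟨x, hx, rfl⟩ := H.exists_mk x
    rfl
  rw [← key, ← key, hxy]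

theorem PP.regular {s t : ℝ} (hs : 0 < s) (hst : s ≤ t)
    (hcrit : ∀ x ∈ Icc s t, x ∉ AS.Crit S.ℓ) : S.PP k p hp s t := by
  have h1 : ∀ n, Function.Bijective (resH (P := S.P k p hp t) (P' := S.P k p hp s)
      (Cc_anti (S.mono s t hst)) (Zr_anti (S.mono s t hst) (S.mono s t hst)) n) := fun n =>
    S.res_bijective hs hst hcrit (S.mono s t hst) n
  have h2 := resF_bijective (P := S.P k p hp t) (P' := S.P k p hp s)
      (Cc_anti (S.mono s t hst)) (Zr_anti (S.mono s t hst) (S.mono s t hst)) h1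
  exact ⟨hst, fun n => ⟨(h2 n).1, chi_rF_of_bijective (S.P_rstable k p hp t)
    (S.P_rstable k p hp s) _ _ n (h2 n)⟩⟩

/-- the pair computing the cohomology of `X s` in the world `X t` -/
def W (k : Type) [Field k] (p : ℕ) (hp : 0 < p) {s t : ℝ} (h : s ≤ t) :
    (S.sym k p hp).gcx.Pair :=
  Sym.PM (S.good k p hp t) (S.goodSub k p hp h)

theorem W_rstable {s t : ℝ} (h : s ≤ t) : (S.W k p hp h).RStable (S.sym k p hp).rev :=
  Sym.PM_rstable _ _

theorem W_bijective {s t : ℝ} (h : s ≤ t) (n : ℕ) :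
    Function.Bijective (resH (P := S.W k p hp h) (P' := S.P k p hp s)
      (Cc_anti (S.mono s t h)) (Zr_anti (S.mono s t h) le_rfl) n) :=
  H985.quot_bijective (S.mono s t h) (fun _ x _ => ⟨fun hx => by
    have := S.τ_mem s hx
    rwa [S.τ_τ] at this, fun hx => S.τ_mem s hx⟩) n

theorem finite_W {s t : ℝ} (h : s ≤ t) (hs : ∀ n, Module.Finite k (S.V k s n)) (n : ℕ) :
    FiniteDimensional k ((S.W k p hp h).HH n) := by
  have : FiniteDimensional k ((S.P k p hp s).HH n) := hs n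
  exact FiniteDimensional.of_injective _ (S.W_bijective (k := k) (p := p) (hp := hp) h n).1

theorem finite_Q {s t : ℝ} (h : s ≤ t) (ht : ∀ n, Module.Finite k (S.V k t n))
    (hs : ∀ n, Module.Finite k (S.V k s n)) (n : ℕ) : Module.Finite k ((S.Q k p hp h).HH n) :=
  H985.finite_rel (G := (S.sym k p hp).gcx) (T := (S.Q k p hp h).T) (S := (S.Q k p hp h).S)
    (U := (S.P k p hp t).S) (S.Q k p hp h).hT (S.Q k p hp h).hS (S.P k p hp t).hS
    (Zr_anti le_rfl (S.mono s t h)) Zr_le_Cc ht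
    (fun n => S.finite_W (k := k) (p := p) (hp := hp) h hs n) n

theorem PP.cross (h2 : (2 : k) ≠ 0) {s t : ℝ} (h : s ≤ t)
    (ht : ∀ n, Module.Finite k (S.V k t n)) (hs : ∀ n, Module.Finite k (S.V k s n))
    (hu : ∀ n, Function.Injective ((S.level k p hp t).u n))
    (htors : H609.UTors (S.sym k p hp).gcx (S.Q k p hp h).S (S.Q k p hp h).T
      (S.Q k p hp h).hS (S.Q k p hp h).hT)
    (hchi : ∀ n, chi (rF (S.Q_rstable k p hp h) n) = 0) : S.PP k p hp s t := by
  have hW := resF_bijective (P := S.W k p hp h) (P' := S.P k p hp s)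
      (Cc_anti (S.mono s t h)) (Zr_anti (S.mono s t h) le_rfl) (S.W_bijective h)
  have hTS : (S.Q k p hp h).T ≤ (S.Q k p hp h).S := Zr_anti le_rfl (S.mono s t h)
  have hSU : (S.Q k p hp h).S ≤ (S.P k p hp t).S := Zr_le_Cc
  have f1 : ∀ n, FiniteDimensional k ((S.P k p hp t).FF n) := (S.P k p hp t).finite_F ht
  have f2 : ∀ n, FiniteDimensional k ((S.W k p hp h).FF n) := (S.W k p hp h).finite_F
    fun n => S.finite_W (k := k) (p := p) (hp := hp) h hs n
  have f3 : ∀ n, FiniteDimensional k ((S.Q k p hp h).FF n) :=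
    (S.Q k p hp h).finite_F (S.finite_Q h ht hs)
  have hinj := cross_injective (S.Q k p hp h).hT (S.Q k p hp h).hS (S.P k p hp t).hS hTS hSU
    htors hu
  have hc := @cross_chi k _ _ (S.sym k p hp).gcx (S.sym k p hp).rev _ _ _ (S.Q k p hp h).hT
    (S.Q k p hp h).hS (S.P k p hp t).hS hTS hSU htors hu h2 (S.Q_rstable k p hp h).T
    (S.Q_rstable k p hp h).S (S.P_rstable k p hp t).S f1 f2 f3 hchi
  refine ⟨h, fun n => ⟨?_, ?_⟩⟩
  · have key : ∀ x, (S.levelHom k p hp h).fF n x =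
        resF (P := S.W k p hp h) (P' := S.P k p hp s) (Cc_anti (S.mono s t h))
          (Zr_anti (S.mono s t h) le_rfl) n
        (resF (P := S.P k p hp t) (P' := S.W k p hp h) le_rfl hTS n x) := by
      intro x
      obtain ⟨x, hx, rfl⟩ := H.exists_mk x
      rfl
    intro x y hxy
    rw [key, key] at hxy
    exact hinj n ((hW n).1 hxy)
  · have h3 := chi_rF_of_bijective (S.W_rstable (k := k) (p := p) (hp := hp) h)
      (S.P_rstable k p hp s) _ _ n (hW n)
    exact (hc n).symm.trans h3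

end PP

end Vale.Agent.P216.GSys

namespace Vale.Agent.P216.GSys

open AS AS.GCx.Pair

variable {Λ : Type} [PseudoMetricSpace Λ] {S : GSys Λ}

section Fixed

variable {K : ℕ} (hK : S.Bd K) {p : ℕ} [hpp : Fact p.Prime] (hp : 0 < p) (h2 : 2 < p)

include hK h2 in
theorem fin_V {s : ℝ} (hs : 0 < s) (hsc : s ∉ AS.Crit S.ℓ) (n : ℕ) :
    Module.Finite (ZMod p) (S.V (ZMod p) s n) := (hK p hpp h2 s hs hsc).1 n

include hK h2 in
/-- LOC in terms of `N` -/
theorem loc_N (hloc : S.Loc) {s t : ℝ} (hst : (p : ℝ) * s = t) (hs : 0 < s)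
    (hsc : s ∉ AS.Crit S.ℓ) (htc : t ∉ AS.Crit S.ℓ) (m : ℕ) : ∃ n ≥ m,
      2 * S.N p s ≤ finrank (ZMod p) ((S.P (ZMod p) p hp t).FF (n + 1)) +
        finrank (ZMod p) ((S.P (ZMod p) p hp t).FF n) := by
  subst hst
  obtain ⟨J, hJ0, hJ⟩ := exists_N hK h2 hs hsc
  have hp' : (0 : ℝ) < p := by exact_mod_cast hp
  obtain ⟨n, hn, h⟩ := hloc p hp h2 s hs (fin_V hK h2 hs hsc)
    (fin_V hK h2 (by positivity) htc) J hJ0 m
  rw [hJ] at h
  exact ⟨n, hn, h⟩

theorem two_ne_zero' (h2 : 2 < p) : (2 : ZMod p) ≠ 0 := by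
  intro h
  have h1 : ((2 : ℕ) : ZMod p) = 0 := by exact_mod_cast h
  rw [ZMod.natCast_eq_zero_iff] at h1
  exact absurd (Nat.le_of_dvd (by norm_num) h1) (by omega)

theorem crit_fin (S : GSys Λ) (s t : ℝ) : (AS.Crit S.ℓ ∩ Icc s t).Finite :=
  have := S.fin
  H985.crit_finite S.ℓ S.ℓ_pos s t

include hK h2 in
/-- the Lefschetz number is not zero at each regular level -/
theorem lef_ne (hBase : S.Base) (hbal : S.CrossBal) {s : ℝ} (hs : 0 < s)
    (hsc : s ∉ AS.Crit S.ℓ) (m : ℕ) : ∃ m' ≥ m,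
      ∑ n ∈ Finset.range m', (-1 : ℤ) ^ n * chi (rH (S.P_rstable (ZMod p) p hp s) n) ≠ 0 := by
  obtain ⟨s₀, hs₀, hs₀ℓ, hb⟩ := hBase
  obtain ⟨hid, m₀, hm₀⟩ := hb p hpp h2
  refine (S.sys (ZMod p) p hp).lef_ne_zero (K := AS.Crit S.ℓ) S.crit_fin (two_ne_zero' h2)
    ?_ ?_ ?_ ?_ hs₀ ?_ ?_ ?_ hs hsc m
  · intro s hs hsc n
    exact fin_V hK h2 hs hsc n
  · intro s hs hsc
    exact H985.Sys.van_of_bound (hK p hpp h2 s hs hsc).2
  · intro s t h hs hcrit n
    exact S.res_bijective hs h hcrit (S.mono s t h) n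
  · intro c hc hc0 ε hε
    obtain ⟨e₀, he₀, hec, h⟩ := hbal p hp h2 c hc0
    obtain ⟨e, he, hlt, h1, h3⟩ := exists_regular_pm S.crit_fin c (lt_min hε he₀)
    have h4 := lt_of_lt_of_le hlt (min_le_left _ _)
    have h5 := lt_of_lt_of_le hlt (min_le_right _ _)
    refine ⟨c - e, c + e, by linarith, by linarith, by linarith, by linarith, by linarith,
      by linarith, h1, h3, ?_⟩
    refine (h e he h5.le (S.finite_Q _ ?_ ?_)).1
    · exact fin_V hK h2 (by linarith) h3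
    · exact fin_V hK h2 (by linarith) h1
  · rintro ⟨i, m, hm, h⟩
    have h1 := hs₀ℓ i
    have h3 : (1 : ℝ) ≤ m := by exact_mod_cast hm
    have h4 := S.ℓ_pos i
    have h5 : S.ℓ i ≤ m * S.ℓ i := le_mul_of_one_le_left h4.le h3
    linarith
  · intro n x
    obtain ⟨f, hf, rfl⟩ := H.exists_mk x
    exact (H.mk_eq_mk (x := P265.AS.pb S.θ f) (y := f)).mpr (hid n f hf)
  · exact Filter.eventually_atTop.mpr ⟨m₀, hm₀⟩

section Window

variable {α β : ℝ} (hα : 0 < α) (hfree : ∀ x ∈ Ioo α β, x / (p : ℝ) ∉ AS.Crit S.ℓ)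
  (hN : ∀ s ∈ Ioo α β, s ∉ AS.Crit S.ℓ → S.N p (s / p) = S.N p s)

include hK hp h2 hα hfree hN

theorem hF_win (hloc : S.Loc) {s : ℝ} (hs : s ∈ Ioo α β) (hsc : s ∉ AS.Crit S.ℓ) (m : ℕ) :
    ∃ n ≥ m, 2 * S.N p s ≤ finrank (ZMod p) ((S.P (ZMod p) p hp s).FF (n + 1)) +
        finrank (ZMod p) ((S.P (ZMod p) p hp s).FF n) := by
  have hp' : (0 : ℝ) < p := by exact_mod_cast hp
  have hs0 : 0 < s := hα.trans hs.1
  rw [← hN s hs hsc]
  exact loc_N hK hp h2 hloc (mul_div_cancel₀ s hp'.ne') (by positivity) (hfree s hs) hsc m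

theorem pp_win (hloc : S.Loc) (htors : S.CrossTors) (hbal : S.CrossBal) {s t : ℝ} (hs : α < s)
    (hst : s ≤ t) (ht : t < β) (hsc : s ∉ AS.Crit S.ℓ) (htc : t ∉ AS.Crit S.ℓ) :
    S.PP (ZMod p) p hp s t := by
  refine line_rel (R := S.PP (ZMod p) p hp) S.crit_fin
    (fun a b c _ _ _ _ _ _ _ h1 h2 => PP.trans S h1 h2)
    (fun s t h1 h2 _ hc => PP.regular S (hα.trans h1) h2 hc) ?_ hs hst ht hsc htc
  intro c hc hαc hcβ ε hε
  obtain ⟨e₁, he₁, he₁c, h1⟩ := htors p hp h2 c (hα.trans hαc) (hfree c ⟨hαc, hcβ⟩)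
  obtain ⟨e₂, he₂, he₂c, h3⟩ := hbal p hp h2 c (hα.trans hαc)
  obtain ⟨e, he, hlt, hc1, hc2⟩ := exists_regular_pm S.crit_fin c
    (show 0 < min (min ε (min e₁ e₂)) (min (c - α) (β - c)) by
      refine lt_min (lt_min hε (lt_min he₁ he₂)) (lt_min ?_ ?_) <;> linarith)
  have l1 := lt_of_lt_of_le hlt (min_le_left _ _)
  have l2 := lt_of_lt_of_le hlt (min_le_right _ _)
  have l3 := lt_of_lt_of_le l1 (min_le_left _ _)
  have l4 := lt_of_lt_of_le l1 (min_le_right _ _)
  have l5 := lt_of_lt_of_le l4 (min_le_left _ _)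
  have l6 := lt_of_lt_of_le l4 (min_le_right _ _)
  have l7 := lt_of_lt_of_le l2 (min_le_left _ _)
  have l8 := lt_of_lt_of_le l2 (min_le_right _ _)
  have ft := fin_V hK h2 (s := c + e) (by linarith) hc2
  have fs := fin_V hK h2 (s := c - e) (by linarith) hc1
  refine ⟨c - e, c + e, by linarith, by linarith, by linarith, by linarith, hc1, hc2, ?_⟩
  refine PP.cross S (two_ne_zero' h2) (by linarith) ft fs ?_ (h1 e he l5.le)
    (h3 e he l6.le (S.finite_Q _ ft fs)).2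
  intro n
  have f1 : ∀ n, FiniteDimensional (ZMod p) ((S.P (ZMod p) p hp (c + e)).HH n) := ft
  have f2 := (S.P (ZMod p) p hp (c + e)).finite_F f1
  have f3 := (S.P (ZMod p) p hp (c + e)).finite_E f1
  exact Level.inj_u (S := S.level (ZMod p) p hp (c + e)) (S.N p (c + e))
    (le_N hK h2 (by linarith) hc2)
    (fun m => hF_win hK hp h2 hα hfree hN hloc ⟨by linarith, by linarith⟩ hc2 m) n

theorem win {B : ℝ} (hB : 0 < B)
    (hbars : ∀ s : ℝ, 0 < s → ∀ (h : S.X s ⊆ S.X (s + B)) (n : ℕ)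
      (x : S.V (ZMod p) (s + B) n), AS.res h n x = 0)
    (hBase : S.Base) (hloc : S.Loc) (htors : S.CrossTors) (hbal : S.CrossBal) :
    β - α ≤ (4 * K + 2) * (B + 1) + 1 := by
  by_contra hcon
  push Not at hcon
  set L := 4 * K + 2 with hL
  have hreg : ∀ j : ℕ, ∃ x ∈ Ioo (α + j * (B + 1)) (α + j * (B + 1) + 1), x ∉ AS.Crit S.ℓ :=
    fun j => exists_regular S.crit_fin (by linarith)
  choose x hx hxc using hreg
  let σ : ℕ → ℝ := fun j => x (min j L)
  have hσc : ∀ j, σ j ∉ AS.Crit S.ℓ := fun j => hxc _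
  have hσ : ∀ j, σ j ∈ Ioo α β := by
    intro j
    have h1 := hx (min j L)
    have h3 : ((min j L : ℕ) : ℝ) ≤ L := by exact_mod_cast min_le_right j L
    have h4 : (0 : ℝ) ≤ (min j L : ℕ) := Nat.cast_nonneg _
    have h5 : ((min j L : ℕ) : ℝ) * (B + 1) ≤ L * (B + 1) :=
      mul_le_mul_of_nonneg_right h3 (by linarith)
    have h6 : 0 ≤ ((min j L : ℕ) : ℝ) * (B + 1) := by positivity
    have h7 : (L : ℝ) = 4 * K + 2 := by rw [hL]; push_cast; ring
    rw [← h7] at hcon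
    exact ⟨by linarith [h1.1], by linarith [h1.2]⟩
  have hσ0 : ∀ j, 0 < σ j := fun j => hα.trans (hσ j).1
  have hstep : ∀ j, j < L → σ j + B ≤ σ (j + 1) := by
    intro j hj
    have e1 : σ j = x j := by
      change x (min j L) = x j
      rw [min_eq_left hj.le]
    have e2 : σ (j + 1) = x (j + 1) := by
      change x (min (j + 1) L) = x (j + 1)
      rw [min_eq_left (by omega)]
    rw [e1, e2]
    have h1 := (hx j).2
    have h3 := (hx (j + 1)).1
    push_cast at h3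
    linarith
  have hmono : ∀ j, σ j ≤ σ (j + 1) := by
    intro j
    rcases lt_or_ge j L with hj | hj
    · linarith [hstep j hj]
    · change x (min j L) ≤ x (min (j + 1) L)
      rw [min_eq_right hj, min_eq_right (by omega)]
  have f1 : ∀ j n, FiniteDimensional (ZMod p) ((S.P (ZMod p) p hp (σ j)).HH n) := fun j n =>
    fin_V hK h2 (hσ0 j) (hσc j) n
  have f2 : ∀ j n, FiniteDimensional (ZMod p) ((S.P (ZMod p) p hp (σ j)).FF n) := fun j =>
    (S.P (ZMod p) p hp (σ j)).finite_F (f1 j)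
  have f3 : ∀ j n, FiniteDimensional (ZMod p) ((S.P (ZMod p) p hp (σ j)).EE n) := fun j =>
    (S.P (ZMod p) p hp (σ j)).finite_E (f1 j)
  have hPP : ∀ j, S.PP (ZMod p) p hp (σ j) (σ (j + 1)) := fun j =>
    pp_win hK hp h2 hα hfree hN hloc htors hbal (hσ j).1 (hmono j) (hσ (j + 1)).2 (hσc j)
      (hσc (j + 1))
  have hw := window (k := ZMod p) (two_ne_zero' h2) (fun j => (S.P (ZMod p) p hp (σ j)).HH)
    (fun j => (S.P (ZMod p) p hp (σ j)).FF) (fun j => (S.P (ZMod p) p hp (σ j)).EE) L K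
    (fun j => S.N p (σ j)) (fun j => S.level (ZMod p) p hp (σ j))
    (fun j _ => N_le hK h2 (hσ0 j) (hσc j))
    (fun j _ m => le_N hK h2 (hσ0 j) (hσc j) m)
    (fun j _ m => hF_win hK hp h2 hα hfree hN hloc (hσ j) (hσc j) m)
    (lef_ne hK hp h2 hBase hbal (hσ0 0) (hσc 0))
    (by
      obtain ⟨J, hJ, _⟩ := exists_N hK h2 (hσ0 0) (hσc 0)
      exact ⟨J, hJ⟩)
    (fun j => S.levelHom (ZMod p) p hp (hmono j))
    (by
      intro j hj n y
      have h1 : S.X (σ j) ⊆ S.X (σ j + B) := S.mono _ _ (by linarith)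
      have h3 : S.X (σ j + B) ⊆ S.X (σ (j + 1)) := S.mono _ _ (hstep j hj)
      have h4 := hbars (σ j) (hσ0 j) h1 n (AS.res h3 n y)
      refine Eq.trans ?_ h4
      obtain ⟨y, hy, rfl⟩ := H.exists_mk y
      rfl)
    (fun j _ n => by
      obtain ⟨h, h'⟩ := hPP j
      exact (h' n).1)
    (fun j _ n => by
      obtain ⟨h, h'⟩ := hPP j
      exact (h' n).2)
  omega

end Window

end Fixed

/-- **END**: the topological half, from the blocks LOC and CROSS. -/
theorem no_gsys_of (hBars : S.Bars) (hBound : S.Bound) (hBase : S.Base) (hloc : S.Loc)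
    (htors : S.CrossTors) (hbal : S.CrossBal) : False := by
  obtain ⟨K, hK⟩ := hBound
  obtain ⟨B, hB, hbars⟩ := hBars
  have := S.fin
  refine endgame S.ℓ S.ℓ_pos S.N K ((4 * K + 2) * (B + 1) + 1) ?_ ?_ ?_ ?_
  · intro p hp h2 s hs hsc
    have := Fact.mk hp
    exact N_le hK h2 hs hsc
  · intro p hp h2 s t hs hst hcrit
    exact S.N_const hp hs hst hcrit
  · intro p hp h2 s hs hsc hpsc
    have := Fact.mk hp
    have hp' : (0 : ℝ) < p := by exact_mod_cast hp.pos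
    have hps : 0 < (p : ℝ) * s := by positivity
    have f1 : ∀ n, FiniteDimensional (ZMod p) ((S.P (ZMod p) p hp.pos (p * s)).HH n) :=
      fin_V hK h2 hps hpsc
    have f2 := (S.P (ZMod p) p hp.pos (p * s)).finite_F f1
    have f3 := (S.P (ZMod p) p hp.pos (p * s)).finite_E f1
    obtain ⟨n, _, hn⟩ := loc_N hK hp.pos h2 hloc rfl hs hsc hpsc 0
    exact (S.level (ZMod p) p hp.pos (p * s)).smith (S.N p (p * s)) (S.N p s)
      (le_N hK h2 hps hpsc) ⟨n, hn⟩
  · intro p hp h2 α β hα _ hfree hN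
    have := Fact.mk hp
    exact win hK hp.pos h2 hα hfree hN hB (hbars p this h2) hBase hloc htors hbal

end Vale.Agent.P216.GSys
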