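import Vale.Agent.P216.AS.Cx

/-! Maps between cohomologies of subquotients, possibly changing the degree. -/

namespace Vale.Agent.P216.AS

variable {k : Type} [Field k] {C C' C'' : Amb k}

namespace H

variable {S T : Sub C} {S' T' : Sub C'} {S'' T'' : Sub C''} {n m l : ℕ}

/-- The map induced by a linear map of the ambient spaces. -/
def gmap (φ : C.K n →ₗ[k] C'.K m) (h1 : ∀ x ∈ Zc S T n, φ x ∈ Zc S' T' m)
    (h2 : ∀ x ∈ Zc S T n, x ∈ Bc S T n → φ x ∈ Bc S' T' m) : H S T n →ₗ[k] H S' T' m :=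
  H.lift (H.mkL S' T' m ∘ₗ φ.restrict fun x hx => h1 x hx) fun x hx hB => by
    rw [LinearMap.comp_apply, H.mkL_apply, H.mk_eq_zero]
    exact h2 x hx hB

@[simp] theorem gmap_mk (φ : C.K n →ₗ[k] C'.K m) (h1 : ∀ x ∈ Zc S T n, φ x ∈ Zc S' T' m)
    (h2 : ∀ x ∈ Zc S T n, x ∈ Bc S T n → φ x ∈ Bc S' T' m) {x : C.K n} (hx : x ∈ Zc S T n) :
    gmap φ h1 h2 (mk x hx) = mk (φ x) (h1 x hx) := rfl

theorem gmap_injective {φ : C.K n →ₗ[k] C'.K m} {h1 : ∀ x ∈ Zc S T n, φ x ∈ Zc S' T' m}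
    {h2 : ∀ x ∈ Zc S T n, x ∈ Bc S T n → φ x ∈ Bc S' T' m}
    (h : ∀ x ∈ Zc S T n, φ x ∈ Bc S' T' m → x ∈ Bc S T n) :
    Function.Injective (gmap φ h1 h2) := by
  rw [injective_iff_map_eq_zero]
  intro a ha
  obtain ⟨x, hx, rfl⟩ := exists_mk a
  rw [gmap_mk, mk_eq_zero] at ha
  rw [mk_eq_zero]
  exact h x hx ha

theorem gmap_surjective {φ : C.K n →ₗ[k] C'.K m} {h1 : ∀ x ∈ Zc S T n, φ x ∈ Zc S' T' m}
    {h2 : ∀ x ∈ Zc S T n, x ∈ Bc S T n → φ x ∈ Bc S' T' m}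
    (h : ∀ y ∈ Zc S' T' m, ∃ x ∈ Zc S T n, y - φ x ∈ Bc S' T' m) :
    Function.Surjective (gmap φ h1 h2) := by
  intro b
  obtain ⟨y, hy, rfl⟩ := exists_mk b
  obtain ⟨x, hx, hxy⟩ := h y hy
  refine ⟨mk x hx, ?_⟩
  rw [gmap_mk, eq_comm, mk_eq_mk]
  exact hxy

theorem gmap_exact {φ : C.K n →ₗ[k] C'.K m} {h1 : ∀ x ∈ Zc S T n, φ x ∈ Zc S' T' m}
    {h2 : ∀ x ∈ Zc S T n, x ∈ Bc S T n → φ x ∈ Bc S' T' m} {ψ : C'.K m →ₗ[k] C''.K l}
    {h3 : ∀ x ∈ Zc S' T' m, ψ x ∈ Zc S'' T'' l}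
    {h4 : ∀ x ∈ Zc S' T' m, x ∈ Bc S' T' m → ψ x ∈ Bc S'' T'' l}
    (h : ∀ x ∈ Zc S T n, ψ (φ x) ∈ Bc S'' T'' l)
    (h' : ∀ y ∈ Zc S' T' m, ψ y ∈ Bc S'' T'' l → ∃ x ∈ Zc S T n, y - φ x ∈ Bc S' T' m) :
    Function.Exact (gmap φ h1 h2) (gmap ψ h3 h4) := by
  intro b
  constructor
  · intro hb
    obtain ⟨y, hy, rfl⟩ := exists_mk b
    rw [gmap_mk, mk_eq_zero] at hb
    obtain ⟨x, hx, hxy⟩ := h' y hy hb
    refine ⟨mk x hx, ?_⟩
    rw [gmap_mk, eq_comm, mk_eq_mk]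
    exact hxy
  · rintro ⟨a, rfl⟩
    obtain ⟨x, hx, rfl⟩ := exists_mk a
    rw [gmap_mk, gmap_mk, mk_eq_zero]
    exact h x hx

/-- A map given by a linear relation `R` (connecting homomorphisms). -/
noncomputable def rel (R : Submodule k (C.K n × C'.K m))
    (h1 : ∀ x ∈ Zc S T n, ∃ y ∈ Zc S' T' m, (x, y) ∈ R)
    (h2 : ∀ x ∈ Zc S T n, x ∈ Bc S T n → ∀ y ∈ Zc S' T' m, (x, y) ∈ R → y ∈ Bc S' T' m) :
    H S T n →ₗ[k] H S' T' m :=
  H.lift
    { toFun := fun x => mk (Classical.choose (h1 x.1 x.2)) (Classical.choose_spec (h1 x.1 x.2)).1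
      map_add' := by
        intro x y
        have hx := Classical.choose_spec (h1 x.1 x.2)
        have hy := Classical.choose_spec (h1 y.1 y.2)
        have hxy := Classical.choose_spec (h1 (x + y).1 (x + y).2)
        rw [← mk_add, mk_eq_mk]
        refine h2 0 (Submodule.zero_mem _) (Submodule.zero_mem _) _
          (Submodule.sub_mem _ hxy.1 (Submodule.add_mem _ hx.1 hy.1)) ?_
        have := R.sub_mem hxy.2 (R.add_mem hx.2 hy.2)
        convert this using 1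
        ext <;> simp
      map_smul' := by
        intro a x
        have hx := Classical.choose_spec (h1 x.1 x.2)
        have hxy := Classical.choose_spec (h1 (a • x).1 (a • x).2)
        rw [RingHom.id_apply, ← mk_smul, mk_eq_mk]
        refine h2 0 (Submodule.zero_mem _) (Submodule.zero_mem _) _
          (Submodule.sub_mem _ hxy.1 (Submodule.smul_mem _ a hx.1)) ?_
        have := R.sub_mem hxy.2 (R.smul_mem a hx.2)
        convert this using 1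
        ext <;> simp }
    (by
      intro x hx hxB
      have hx' := Classical.choose_spec (h1 x hx)
      change mk _ _ = 0
      rw [mk_eq_zero]
      exact h2 x hx hxB _ hx'.1 hx'.2)

theorem rel_mk (R : Submodule k (C.K n × C'.K m))
    (h1 : ∀ x ∈ Zc S T n, ∃ y ∈ Zc S' T' m, (x, y) ∈ R)
    (h2 : ∀ x ∈ Zc S T n, x ∈ Bc S T n → ∀ y ∈ Zc S' T' m, (x, y) ∈ R → y ∈ Bc S' T' m)
    {x : C.K n} (hx : x ∈ Zc S T n) {y : C'.K m}
    (hy : y ∈ Zc S' T' m) (hxy : (x, y) ∈ R) : rel R h1 h2 (mk x hx) = mk y hy := by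
  have hx' := Classical.choose_spec (h1 x hx)
  change mk _ _ = _
  rw [mk_eq_mk]
  refine h2 0 (Submodule.zero_mem _) (Submodule.zero_mem _) _ (Submodule.sub_mem _ hx'.1 hy) ?_
  have := R.sub_mem hx'.2 hxy
  convert this using 1
  ext <;> simp

end H

end Vale.Agent.P216.AS
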