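import Vale.Agent.P265.H336.Htpy
import Vale.Agent.P216.AS.Defs

/-! Pullback, contiguity, homotopy invariance, change of world, excision. -/

open Set Matrix

namespace Vale.Agent.P216.AS

variable {E E' E'' : Type} {k : Type} [Field k] {I : Type}

/-! ### Equivariance -/

/-- `X` is invariant under all `a i`. -/
def Inv (a : I → E → E) (X : Set E) : Prop := ∀ i x, a i x ∈ X ↔ x ∈ X

theorem Inv.inter {a : I → E → E} {X Y : Set E} (h : Inv a X) (h' : Inv a Y) : Inv a (X ∩ Y) :=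
  fun i x => and_congr (h i x) (h' i x)

theorem Inv.union {a : I → E → E} {X Y : Set E} (h : Inv a X) (h' : Inv a Y) : Inv a (X ∪ Y) :=
  fun i x => or_congr (h i x) (h' i x)

theorem inv_empty {a : I → E → E} : Inv a (∅ : Set E) := fun _ _ => Iff.rfl

theorem inv_univ {a : I → E → E} : Inv a (univ : Set E) := fun _ _ => Iff.rfl

theorem Eqv.neg {a : I → E → E} {χ : I → k} {X : Set E} {n : ℕ} {f : (Fin n → E) → k}
    (h : Eqv a χ X f) : Eqv a χ X (-f) := fun i x hx => by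
  rw [Pi.neg_apply, Pi.neg_apply, h i x hx, mul_neg]

theorem Eqv.sub {a : I → E → E} {χ : I → k} {X : Set E} {n : ℕ} {f f' : (Fin n → E) → k}
    (h : Eqv a χ X f) (h' : Eqv a χ X f') : Eqv a χ X (f - f') := fun i x hx => by
  rw [Pi.sub_apply, Pi.sub_apply, h i x hx, h' i x hx, mul_sub]

theorem rs_eqv {a : I → E → E} {χ : I → k} {X Y : Set E} (hY : Inv a Y) {n : ℕ}
    {f : (Fin n → E) → k} (hf : Eqv a χ Y f) : Eqv a χ X (P265.AS.rs k Y n f) := by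
  intro i x _
  by_cases h : ∀ j, x j ∈ Y
  · rw [P265.AS.rs_of_mem h, P265.AS.rs_of_mem (x := a i ∘ x) fun j => (hY i _).2 (h j),
      hf i x h]
  · rw [P265.AS.rs_of_notMem h, P265.AS.rs_of_notMem, mul_zero]
    exact fun h' => h fun j => (hY i _).1 (h' j)

section Metric

variable [PseudoMetricSpace E] [PseudoMetricSpace E'] [PseudoMetricSpace E'']

theorem Van.neg {A : Set E} {n : ℕ} {f : (Fin n → E) → k} (h : Van A f) : Van A (-f) := by
  obtain ⟨ε, hε, h⟩ := h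
  exact ⟨ε, hε, fun x hx => by rw [Pi.neg_apply, h x hx, neg_zero]⟩

theorem Van.sub {A : Set E} {n : ℕ} {f f' : (Fin n → E) → k} (h : Van A f) (h' : Van A f') :
    Van A (f - f') := by
  rw [sub_eq_add_neg]
  exact h.add h'.neg

/-- Only the values on small tuples matter. -/
theorem Van.congr {A : Set E} {n : ℕ} {f f' : (Fin n → E) → k} (h : Van A f) {δ : ℝ} (hδ : 0 < δ)
    (he : ∀ x, Sm A δ x → f' x = f x) : Van A f' := by
  obtain ⟨ε, hε, h⟩ := h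
  refine ⟨min ε δ, lt_min hε hδ, fun x hx => ?_⟩
  rw [he x (hx.mono le_rfl (min_le_right _ _)), h x (hx.mono le_rfl (min_le_left _ _))]

/-! ### Change of world -/

/-- Restricting to an invariant subset `Y` of the world `X` does not change the cohomology of
subquotients supported in `Y`. -/
theorem world_isMor {a : I → E → E} {χ : I → k} {X Y A B : Set E} (hY : Y ⊆ X) :
    IsMor (Zr a χ X B) (Zr a χ X A) (Zr a χ Y B) (Zr a χ Y A) fun _ => LinearMap.id :=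
  IsMor.id_of_le (Zr_anti hY le_rfl) (Zr_anti hY le_rfl)

theorem world_bijective {a : I → E → E} {χ : I → k} {X Y A B : Set E} (hY : Y ⊆ X)
    (hA : A ⊆ Y) (hB : B ⊆ A) (hi : Inv a Y) (n : ℕ) :
    Function.Bijective (Hinc (Zr_anti hY le_rfl) (Zr_anti hY le_rfl) n :
      H (Zr a χ X B) (Zr a χ X A) n →ₗ[k] H (Zr a χ Y B) (Zr a χ Y A) n) := by
  refine Hmap_bijective _ (fun {n f} hf hf' => ⟨hf.1, hf'.2⟩) fun {n f} hf => ?_
  refine ⟨P265.AS.rs k Y (n + 1) f, ⟨rs_eqv hi hf.1, ?_⟩, hf.1.sub ((rs_eqv hi hf.1).mono hY), ?_⟩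
  · refine hf.2.congr one_pos fun x hx => ?_
    exact P265.AS.rs_of_mem fun i => hA (hB (hx.1 i))
  · refine ⟨1, one_pos, fun x hx => ?_⟩
    change f x - P265.AS.rs k Y (n + 1) f x = 0
    rw [P265.AS.rs_of_mem fun i => hA (hx.1 i), sub_self]

theorem world_bijective' {a : I → E → E} {χ : I → k} {X Y A : Set E} (hY : Y ⊆ X)
    (hA : A ⊆ Y) (hi : Inv a Y) (n : ℕ) :
    Function.Bijective (Hinc (Cc_anti hY) (Zr_anti hY le_rfl) n :
      H (Cc a χ X) (Zr a χ X A) n →ₗ[k] H (Cc a χ Y) (Zr a χ Y A) n) := by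
  refine Hmap_bijective _ (fun {n f} hf hf' => ⟨hf, hf'.2⟩) fun {n f} hf => ?_
  refine ⟨P265.AS.rs k Y (n + 1) f, rs_eqv hi hf, hf.sub ((rs_eqv hi hf).mono hY), ?_⟩
  refine ⟨1, one_pos, fun x hx => ?_⟩
  change f x - P265.AS.rs k Y (n + 1) f x = 0
  rw [P265.AS.rs_of_mem fun i => hA (hx.1 i), sub_self]

/-! ### Excision -/

/-- **Excision.** `L` contains the part of `X` which is `δ`-close to `X \ A`. -/
theorem excision_bijective {a : I → E → E} {χ : I → k} {X A L : Set E} (hL : L ⊆ X)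
    (hi : Inv a L) {δ : ℝ} (hδ : 0 < δ)
    (h : ∀ x ∈ X, x ∉ A → ∀ y ∈ X, dist x y < δ → y ∈ L) (n : ℕ) :
    Function.Bijective (resR hL inter_subset_right n :
      Hr a χ X A n →ₗ[k] Hr a χ L (L ∩ A) n) := by
  change Function.Bijective (Hmap (IsMor.id_of_le (Zr_anti (a := a) (χ := χ) hL
    (inter_subset_right : L ∩ A ⊆ A)) (Zr_anti hL hL)) n)
  refine Hmap_bijective _ (fun {n f} hf hf' => ⟨hf.1, ?_⟩) fun {n f} hf => ?_
  · obtain ⟨-, ε, hε, h1⟩ := hf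
    obtain ⟨-, ε', hε', h2⟩ := hf'
    refine ⟨min (min ε ε') δ, lt_min (lt_min hε hε') hδ, fun x hx => ?_⟩
    by_cases hA : ∀ i, x i ∈ A
    · exact h1 x ⟨hA, fun i j => (hx.2 i j).trans_le ((min_le_left _ _).trans (min_le_left _ _))⟩
    · push Not at hA
      obtain ⟨i, hi⟩ := hA
      exact h2 x ⟨fun j => h _ (hx.1 i) hi _ (hx.1 j) ((hx.2 i j).trans_le (min_le_right _ _)),
        fun i j => (hx.2 i j).trans_le ((min_le_left _ _).trans (min_le_right _ _))⟩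
  · obtain ⟨hf, ε, hε, h1⟩ := hf
    refine ⟨P265.AS.rs k L (n + 1) f, ⟨rs_eqv hi hf, ε, hε, fun x hx => ?_⟩,
      hf.sub ((rs_eqv hi hf).mono hL), 1, one_pos, fun x hx => ?_⟩
    · by_cases hxL : ∀ i, x i ∈ L
      · rw [P265.AS.rs_of_mem hxL]
        exact h1 x ⟨fun i => ⟨hxL i, hx.1 i⟩, hx.2⟩
      · exact P265.AS.rs_of_notMem hxL
    · change f x - P265.AS.rs k L (n + 1) f x = 0
      rw [P265.AS.rs_of_mem hx.1, sub_self]

/-! ### Maps -/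

/-- `f` is a uniformly continuous equivariant map `X → X'`. -/
structure IsMap (a : I → E → E) (a' : I → E' → E') (X : Set E) (X' : Set E') (f : E → E') :
    Prop where
  mapsX : MapsTo f X X'
  eqv : ∀ i, ∀ x ∈ X, f (a i x) = a' i (f x)
  uc : ∀ ε > 0, ∃ δ > 0, ∀ x ∈ X, ∀ y ∈ X, dist x y < δ → dist (f x) (f y) < ε

namespace IsMap

variable {a : I → E → E} {a' : I → E' → E'} {a'' : I → E'' → E''} {χ : I → k} {X A B : Set E}
  {X' A' B' : Set E'} {X'' : Set E''} {f : E → E'} {g : E' → E''} {n : ℕ}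

theorem of_continuousOn (hX : IsCompact X) (hf : ContinuousOn f X) (hm : MapsTo f X X')
    (he : ∀ i, ∀ x ∈ X, f (a i x) = a' i (f x)) : IsMap a a' X X' f where
  mapsX := hm
  eqv := he
  uc := fun ε hε => by
    have h := hX.uniformContinuousOn_of_continuous hf
    rw [Metric.uniformContinuousOn_iff] at h
    obtain ⟨δ, hδ, h⟩ := h ε hε
    exact ⟨δ, hδ, fun x hx y hy hxy => h x hx y hy hxy⟩

theorem id_of_subset {Y : Set E} (h : X ⊆ Y) : IsMap a a X Y id :=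
  ⟨fun _ hx => h hx, fun _ _ _ => rfl, fun ε hε => ⟨ε, hε, fun _ _ _ _ h => h⟩⟩

theorem comp (hg : IsMap a' a'' X' X'' g) (hf : IsMap a a' X X' f) :
    IsMap a a'' X X'' (g ∘ f) where
  mapsX := hg.mapsX.comp hf.mapsX
  eqv i x hx := by
    change g (f (a i x)) = _
    rw [hf.eqv i x hx, hg.eqv i _ (hf.mapsX hx)]; rfl
  uc := fun ε hε => by
    obtain ⟨δ, hδ, h⟩ := hg.uc ε hε
    obtain ⟨η, hη, h'⟩ := hf.uc δ hδ
    exact ⟨η, hη, fun x hx y hy hxy => h _ (hf.mapsX hx) _ (hf.mapsX hy) (h' x hx y hy hxy)⟩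

theorem mono (h : IsMap a a' X X' f) {Y : Set E} {Y' : Set E'} (hY : Y ⊆ X)
    (hm : MapsTo f Y Y') : IsMap a a' Y Y' f where
  mapsX := hm
  eqv i x hx := h.eqv i x (hY hx)
  uc := fun ε hε => by
    obtain ⟨δ, hδ, h⟩ := h.uc ε hε
    exact ⟨δ, hδ, fun x hx y hy => h x (hY hx) y (hY hy)⟩

theorem pb_eqv (h : IsMap a a' X X' f) {n : ℕ} {c : (Fin n → E') → k} (hc : Eqv a' χ X' c) :
    Eqv a χ X (P265.AS.pb f c) := by
  intro i x hx
  rw [P265.AS.pb_apply, P265.AS.pb_apply, ← hc i (f ∘ x) fun j => h.mapsX (hx j)]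
  congr 1
  funext j
  exact h.eqv i _ (hx j)

theorem pb_van (h : IsMap a a' X X' f) (hA : A ⊆ X) (hm : MapsTo f A A') {n : ℕ}
    {c : (Fin n → E') → k} (hc : Van A' c) : Van A (P265.AS.pb f c) := by
  obtain ⟨ε, hε, h1⟩ := hc
  obtain ⟨δ, hδ, h3⟩ := h.uc ε hε
  exact ⟨δ, hδ, fun x hx => h1 _ ⟨fun i => hm (hx.1 i),
    fun i j => h3 _ (hA (hx.1 i)) _ (hA (hx.1 j)) (hx.2 i j)⟩⟩

/-- The pullback as a family of linear maps. -/
def _root_.Vale.Agent.P216.AS.pbK (k : Type) [Field k] (f : E → E') :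
    ∀ n, (ASK E' k).K n →ₗ[k] (ASK E k).K n := fun _ => P265.AS.pb f

omit [PseudoMetricSpace E] [PseudoMetricSpace E'] in
theorem _root_.Vale.Agent.P216.AS.pbK_apply (f : E → E') {n : ℕ} (c : (Fin (n + 1) → E') → k)
    (x : Fin (n + 1) → E) : pbK k f n c x = c (f ∘ x) := rfl

omit [PseudoMetricSpace E] [PseudoMetricSpace E'] in
theorem _root_.Vale.Agent.P216.AS.pbK_d (f : E → E') (n : ℕ) (c : (ASK E' k).K n) :
    (ASK E k).d n (pbK k f n c) = pbK k f (n + 1) ((ASK E' k).d n c) := P265.AS.d_pb f c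

theorem isMor_Zr (h : IsMap a a' X X' f) (hA : A ⊆ X) (hfA : MapsTo f A A') (hB : B ⊆ X)
    (hfB : MapsTo f B B') :
    IsMor (Zr a' χ X' B') (Zr a' χ X' A') (Zr a χ X B) (Zr a χ X A) (pbK k f) :=
  IsMor.of_comm (fun hc => ⟨h.pb_eqv hc.1, h.pb_van hB hfB hc.2⟩)
    (fun hc => ⟨h.pb_eqv hc.1, h.pb_van hA hfA hc.2⟩) (pbK_d f)

theorem isMor_Cc (h : IsMap a a' X X' f) (hA : A ⊆ X) (hfA : MapsTo f A A') :
    IsMor (Cc a' χ X') (Zr a' χ X' A') (Cc a χ X) (Zr a χ X A) (pbK k f) :=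
  IsMor.of_comm (fun hc => h.pb_eqv hc)
    (fun hc => ⟨h.pb_eqv hc.1, h.pb_van hA hfA hc.2⟩) (pbK_d f)

end IsMap

variable {a : I → E → E} {a' : I → E' → E'} {a'' : I → E'' → E''} {χ : I → k} {X A B : Set E}
  {X' A' B' : Set E'} {X'' A'' : Set E''} {f f₀ f₁ : E → E'} {g : E' → E''} {n : ℕ}

/-- Pullback on relative cohomology. -/
def pullR (χ : I → k) (h : IsMap a a' X X' f) (hA : A ⊆ X) (hf : MapsTo f A A') (n : ℕ) :
    Hr a' χ X' A' n →ₗ[k] Hr a χ X A n :=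
  Hmap (h.isMor_Zr le_rfl h.mapsX hA hf) n

/-- Pullback on absolute cohomology. -/
def pull (χ : I → k) (h : IsMap a a' X X' f) (n : ℕ) : Ha a' χ X' n →ₗ[k] Ha a χ X n :=
  Hmap (h.isMor_Cc le_rfl h.mapsX) n

@[simp] theorem pull_mk (h : IsMap a a' X X' f) {c : (Fin (n + 1) → E') → k}
    (hc : c ∈ Zc (Cc a' χ X') (Zr a' χ X' X') n) :
    pull χ h n (H.mk c hc) = H.mk (pbK k f n c) ((h.isMor_Cc le_rfl h.mapsX).mapZ hc) := rfl

@[simp] theorem pullR_mk (h : IsMap a a' X X' f) (hA : A ⊆ X) (hf : MapsTo f A A')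
    {c : (Fin (n + 1) → E') → k} (hc : c ∈ Zc (Zr a' χ X' A') (Zr a' χ X' X') n) :
    pullR χ h hA hf n (H.mk c hc) =
      H.mk (pbK k f n c) ((h.isMor_Zr le_rfl h.mapsX hA hf).mapZ hc) := rfl

theorem pull_comp (hg : IsMap a' a'' X' X'' g) (hf : IsMap a a' X X' f) (x : Ha a'' χ X'' n) :
    pull χ (hg.comp hf) n x = pull χ hf n (pull χ hg n x) := by
  obtain ⟨c, hc, rfl⟩ := H.exists_mk x
  rfl

theorem pullR_comp (hg : IsMap a' a'' X' X'' g) (hf : IsMap a a' X X' f) (hA : A ⊆ X)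
    (hA' : A' ⊆ X') (hfA : MapsTo f A A') (hgA : MapsTo g A' A'') (x : Hr a'' χ X'' A'' n) :
    pullR χ (hg.comp hf) hA (hgA.comp hfA) n x = pullR χ hf hA hfA n (pullR χ hg hA' hgA n x) := by
  obtain ⟨c, hc, rfl⟩ := H.exists_mk x
  rfl

/-- The pullback only depends on the restriction of the map to `X`. -/
theorem pull_congr (h₀ : IsMap a a' X X' f₀) (h₁ : IsMap a a' X X' f₁) (he : EqOn f₀ f₁ X) :
    pull χ h₀ n = pull χ h₁ n := by
  refine Hmap_eq_of _ _ fun c hc => T_le_Bc _ _ _ ⟨?_, 1, one_pos, fun x hx => ?_⟩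
  · exact (h₀.pb_eqv hc.1).sub (h₁.pb_eqv hc.1)
  · change c (f₀ ∘ x) - c (f₁ ∘ x) = 0
    rw [show f₀ ∘ x = f₁ ∘ x from funext fun i => he (hx.1 i), sub_self]

theorem pullR_congr (h₀ : IsMap a a' X X' f₀) (h₁ : IsMap a a' X X' f₁) (hA : A ⊆ X)
    (hf₀ : MapsTo f₀ A A') (hf₁ : MapsTo f₁ A A') (he : EqOn f₀ f₁ X) :
    pullR χ h₀ hA hf₀ n = pullR χ h₁ hA hf₁ n := by
  refine Hmap_eq_of _ _ fun c hc => T_le_Bc _ _ _ ⟨?_, 1, one_pos, fun x hx => ?_⟩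
  · exact (h₀.pb_eqv hc.1.1).sub (h₁.pb_eqv hc.1.1)
  · change c (f₀ ∘ x) - c (f₁ ∘ x) = 0
    rw [show f₀ ∘ x = f₁ ∘ x from funext fun i => he (hx.1 i), sub_self]

/-- The pullback by (a map which is) the identity is the restriction. -/
theorem pull_eq_res {Y : Set E} (hY : Y ⊆ X) {r : E → E} (h : IsMap a a Y X r)
    (he : ∀ x ∈ Y, r x = x) : pull χ h n = res hY n := by
  rw [pull_congr h (IsMap.id_of_subset hY) he]
  rfl

theorem pullR_eq_resR {Y B : Set E} (hY : Y ⊆ X) (hBA : B ⊆ A) (hB : B ⊆ Y) {r : E → E}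
    (h : IsMap a a Y X r) (hr : MapsTo r B A) (he : ∀ x ∈ Y, r x = x) :
    pullR χ h hB hr n = resR hY hBA n := by
  rw [pullR_congr h (IsMap.id_of_subset hY) hB hr (fun _ hx => hBA hx) he]
  rfl

theorem res_refl (hX : X ⊆ X) (x : Ha a χ X n) : res hX n x = x := Hinc_refl _ _ x

theorem res_res {Y Z : Set E} (hY : Y ⊆ X) (hZ : Z ⊆ Y) (x : Ha a χ X n) :
    res hZ n (res hY n x) = res (hZ.trans hY) n x := Hinc_comp _ _ _ _ x

theorem resR_resR {Y Z B C : Set E} (hY : Y ⊆ X) (hZ : Z ⊆ Y) (hB : B ⊆ A) (hC : C ⊆ B)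
    (x : Hr a χ X A n) :
    resR hZ hC n (resR hY hB n x) = resR (hZ.trans hY) (hC.trans hB) n x :=
  Hinc_comp _ _ _ _ x

/-! ### Contiguity and homotopy -/

theorem prism_eqv (h₀ : IsMap a a' X X' f₀) (h₁ : IsMap a a' X X' f₁) {n : ℕ}
    {c : (Fin (n + 1) → E') → k} (hc : Eqv a' χ X' c) :
    Eqv a χ X (P265.AS.prism f₀ f₁ c) := by
  intro i x hx
  rw [P265.AS.prism_comp f₀ f₁ (a i) (a' i) c x (fun j => h₀.eqv i _ (hx j))
    fun j => h₁.eqv i _ (hx j)]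
  have : P265.AS.prism f₀ f₁ (P265.AS.pb (a' i) c - χ i • c) x = 0 := by
    apply P265.AS.prism_eq_zero
    intro y hy
    rw [Pi.sub_apply, P265.AS.pb_apply, hc i y, Pi.smul_apply, smul_eq_mul, sub_self]
    intro j
    obtain ⟨l, hl | hl⟩ := hy j
    · exact hl ▸ h₀.mapsX (hx l)
    · exact hl ▸ h₁.mapsX (hx l)
  rw [P265.AS.prism_sub, P265.AS.prism_smul, Pi.sub_apply, sub_eq_zero] at this
  exact this

/-- `f₀` and `f₁` send `δ`-close points of `Y` to `ε`-close points. -/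
def Close (Y : Set E) (f₀ f₁ : E → E') (δ ε : ℝ) : Prop :=
  ∀ x ∈ Y, ∀ y ∈ Y, dist x y < δ →
    dist (f₀ x) (f₀ y) < ε ∧ dist (f₀ x) (f₁ y) < ε ∧ dist (f₁ x) (f₁ y) < ε

theorem Close.sm {Y : Set E} {Y' : Set E'} {δ ε : ℝ} (h : Close Y f₀ f₁ δ ε)
    (hf₀ : MapsTo f₀ Y Y') (hf₁ : MapsTo f₁ Y Y') {n m : ℕ} {x : Fin n → E} (hx : Sm Y δ x)
    {y : Fin m → E'} (hy : ∀ i, ∃ j, y i = f₀ (x j) ∨ y i = f₁ (x j)) : Sm Y' ε y := by
  refine ⟨fun i => ?_, fun i j => ?_⟩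
  · obtain ⟨j, hj | hj⟩ := hy i
    · exact hj ▸ hf₀ (hx.1 j)
    · exact hj ▸ hf₁ (hx.1 j)
  · obtain ⟨i', hi⟩ := hy i
    obtain ⟨j', hj⟩ := hy j
    have h1 := h _ (hx.1 i') _ (hx.1 j') (hx.2 i' j')
    have h2 := h _ (hx.1 j') _ (hx.1 i') (hx.2 j' i')
    rcases hi with hi | hi <;> rcases hj with hj | hj <;> rw [hi, hj]
    · exact h1.1
    · exact h1.2.1
    · rw [dist_comm]; exact h2.2.1
    · exact h1.2.2

/-- **Contiguity**, on the level of cochains. -/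
theorem contiguous (h₀ : IsMap a a' X X' f₀) (h₁ : IsMap a a' X X' f₁) (hA : A ⊆ X)
    (hf₀ : MapsTo f₀ A A') (hf₁ : MapsTo f₁ A A') {c : (Fin (n + 1) → E') → k}
    (hc : Eqv a' χ X' c) {ε δ : ℝ} (hδ : 0 < δ) (h1 : ∀ x, Sm X' ε x → P265.AS.d c x = 0)
    (h2 : ∀ x, Sm A' ε x → c x = 0) (hcl : Close X f₀ f₁ δ ε) :
    pbK k f₁ n c - pbK k f₀ n c ∈ Bc (Zr a χ X A) (Zr a χ X X) n := by
  have hAcl : Close A f₀ f₁ δ ε := fun x hx y hy => hcl x (hA hx) y (hA hy)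
  have key : Van X (P265.AS.prism f₀ f₁ (P265.AS.d c)) := ⟨δ, hδ, fun x hx =>
    P265.AS.prism_eq_zero _ _ fun y hy => h1 y (hcl.sm h₀.mapsX h₁.mapsX hx hy)⟩
  have key' : Eqv a χ X (P265.AS.prism f₀ f₁ (P265.AS.d c)) := prism_eqv h₀ h₁ hc.d
  have hd : ∀ x, P265.AS.d (P265.AS.prism f₀ f₁ c) x + P265.AS.prism f₀ f₁ (P265.AS.d c) x =
      c (f₁ ∘ x) - c (f₀ ∘ x) := P265.AS.d_prism f₀ f₁ c
  cases n with
  | zero =>
    rw [mem_Bc_zero]
    have : pbK k f₁ 0 c - pbK k f₀ 0 c = P265.AS.prism f₀ f₁ (P265.AS.d c) := by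
      funext x
      have h3 := hd x
      have h4 : P265.AS.d (P265.AS.prism f₀ f₁ c) x = 0 := rfl
      rw [h4, zero_add] at h3
      exact h3.symm
    rw [this]
    exact ⟨key', key⟩
  | succ n =>
    rw [mem_Bc_succ]
    refine ⟨P265.AS.prism f₀ f₁ c, ⟨prism_eqv h₀ h₁ hc, δ, hδ, fun x hx =>
      P265.AS.prism_eq_zero _ _ fun y hy => h2 y (hAcl.sm hf₀ hf₁ hx hy)⟩, ?_⟩
    have : pbK k f₁ (n + 1) c - pbK k f₀ (n + 1) c -
        (ASK E k).d n (P265.AS.prism f₀ f₁ c) = P265.AS.prism f₀ f₁ (P265.AS.d c) := by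
      funext x
      have h3 := hd x
      change c (f₁ ∘ x) - c (f₀ ∘ x) - P265.AS.d (P265.AS.prism f₀ f₁ c) x = _
      rw [← h3, add_sub_cancel_left]
    rw [this]
    exact ⟨key', key⟩

/-- `D s`, `0 ≤ s ≤ 1`, is a uniformly continuous equivariant homotopy of maps `X → X'`. -/
structure IsHtpy (a : I → E → E) (a' : I → E' → E') (X : Set E) (X' : Set E') (D : ℝ → E → E') :
    Prop where
  mapsX : ∀ s ∈ Icc (0 : ℝ) 1, MapsTo (D s) X X'
  eqv : ∀ s ∈ Icc (0 : ℝ) 1, ∀ i, ∀ x ∈ X, D s (a i x) = a' i (D s x)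
  uc : ∀ ε > 0, ∃ δ > 0, ∀ s ∈ Icc (0 : ℝ) 1, ∀ t ∈ Icc (0 : ℝ) 1, ∀ x ∈ X, ∀ y ∈ X,
    |s - t| < δ → dist x y < δ → dist (D s x) (D t y) < ε

namespace IsHtpy

variable {D : ℝ → E → E'}

theorem isMap (h : IsHtpy a a' X X' D) {s : ℝ} (hs : s ∈ Icc (0 : ℝ) 1) :
    IsMap a a' X X' (D s) where
  mapsX := h.mapsX s hs
  eqv := h.eqv s hs
  uc := fun ε hε => by
    obtain ⟨δ, hδ, h'⟩ := h.uc ε hε
    exact ⟨δ, hδ, fun x hx y hy hxy => h' s hs s hs x hx y hy (by simpa using hδ) hxy⟩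

theorem zero (h : IsHtpy a a' X X' D) : IsMap a a' X X' (D 0) := h.isMap ⟨le_rfl, zero_le_one⟩

theorem one (h : IsHtpy a a' X X' D) : IsMap a a' X X' (D 1) := h.isMap ⟨zero_le_one, le_rfl⟩

theorem mono (h : IsHtpy a a' X X' D) {Y : Set E} {Y' : Set E'} (hY : Y ⊆ X)
    (hm : ∀ s ∈ Icc (0 : ℝ) 1, MapsTo (D s) Y Y') : IsHtpy a a' Y Y' D where
  mapsX := hm
  eqv s hs i x hx := h.eqv s hs i x (hY hx)
  uc := fun ε hε => by
    obtain ⟨δ, hδ, h'⟩ := h.uc ε hε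
    exact ⟨δ, hδ, fun s hs t ht x hx y hy => h' s hs t ht x (hY hx) y (hY hy)⟩

theorem of_continuousOn (hX : IsCompact X)
    (hc : ContinuousOn (fun q : ℝ × E => D q.1 q.2) (Icc (0 : ℝ) 1 ×ˢ X))
    (hm : ∀ s ∈ Icc (0 : ℝ) 1, MapsTo (D s) X X')
    (he : ∀ s ∈ Icc (0 : ℝ) 1, ∀ i, ∀ x ∈ X, D s (a i x) = a' i (D s x)) :
    IsHtpy a a' X X' D where
  mapsX := hm
  eqv := he
  uc := fun ε hε => by
    have h := (isCompact_Icc.prod hX).uniformContinuousOn_of_continuous hc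
    rw [Metric.uniformContinuousOn_iff] at h
    obtain ⟨δ, hδ, h⟩ := h ε hε
    refine ⟨δ, hδ, fun s hs t ht x hx y hy hst hxy => h (s, x) ⟨hs, hx⟩ (t, y) ⟨ht, hy⟩ ?_⟩
    rw [Prod.dist_eq, max_lt_iff]
    exact ⟨by rwa [Real.dist_eq], hxy⟩

end IsHtpy

/-- **Homotopy invariance** on the level of cochains. -/
theorem homotopy_mem {D : ℝ → E → E'} (h : IsHtpy a a' X X' D) (hA : A ⊆ X)
    (hDA : ∀ s ∈ Icc (0 : ℝ) 1, MapsTo (D s) A A') {c : (Fin (n + 1) → E') → k}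
    (hc : c ∈ Zc (Zr a' χ X' A') (Zr a' χ X' X') n) :
    pbK k (D 1) n c - pbK k (D 0) n c ∈ Bc (Zr a χ X A) (Zr a χ X X) n := by
  obtain ⟨hcE, ⟨ε₂, hε₂, h2⟩, ⟨ε₁, hε₁, h1⟩⟩ := mem_Zc_rel.1 hc
  obtain ⟨δ, hδ, h3⟩ := h.uc (min ε₁ ε₂) (lt_min hε₁ hε₂)
  have key : ∀ s ∈ Icc (0 : ℝ) 1, ∀ t ∈ Icc (0 : ℝ) 1, |s - t| < δ →
      pbK k (D t) n c - pbK k (D s) n c ∈ Bc (Zr a χ X A) (Zr a χ X X) n := by
    intro s hs t ht hst
    refine contiguous (ε := min ε₁ ε₂) (h.isMap hs) (h.isMap ht) hA (hDA s hs) (hDA t ht) hcE hδ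
      (fun x hx => h1 x (hx.mono le_rfl (min_le_left _ _)))
      (fun x hx => h2 x (hx.mono le_rfl (min_le_right _ _))) ?_
    exact fun x hx y hy hxy => ⟨h3 s hs s hs x hx y hy (by simpa using hδ) hxy,
      h3 s hs t ht x hx y hy hst hxy, h3 t ht t ht x hx y hy (by simpa using hδ) hxy⟩
  obtain ⟨N, hN⟩ := exists_nat_gt (1 / δ)
  have hN0 : (0 : ℝ) < N := lt_trans (by positivity) hN
  have hN' : 1 / (N : ℝ) < δ := by
    rw [div_lt_iff₀ hN0]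
    rw [div_lt_iff₀ hδ] at hN
    linarith [mul_comm (N : ℝ) δ]
  have hmem : ∀ i : ℕ, i ≤ N → (i : ℝ) / N ∈ Icc (0 : ℝ) 1 := fun i hi =>
    ⟨by positivity, by rw [div_le_one hN0]; exact_mod_cast hi⟩
  have ind : ∀ i : ℕ, i ≤ N →
      pbK k (D ((i : ℝ) / N)) n c - pbK k (D 0) n c ∈ Bc (Zr a χ X A) (Zr a χ X X) n := by
    intro i
    induction i with
    | zero =>
      intro _
      rw [Nat.cast_zero, zero_div, sub_self]
      exact Submodule.zero_mem _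
    | succ i ih =>
      intro hi
      have e1 := ih (by omega)
      have e2 := key _ (hmem i (by omega)) _ (hmem (i + 1) hi) (by
        have : (i : ℝ) / N - ((i + 1 : ℕ) : ℝ) / N = -(1 / N) := by
          push_cast; field_simp; ring
        rw [this, abs_neg, abs_of_pos (by positivity)]
        exact hN')
      have := Submodule.add_mem _ e1 e2
      rwa [sub_add_sub_cancel'] at this
  have := ind N le_rfl
  rwa [div_self hN0.ne'] at this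

/-- **Homotopy invariance**, relative version. -/
theorem pullR_homotopy {D : ℝ → E → E'} (h : IsHtpy a a' X X' D) (hA : A ⊆ X)
    (hDA : ∀ s ∈ Icc (0 : ℝ) 1, MapsTo (D s) A A') (n : ℕ) :
    pullR χ h.one hA (hDA 1 ⟨zero_le_one, le_rfl⟩) n =
      pullR χ h.zero hA (hDA 0 ⟨le_rfl, zero_le_one⟩) n :=
  Hmap_eq_of _ _ fun _ hc => homotopy_mem h hA hDA hc

/-- **Homotopy invariance**. -/
theorem pull_homotopy {D : ℝ → E → E'} (h : IsHtpy a a' X X' D) (n : ℕ) :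
    pull χ h.one n = pull χ h.zero n := by
  refine Hmap_eq_of _ _ fun c hc => ?_
  rw [← Zr_empty (a := a') (χ := χ)] at hc
  have := homotopy_mem (A := ∅) h (empty_subset _) (fun _ _ => mapsTo_empty _ _) hc
  rwa [Zr_empty] at this

end Metric

end Vale.Agent.P216.AS
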