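import Vale.Agent.P216.AS.Taut
import Vale.Agent.P216.AS.Les

/-!
Consequences of tautness and of the exact Mayer-Vietoris sequence for compact invariant sets:
strong excision, the vanishing lemma for restrictions to a union, continuity.
-/

open Set

namespace Vale.Agent.P216.AS

section Algebra

variable {k : Type} [Field k] {C : Amb k}

/-- Vanishing of a restriction map to a union from the vanishing on the pieces. -/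
theorem mv_zero {S₁ S₂ T₁ T₂ S₁' S₂' T₁' T₂' S₁'' S₂'' T₁'' T₂'' : Sub C}
    (h₁' : T₁' ≤ S₁') (h₂' : T₂' ≤ S₂') (h₁'' : T₁'' ≤ S₁'') (h₂'' : T₂'' ≤ S₂'')
    (i₁ : S₁ ≤ S₁') (i₂ : S₂ ≤ S₂') (j₁ : T₁ ≤ T₁') (j₂ : T₂ ≤ T₂')
    (i₁' : S₁' ≤ S₁'') (i₂' : S₂' ≤ S₂'') (j₁' : T₁' ≤ T₁'') (j₂' : T₂' ≤ T₂'')
    {n : ℕ} (e₁ : ∀ x, Hinc i₁ j₁ n x = 0) (e₂ : ∀ x, Hinc i₂ j₂ n x = 0)
    (e : ∀ m, m + 1 = n → ∀ x, Hinc (sup_le_sup i₁' i₂') (sup_le_sup j₁' j₂') m x = 0)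
    (x : H (S₁ ⊓ S₂) (T₁ ⊓ T₂) n) :
    Hinc (inf_le_inf (i₁.trans i₁') (i₂.trans i₂'))
      (inf_le_inf (j₁.trans j₁') (j₂.trans j₂')) n x = 0 := by
  have hx₁ : Hinc (inf_le_left : S₁' ⊓ S₂' ≤ S₁') (inf_le_left : T₁' ⊓ T₂' ≤ T₁') n
      (Hinc (inf_le_inf i₁ i₂) (inf_le_inf j₁ j₂) n x) = 0 := by
    rw [Hinc_comp, ← Hinc_comp (inf_le_left : S₁ ⊓ S₂ ≤ S₁) (inf_le_left : T₁ ⊓ T₂ ≤ T₁) i₁ j₁]
    exact e₁ _
  have hx₂ : Hinc (inf_le_right : S₁' ⊓ S₂' ≤ S₂') (inf_le_right : T₁' ⊓ T₂' ≤ T₂') n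
      (Hinc (inf_le_inf i₁ i₂) (inf_le_inf j₁ j₂) n x) = 0 := by
    rw [Hinc_comp, ← Hinc_comp (inf_le_right : S₁ ⊓ S₂ ≤ S₂) (inf_le_right : T₁ ⊓ T₂ ≤ T₂) i₂ j₂]
    exact e₂ _
  rw [← Hinc_comp (inf_le_inf i₁ i₂) (inf_le_inf j₁ j₂) (inf_le_inf i₁' i₂')
    (inf_le_inf j₁' j₂') x]
  cases n with
  | zero => rw [mv_zero_injective _ hx₁ hx₂, map_zero]
  | succ n =>
    obtain ⟨w, hw⟩ := mv_exact_inf h₁' h₂' _ hx₁ hx₂
    rw [← hw, ← mvDel_natural h₁' h₂' h₁'' h₂'' i₁' i₂' j₁' j₂', e n rfl, map_zero]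

end Algebra

variable {E : Type} {k : Type} [Field k] {I : Type} [MetricSpace E] {a : I → E → E} {χ : I → k}
  {X A B : Set E}

theorem Zr_union_le : Zr a χ X (A ∪ B) ≤ Zr a χ X A ⊓ Zr a χ X B :=
  le_inf (Zr_anti le_rfl subset_union_left) (Zr_anti le_rfl subset_union_right)

/-! ### Comparison squares -/

theorem rank_le_of_square {V W V' W' : Type} [AddCommGroup V] [Module k V] [AddCommGroup W]
    [Module k W] [AddCommGroup V'] [Module k V'] [AddCommGroup W'] [Module k W']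
    {φ : V →ₗ[k] W} {φ' : V' →ₗ[k] W'} {α : V →ₗ[k] V'} {β : W →ₗ[k] W'}
    (hβ : Function.Injective β) (h : ∀ x, β (φ x) = φ' (α x)) :
    LinearMap.rank φ ≤ LinearMap.rank φ' := by
  unfold LinearMap.rank
  refine LinearMap.rank_le_of_injective
    ((β.domRestrict (LinearMap.range φ)).codRestrict (LinearMap.range φ') ?_) ?_
  · rintro ⟨_, v, rfl⟩
    exact ⟨α v, (h v).symm⟩
  · intro x y hxy
    exact Subtype.ext (hβ (congrArg Subtype.val hxy))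

/-- `H(Zr(A' ∪ B') / Zr(A ∪ B)) → H((Zr A' ⊓ Zr B') / (Zr A ⊓ Zr B))` is bijective. -/
theorem union_bijective {W A' B' : Set E} (h : Tw a χ W) (hW : Inv a W) (hA : IsCompact A)
    (hB : IsCompact B) (hA' : IsCompact A') (hB' : IsCompact B') (hAW : A ⊆ W) (hBW : B ⊆ W)
    (hAA : A' ⊆ A) (hBB : B' ⊆ B) (iA : Inv a A) (iB : Inv a B) (iA' : Inv a A')
    (iB' : Inv a B') (n : ℕ) :
    Function.Bijective (Hinc (Zr_union_le (X := W) (A := A') (B := B'))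
      (Zr_union_le (X := W) (A := A) (B := B)) n :
      H (Zr a χ W (A' ∪ B')) (Zr a χ W (A ∪ B)) n →ₗ[k]
        H (Zr a χ W A' ⊓ Zr a χ W B') (Zr a χ W A ⊓ Zr a χ W B) n) :=
  Hinc_bijective (Zr_anti le_rfl (union_subset_union hAA hBB)) Zr_union_le Zr_union_le
    (inf_le_inf (Zr_anti le_rfl hAA) (Zr_anti le_rfl hBB))
    (fun m => mv_acyclic h hW hA' hB' (hAA.trans hAW) (hBB.trans hBW) iA' iB' m)
    (fun m => mv_acyclic h hW hA hB hAW hBW iA iB m) n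

/-- From the supremum to the intersection, in the world of the intersection. -/
theorem inter_injective {W A' B' : Set E} (hAW : A ⊆ W) (hAA : A' ⊆ A)
    (hBB : B' ⊆ B) (iA : Inv a A) (iB : Inv a B) (iA' : Inv a A') (n : ℕ) :
    Function.Injective (Hinc
      (((Zr_sup iA').le : Zr a χ W A' ⊔ Zr a χ W B' ≤ _).trans
        (Zr_anti (inter_subset_left.trans hAW : A ∩ B ⊆ W) le_rfl))
      (((Zr_sup iA).le : Zr a χ W A ⊔ Zr a χ W B ≤ _).trans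
        (Zr_anti (inter_subset_left.trans hAW : A ∩ B ⊆ W) le_rfl)) n :
      H (Zr a χ W A' ⊔ Zr a χ W B') (Zr a χ W A ⊔ Zr a χ W B) n →ₗ[k]
        Hr a χ (A ∩ B) (A' ∩ B') n) := by
  have l1 : Zr a χ W A' ⊔ Zr a χ W B' ≤ Zr a χ W (A' ∩ B') := (Zr_sup iA').le
  have l2 : Zr a χ W A ⊔ Zr a χ W B ≤ Zr a χ W (A ∩ B) := (Zr_sup iA).le
  have b1 : Function.Injective (Hinc l1 l2 n : H (Zr a χ W A' ⊔ Zr a χ W B')
      (Zr a χ W A ⊔ Zr a χ W B) n →ₗ[k] H (Zr a χ W (A' ∩ B')) (Zr a χ W (A ∩ B)) n) := by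
    refine Hmap_injective (IsMor.id_of_le l1 l2) (fun {n x} _ hx => ?_) fun {n y} hy => ?_
    · rw [Zr_sup iA]; exact hx
    · exact ⟨y, by rw [Zr_sup iA']; exact hy, by simp⟩
  have b2 := (world_bijective (k := k) (a := a) (χ := χ) (X := W) (Y := A ∩ B) (A := A ∩ B)
    (B := A' ∩ B') (inter_subset_left.trans hAW) le_rfl (inter_subset_inter hAA hBB)
    (iA.inter iB) n).1
  have := b2.comp b1
  intro x y hxy
  apply this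
  rw [Function.comp_apply, Function.comp_apply, Hinc_comp, Hinc_comp]
  exact hxy

/-- **Strong excision** for compact sets: `H(B, A) → H(N, N₀)` is bijective if `B = A ∪ N` and
`N₀ = A ∩ N`. -/
theorem strong_excision {A N B N₀ : Set E} (h : Tw a χ B) (hA : IsCompact A) (hN : IsCompact N)
    (hAi : Inv a A) (hNi : Inv a N) (hB : B = A ∪ N) (hN₀ : N₀ = A ∩ N) (hNB : N ⊆ B)
    (hNA : N₀ ⊆ A) (n : ℕ) :
    Function.Bijective (resR hNB hNA n : Hr a χ B A n →ₗ[k] Hr a χ N N₀ n) := by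
  have hAB : A ⊆ B := hB ▸ subset_union_left
  have hBi : Inv a B := hB ▸ hAi.union hNi
  -- first step
  have l1 : Zr a χ B B ≤ Zr a χ B A ⊓ Zr a χ B N :=
    le_inf (Zr_anti le_rfl hAB) (Zr_anti le_rfl hNB)
  have b1 := Hinc_bijective_of_bot (T := Zr a χ B B) (T' := Zr a χ B A ⊓ Zr a χ B N)
    (S := Zr a χ B A) l1 inf_le_left (fun m => by
      have := mv_acyclic h hBi hA hN hAB hNB hAi hNi m
      rwa [← hB] at this) n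
  have b2 := Hinc_second_iso (Zr a χ B A) (Zr a χ B N) n
  have e3 : Zr a χ B A ⊔ Zr a χ B N = Zr a χ B N₀ := by rw [Zr_sup hAi, hN₀]
  have b3 := world_bijective (k := k) (a := a) (χ := χ) (X := B) (Y := N) (A := N) (B := N₀) hNB
    le_rfl (by rw [hN₀]; exact inter_subset_right) hNi n
  constructor
  · intro x y hxy
    apply b1.1
    apply b2.1
    have l2 : Zr a χ B A ⊔ Zr a χ B N ≤ Zr a χ B N₀ := e3.le
    have hinj : Function.Injective (Hinc l2 (le_refl (Zr a χ B N)) n :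
        H (Zr a χ B A ⊔ Zr a χ B N) (Zr a χ B N) n →ₗ[k] H (Zr a χ B N₀) (Zr a χ B N) n) := by
      refine Hmap_injective (IsMor.id_of_le l2 le_rfl) (fun _ hx => hx) fun {n y} hy => ?_
      exact ⟨y, by rw [e3]; exact hy, by simp⟩
    apply hinj
    apply b3.1
    rw [Hinc_comp, Hinc_comp, Hinc_comp, Hinc_comp, Hinc_comp, Hinc_comp]
    exact hxy
  · intro z
    obtain ⟨z₁, rfl⟩ := b3.2 z
    have l2 : Zr a χ B A ⊔ Zr a χ B N ≤ Zr a χ B N₀ := e3.le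
    have hsurj : Function.Surjective (Hinc l2 (le_refl (Zr a χ B N)) n :
        H (Zr a χ B A ⊔ Zr a χ B N) (Zr a χ B N) n →ₗ[k] H (Zr a χ B N₀) (Zr a χ B N) n) := by
      refine Hmap_surjective (IsMor.id_of_le l2 le_rfl) (fun _ hx => hx) fun {n y} hy => ?_
      exact ⟨y, by rw [e3]; exact hy, by simp⟩
    obtain ⟨z₂, rfl⟩ := hsurj z₁
    obtain ⟨z₃, rfl⟩ := b2.2 z₂
    obtain ⟨z₄, rfl⟩ := b1.2 z₃
    refine ⟨z₄, ?_⟩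
    rw [Hinc_comp, Hinc_comp, Hinc_comp]
    rfl

section Thick

variable {A₀ A₀' A₁ A₁' A₂ A₂' B₀ B₀' B₁ B₁' B₂ B₂' : Set E}

/-- **Thick Mayer-Vietoris inequality** for three nested levels of compact invariant pairs. -/
theorem mv_rank_sets (h : Tw a χ (A₀ ∪ B₀))
    (cA₀ : IsCompact A₀) (cB₀ : IsCompact B₀) (cA₀' : IsCompact A₀') (cB₀' : IsCompact B₀')
    (cA₂ : IsCompact A₂) (cB₂ : IsCompact B₂) (cA₂' : IsCompact A₂') (cB₂' : IsCompact B₂')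
    (iA₀ : Inv a A₀) (iB₀ : Inv a B₀) (iA₀' : Inv a A₀') (iB₀' : Inv a B₀')
    (iA₁ : Inv a A₁) (iB₁ : Inv a B₁) (iA₁' : Inv a A₁') (iB₁' : Inv a B₁')
    (iA₂ : Inv a A₂) (iB₂ : Inv a B₂) (iA₂' : Inv a A₂') (iB₂' : Inv a B₂')
    (pA₀ : A₀' ⊆ A₀) (pB₀ : B₀' ⊆ B₀) (pA₁ : A₁' ⊆ A₁) (pB₁ : B₁' ⊆ B₁) (pA₂ : A₂' ⊆ A₂)
    (pB₂ : B₂' ⊆ B₂)
    (a₁ : A₁ ⊆ A₀) (a₁' : A₁' ⊆ A₀') (b₁ : B₁ ⊆ B₀) (b₁' : B₁' ⊆ B₀')
    (a₂ : A₂ ⊆ A₁) (a₂' : A₂' ⊆ A₁') (b₂ : B₂ ⊆ B₁) (b₂' : B₂' ⊆ B₁') (n : ℕ) :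
    LinearMap.rank (resR (union_subset_union (a₂.trans a₁) (b₂.trans b₁))
      (union_subset_union (a₂'.trans a₁') (b₂'.trans b₁')) (n + 1) :
        Hr a χ (A₀ ∪ B₀) (A₀' ∪ B₀') (n + 1) →ₗ[k] Hr a χ (A₂ ∪ B₂) (A₂' ∪ B₂') (n + 1)) ≤
      LinearMap.rank (resR a₁ a₁' (n + 1) : Hr a χ A₀ A₀' (n + 1) →ₗ[k] Hr a χ A₁ A₁' (n + 1)) +
      LinearMap.rank (resR b₁ b₁' (n + 1) : Hr a χ B₀ B₀' (n + 1) →ₗ[k] Hr a χ B₁ B₁' (n + 1)) +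
      LinearMap.rank (resR (inter_subset_inter a₂ b₂) (inter_subset_inter a₂' b₂') n :
        Hr a χ (A₁ ∩ B₁) (A₁' ∩ B₁') n →ₗ[k] Hr a χ (A₂ ∩ B₂) (A₂' ∩ B₂') n) := by
  have iW : Inv a (A₀ ∪ B₀) := iA₀.union iB₀
  have wA₀ : A₀ ⊆ A₀ ∪ B₀ := subset_union_left
  have wB₀ : B₀ ⊆ A₀ ∪ B₀ := subset_union_right
  have wA₁ := a₁.trans wA₀
  have wB₁ := b₁.trans wB₀
  have wA₂ := a₂.trans wA₁
  have wB₂ := b₂.trans wB₁
  have main := mv_rank_le (k := k) (R₁'' := Zr a χ (A₀ ∪ B₀) A₀') (S₁'' := Zr a χ (A₀ ∪ B₀) A₀)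
    (R₂'' := Zr a χ (A₀ ∪ B₀) B₀') (S₂'' := Zr a χ (A₀ ∪ B₀) B₀)
    (R₁' := Zr a χ (A₀ ∪ B₀) A₁') (S₁' := Zr a χ (A₀ ∪ B₀) A₁)
    (R₂' := Zr a χ (A₀ ∪ B₀) B₁') (S₂' := Zr a χ (A₀ ∪ B₀) B₁)
    (R₁ := Zr a χ (A₀ ∪ B₀) A₂') (S₁ := Zr a χ (A₀ ∪ B₀) A₂)
    (R₂ := Zr a χ (A₀ ∪ B₀) B₂') (S₂ := Zr a χ (A₀ ∪ B₀) B₂) n
    (Zr_anti le_rfl pA₁) (Zr_anti le_rfl pB₁) (Zr_anti le_rfl pA₂) (Zr_anti le_rfl pB₂)
    (Zr_anti le_rfl a₁') (Zr_anti le_rfl a₁) (Zr_anti le_rfl b₁') (Zr_anti le_rfl b₁)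
    (Zr_anti le_rfl a₂') (Zr_anti le_rfl a₂) (Zr_anti le_rfl b₂') (Zr_anti le_rfl b₂)
  refine le_trans ?_ (main.trans (add_le_add (add_le_add ?_ ?_) ?_))
  · -- the union
    have u := union_subset_union (a₂.trans a₁) (b₂.trans b₁)
    have u' := union_subset_union (a₂'.trans a₁') (b₂'.trans b₁')
    have p1 : Zr a χ (A₀ ∪ B₀) (A₀' ∪ B₀') ≤ Zr a χ (A₀ ∪ B₀) (A₂' ∪ B₂') := Zr_anti le_rfl u'
    have p2 : Zr a χ (A₀ ∪ B₀) (A₀ ∪ B₀) ≤ Zr a χ (A₀ ∪ B₀) (A₂ ∪ B₂) := Zr_anti le_rfl u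
    have q1 : Zr a χ (A₀ ∪ B₀) (A₂' ∪ B₂') ≤ Zr a χ (A₂ ∪ B₂) (A₂' ∪ B₂') := Zr_anti u le_rfl
    have q2 : Zr a χ (A₀ ∪ B₀) (A₂ ∪ B₂) ≤ Zr a χ (A₂ ∪ B₂) (A₂ ∪ B₂) := Zr_anti u le_rfl
    have e1 : LinearMap.rank (resR (union_subset_union (a₂.trans a₁) (b₂.trans b₁))
      (union_subset_union (a₂'.trans a₁') (b₂'.trans b₁')) (n + 1) :
        Hr a χ (A₀ ∪ B₀) (A₀' ∪ B₀') (n + 1) →ₗ[k] Hr a χ (A₂ ∪ B₂) (A₂' ∪ B₂') (n + 1)) ≤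
        LinearMap.rank (Hinc p1 p2 (n + 1)) := by
      have e2 : (resR (union_subset_union (a₂.trans a₁) (b₂.trans b₁))
          (union_subset_union (a₂'.trans a₁') (b₂'.trans b₁')) (n + 1) :
          Hr a χ (A₀ ∪ B₀) (A₀' ∪ B₀') (n + 1) →ₗ[k] Hr a χ (A₂ ∪ B₂) (A₂' ∪ B₂') (n + 1)) =
          Hinc q1 q2 (n + 1) ∘ₗ Hinc p1 p2 (n + 1) :=
        LinearMap.ext fun x => (Hinc_comp p1 p2 q1 q2 x).symm
      rw [e2]
      exact LinearMap.rank_comp_le_right _ _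
    refine e1.trans ?_
    refine rank_le_of_square (α := Hinc (Zr_union_le (X := A₀ ∪ B₀) (A := A₀') (B := B₀'))
      (Zr_union_le (X := A₀ ∪ B₀) (A := A₀) (B := B₀)) (n + 1)) (union_bijective h iW cA₂ cB₂
      cA₂' cB₂' wA₂ wB₂ pA₂ pB₂ iA₂ iB₂ iA₂' iB₂' (n + 1)).1 fun x => ?_
    rw [Hinc_comp, Hinc_comp]
  · refine rank_le_of_square (α := Hinc (Zr_anti wA₀ le_rfl) (Zr_anti wA₀ le_rfl) (n + 1))
      (world_bijective (k := k) (a := a) (χ := χ) wA₁ le_rfl pA₁ iA₁ (n + 1)).1 fun x => ?_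
    rw [Hinc_comp]
    exact (Hinc_comp _ _ _ _ x).symm
  · refine rank_le_of_square (α := Hinc (Zr_anti wB₀ le_rfl) (Zr_anti wB₀ le_rfl) (n + 1))
      (world_bijective (k := k) (a := a) (χ := χ) wB₁ le_rfl pB₁ iB₁ (n + 1)).1 fun x => ?_
    rw [Hinc_comp]
    exact (Hinc_comp _ _ _ _ x).symm
  · refine rank_le_of_square (α := Hinc
      (((Zr_sup iA₁').le : Zr a χ (A₀ ∪ B₀) A₁' ⊔ Zr a χ (A₀ ∪ B₀) B₁' ≤ _).trans
        (Zr_anti (inter_subset_left.trans wA₁ : A₁ ∩ B₁ ⊆ A₀ ∪ B₀) le_rfl))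
      (((Zr_sup iA₁).le : Zr a χ (A₀ ∪ B₀) A₁ ⊔ Zr a χ (A₀ ∪ B₀) B₁ ≤ _).trans
        (Zr_anti (inter_subset_left.trans wA₁ : A₁ ∩ B₁ ⊆ A₀ ∪ B₀) le_rfl)) n)
      (inter_injective wA₂ pA₂ pB₂ iA₂ iB₂ iA₂' n) fun x => ?_
    rw [Hinc_comp]
    exact (Hinc_comp _ _ _ _ x).symm

/-- Degree zero. -/
theorem mv_rank_sets_zero (h : Tw a χ (A₀ ∪ B₀))
    (cA₁ : IsCompact A₁) (cB₁ : IsCompact B₁) (cA₁' : IsCompact A₁') (cB₁' : IsCompact B₁')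
    (iA₀ : Inv a A₀) (iB₀ : Inv a B₀) (iA₁ : Inv a A₁) (iB₁ : Inv a B₁) (iA₁' : Inv a A₁')
    (iB₁' : Inv a B₁') (pA₁ : A₁' ⊆ A₁) (pB₁ : B₁' ⊆ B₁)
    (a₁ : A₁ ⊆ A₀) (a₁' : A₁' ⊆ A₀') (b₁ : B₁ ⊆ B₀) (b₁' : B₁' ⊆ B₀') :
    LinearMap.rank (resR (union_subset_union a₁ b₁) (union_subset_union a₁' b₁') 0 :
        Hr a χ (A₀ ∪ B₀) (A₀' ∪ B₀') 0 →ₗ[k] Hr a χ (A₁ ∪ B₁) (A₁' ∪ B₁') 0) ≤
      LinearMap.rank (resR a₁ a₁' 0 : Hr a χ A₀ A₀' 0 →ₗ[k] Hr a χ A₁ A₁' 0) +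
      LinearMap.rank (resR b₁ b₁' 0 : Hr a χ B₀ B₀' 0 →ₗ[k] Hr a χ B₁ B₁' 0) := by
  have iW : Inv a (A₀ ∪ B₀) := iA₀.union iB₀
  have wA₁ : A₁ ⊆ A₀ ∪ B₀ := a₁.trans subset_union_left
  have wB₁ : B₁ ⊆ A₀ ∪ B₀ := b₁.trans subset_union_right
  have u := union_subset_union a₁ b₁
  have u' := union_subset_union a₁' b₁'
  -- the target injects into the product
  let ρ : Hr a χ (A₁ ∪ B₁) (A₁' ∪ B₁') 0 →ₗ[k] Hr a χ A₁ A₁' 0 × Hr a χ B₁ B₁' 0 :=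
    (resR subset_union_left subset_union_left 0).prod (resR subset_union_right
      subset_union_right 0)
  have hρ : Function.Injective ρ := by
    rw [injective_iff_map_eq_zero]
    intro x hx
    obtain ⟨f, hf, rfl⟩ := H.exists_mk x
    have h1 : f ∈ Zr a χ A₁ A₁ 0 := by
      have := congrArg Prod.fst hx
      exact mem_Bc_zero.1 (H.mk_eq_zero.1 this)
    have h2 : f ∈ Zr a χ B₁ B₁ 0 := by
      have := congrArg Prod.snd hx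
      exact mem_Bc_zero.1 (H.mk_eq_zero.1 this)
    have hi := iA₁.union iB₁
    have hT : Tw a χ (A₁ ∪ B₁) := h.mono u
    have h3 := mv_acyclic_mem (n := 0) (f := f) hT hi cA₁ cB₁ subset_union_left
      subset_union_right iA₁ iB₁ ⟨⟨⟨hf.1.1, h1.2⟩, hf.1.1, h2.2⟩, hf.2⟩
    rw [H.mk_eq_zero, mem_Bc_zero]
    exact mem_Bc_zero.1 h3
  refine (rank_le_of_square (φ' := (resR a₁ a₁' 0).prodMap (resR b₁ b₁' 0))
    (α := (resR subset_union_left subset_union_left 0).prod (resR subset_union_right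
      subset_union_right 0)) hρ fun x => ?_).trans (rank_prodMap_le _ _)
  obtain ⟨f, hf, rfl⟩ := H.exists_mk x
  rfl

/-- Vanishing of the restriction to a union of two pairs. -/
theorem resR_union_zero (h : Tw a χ (A₀ ∪ B₀))
    (cA₀ : IsCompact A₀) (cB₀ : IsCompact B₀) (cA₀' : IsCompact A₀') (cB₀' : IsCompact B₀')
    (cA₁ : IsCompact A₁) (cB₁ : IsCompact B₁) (cA₁' : IsCompact A₁') (cB₁' : IsCompact B₁')
    (cA₂ : IsCompact A₂) (cB₂ : IsCompact B₂) (cA₂' : IsCompact A₂') (cB₂' : IsCompact B₂')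
    (iA₀ : Inv a A₀) (iB₀ : Inv a B₀) (iA₀' : Inv a A₀') (iB₀' : Inv a B₀')
    (iA₁ : Inv a A₁) (iB₁ : Inv a B₁) (iA₁' : Inv a A₁') (iB₁' : Inv a B₁')
    (iA₂ : Inv a A₂) (iB₂ : Inv a B₂) (iA₂' : Inv a A₂') (iB₂' : Inv a B₂')
    (pA₀ : A₀' ⊆ A₀) (pB₀ : B₀' ⊆ B₀) (pA₁ : A₁' ⊆ A₁) (pB₁ : B₁' ⊆ B₁) (pA₂ : A₂' ⊆ A₂)
    (pB₂ : B₂' ⊆ B₂)
    (a₁ : A₁ ⊆ A₀) (a₁' : A₁' ⊆ A₀') (b₁ : B₁ ⊆ B₀) (b₁' : B₁' ⊆ B₀')
    (a₂ : A₂ ⊆ A₁) (a₂' : A₂' ⊆ A₁') (b₂ : B₂ ⊆ B₁) (b₂' : B₂' ⊆ B₁')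
    (zA : ∀ n, ∀ x : Hr a χ A₀ A₀' n, (resR a₁ a₁' n : _ →ₗ[k] Hr a χ A₁ A₁' n) x = 0)
    (zB : ∀ n, ∀ x : Hr a χ B₀ B₀' n, (resR b₁ b₁' n : _ →ₗ[k] Hr a χ B₁ B₁' n) x = 0)
    (zI : ∀ n, ∀ x : Hr a χ (A₁ ∩ B₁) (A₁' ∩ B₁') n,
      (resR (inter_subset_inter a₂ b₂) (inter_subset_inter a₂' b₂') n :
        _ →ₗ[k] Hr a χ (A₂ ∩ B₂) (A₂' ∩ B₂') n) x = 0) (n : ℕ)
    (x : Hr a χ (A₀ ∪ B₀) (A₀' ∪ B₀') n) :
    (resR (union_subset_union (a₂.trans a₁) (b₂.trans b₁))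
      (union_subset_union (a₂'.trans a₁') (b₂'.trans b₁')) n :
        _ →ₗ[k] Hr a χ (A₂ ∪ B₂) (A₂' ∪ B₂') n) x = 0 := by
  have hz : ∀ {V W : Type} [AddCommGroup V] [Module k V] [AddCommGroup W] [Module k W]
      (φ : V →ₗ[k] W), (∀ x, φ x = 0) → LinearMap.rank φ = 0 := by
    intro V W _ _ _ _ φ hφ
    have : φ = 0 := LinearMap.ext hφ
    rw [this, LinearMap.rank_zero]
  have hz' : ∀ {V W : Type} [AddCommGroup V] [Module k V] [AddCommGroup W] [Module k W]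
      (φ : V →ₗ[k] W), LinearMap.rank φ ≤ 0 → ∀ x, φ x = 0 := by
    intro V W _ _ _ _ φ hφ x
    have h0 : LinearMap.rank φ = 0 := le_antisymm hφ zero_le
    have h1 : LinearMap.range φ = ⊥ := Submodule.rank_eq_zero.1 h0
    have h2 : φ x ∈ LinearMap.range φ := ⟨x, rfl⟩
    rw [h1] at h2
    exact (Submodule.mem_bot k).1 h2
  cases n with
  | zero =>
    have h0 := mv_rank_sets_zero (k := k) (χ := χ) (A₀' := A₀') (B₀' := B₀') h cA₁ cB₁ cA₁' cB₁' iA₀ iB₀ iA₁ iB₁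
      iA₁' iB₁' pA₁ pB₁ a₁ a₁' b₁ b₁'
    rw [hz _ (zA 0), hz _ (zB 0), add_zero] at h0
    have h1 := hz' _ h0 x
    rw [← resR_resR (union_subset_union a₁ b₁) (union_subset_union a₂ b₂)
      (union_subset_union a₁' b₁') (union_subset_union a₂' b₂'), h1, map_zero]
  | succ n =>
    have h0 := mv_rank_sets (k := k) (χ := χ) h cA₀ cB₀ cA₀' cB₀' cA₂ cB₂ cA₂' cB₂' iA₀ iB₀ iA₀' iB₀' iA₁ iB₁
      iA₁' iB₁' iA₂ iB₂ iA₂' iB₂' pA₀ pB₀ pA₁ pB₁ pA₂ pB₂ a₁ a₁' b₁ b₁' a₂ a₂' b₂ b₂' n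
    rw [hz _ (zA (n + 1)), hz _ (zB (n + 1)), hz _ (zI n), add_zero, add_zero] at h0
    exact hz' _ h0 x

end Thick

/-! ### Absolute groups -/

theorem Ha_bijective (n : ℕ) : Function.Bijective (Hinc (Zr_empty (X := X)).ge le_rfl n :
    Ha a χ X n →ₗ[k] Hr a χ X ∅ n) :=
  Hmap_bijective (IsMor.id_of_le (Zr_empty (X := X)).ge le_rfl) (fun _ hx => hx) fun {n y} hy =>
    ⟨y, by rwa [Zr_empty] at hy, by simp⟩

theorem rank_res_eq {Y : Set E} (hY : Y ⊆ X) (n : ℕ) :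
    LinearMap.rank (res hY n : Ha a χ X n →ₗ[k] Ha a χ Y n) =
      LinearMap.rank (resR hY (subset_refl ∅) n : Hr a χ X ∅ n →ₗ[k] Hr a χ Y ∅ n) := by
  apply le_antisymm
  · refine rank_le_of_square (α := Hinc (Zr_empty (X := X)).ge le_rfl n)
      (Ha_bijective (X := Y) n).1 fun x => ?_
    obtain ⟨f, hf, rfl⟩ := H.exists_mk x
    rfl
  · have e : ∀ Z : Set E, Function.Bijective (Hinc (Zr_empty (X := Z)).le le_rfl n :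
        Hr a χ Z ∅ n →ₗ[k] Ha a χ Z n) := fun Z =>
      Hmap_bijective (IsMor.id_of_le (Zr_empty (X := Z)).le le_rfl) (fun _ hx => hx)
        fun {n y} hy => ⟨y, by rw [Zr_empty]; exact hy, by simp⟩
    refine rank_le_of_square (α := Hinc (Zr_empty (X := X)).le le_rfl n) (e Y).1 fun x => ?_
    obtain ⟨f, hf, rfl⟩ := H.exists_mk x
    rfl

theorem res_zero_iff {Y : Set E} (hY : Y ⊆ X) (n : ℕ) :
    (∀ x : Ha a χ X n, (res hY n : _ →ₗ[k] Ha a χ Y n) x = 0) ↔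
      ∀ x : Hr a χ X ∅ n, (resR hY (subset_refl ∅) n : _ →ₗ[k] Hr a χ Y ∅ n) x = 0 := by
  constructor
  · intro h x
    obtain ⟨y, rfl⟩ := (Ha_bijective (X := X) n).2 x
    have h1 := h y
    obtain ⟨f, hf, rfl⟩ := H.exists_mk y
    have h2 := congrArg (Hinc (Zr_empty (X := Y)).ge le_rfl n : Ha a χ Y n →ₗ[k] Hr a χ Y ∅ n) h1
    rw [map_zero] at h2
    exact h2
  · intro h x
    apply (Ha_bijective (X := Y) n).1
    rw [map_zero]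
    obtain ⟨f, hf, rfl⟩ := H.exists_mk x
    exact h (Hinc (Zr_empty (X := X)).ge le_rfl n (H.mk f hf))

/-- **Vanishing of the restriction to a union**, absolute version, for nested triples of compact
invariant sets. -/
theorem res_union_zero {A₀ A₁ A₂ B₀ B₁ B₂ : Set E} (h : Tw a χ (A₀ ∪ B₀))
    (cA₀ : IsCompact A₀) (cB₀ : IsCompact B₀) (cA₁ : IsCompact A₁) (cB₁ : IsCompact B₁)
    (cA₂ : IsCompact A₂) (cB₂ : IsCompact B₂)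
    (iA₀ : Inv a A₀) (iB₀ : Inv a B₀) (iA₁ : Inv a A₁) (iB₁ : Inv a B₁) (iA₂ : Inv a A₂)
    (iB₂ : Inv a B₂) (a₁ : A₁ ⊆ A₀) (b₁ : B₁ ⊆ B₀) (a₂ : A₂ ⊆ A₁) (b₂ : B₂ ⊆ B₁)
    (zA : ∀ n, ∀ x : Ha a χ A₀ n, (res a₁ n : _ →ₗ[k] Ha a χ A₁ n) x = 0)
    (zB : ∀ n, ∀ x : Ha a χ B₀ n, (res b₁ n : _ →ₗ[k] Ha a χ B₁ n) x = 0)
    (zI : ∀ n, ∀ x : Ha a χ (A₁ ∩ B₁) n,
      (res (inter_subset_inter a₂ b₂) n : _ →ₗ[k] Ha a χ (A₂ ∩ B₂) n) x = 0) (n : ℕ)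
    (x : Ha a χ (A₀ ∪ B₀) n) :
    (res (union_subset_union (a₂.trans a₁) (b₂.trans b₁)) n :
        _ →ₗ[k] Ha a χ (A₂ ∪ B₂) n) x = 0 := by
  have zI' : ∀ n, ∀ x : Hr a χ (A₁ ∩ B₁) (∅ ∩ ∅) n,
      (resR (inter_subset_inter a₂ b₂) (inter_subset_inter (subset_refl ∅) (subset_refl ∅)) n :
        _ →ₗ[k] Hr a χ (A₂ ∩ B₂) (∅ ∩ ∅) n) x = 0 := by
    intro n x
    have e : (∅ ∩ ∅ : Set E) = ∅ := inter_self _
    have key : ∀ (C : Set E) (_ : C = ∅) (x : Hr a χ (A₁ ∩ B₁) C n),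
        (resR (inter_subset_inter a₂ b₂) (subset_refl C) n :
          _ →ₗ[k] Hr a χ (A₂ ∩ B₂) C n) x = 0 := by
      intro C hC
      subst hC
      exact (res_zero_iff _ n).1 (zI n)
    exact key _ e x
  have hu := resR_union_zero (k := k) (χ := χ) (A₀' := ∅) (B₀' := ∅) (A₁' := ∅) (B₁' := ∅) (A₂' := ∅)
    (B₂' := ∅) h cA₀ cB₀ isCompact_empty isCompact_empty cA₁ cB₁ isCompact_empty
    isCompact_empty cA₂ cB₂ isCompact_empty isCompact_empty iA₀ iB₀ inv_empty inv_empty iA₁ iB₁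
    inv_empty inv_empty iA₂ iB₂ inv_empty inv_empty (empty_subset _) (empty_subset _)
    (empty_subset _) (empty_subset _) (empty_subset _) (empty_subset _) a₁ (subset_refl _) b₁
    (subset_refl _) a₂ (subset_refl _) b₂ (subset_refl _)
    (fun n => (res_zero_iff a₁ n).1 (zA n)) (fun n => (res_zero_iff b₁ n).1 (zB n)) zI' n
  have key : ∀ (C : Set E) (_ : C = ∅), (∀ x : Hr a χ (A₀ ∪ B₀) C n,
      (resR (union_subset_union (a₂.trans a₁) (b₂.trans b₁)) (subset_refl C) n :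
        _ →ₗ[k] Hr a χ (A₂ ∪ B₂) C n) x = 0) →
      ∀ x : Ha a χ (A₀ ∪ B₀) n, (res (union_subset_union (a₂.trans a₁) (b₂.trans b₁)) n :
        _ →ₗ[k] Ha a χ (A₂ ∪ B₂) n) x = 0 := by
    intro C hC
    subst hC
    exact (res_zero_iff _ n).2
  exact key _ (union_self _) hu x

/-! ### Continuity -/

/-- The part of `X` at distance `< ε` of `A`. -/
def Nb (X A : Set E) (ε : ℝ) : Set E := {x ∈ X | ∃ y ∈ A, dist x y < ε}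

theorem Nb_sub {ε : ℝ} : Nb X A ε ⊆ X := fun _ h => h.1

theorem sub_Nb (hA : A ⊆ X) {ε : ℝ} (hε : 0 < ε) : A ⊆ Nb X A ε :=
  fun x hx => ⟨hA hx, x, hx, by simpa using hε⟩

theorem Nb_mono {ε δ : ℝ} (h : ε ≤ δ) : Nb X A ε ⊆ Nb X A δ :=
  fun _ hx => ⟨hx.1, hx.2.imp fun _ hy => ⟨hy.1, hy.2.trans_le h⟩⟩

/-- A relative class vanishing on `A` comes from a class vanishing on a neighbourhood of `A`. -/
theorem exists_relative_nhd (h : Tw a χ X) (hX : Inv a X) (hA : IsCompact A) (hAX : A ⊆ X)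
    (hAi : Inv a A) {n : ℕ} (x : Hr a χ X A n) :
    ∃ ε₀ > 0, ∀ N, A ⊆ N → N ⊆ Nb X A ε₀ →
      ∃ (hN : A ⊆ N) (y : Hr a χ X N n), resR le_rfl hN n y = x := by
  have hb := Hinc_bijective_of_top (T := Zr a χ X X) (S := Zn a χ X A) (S' := Zr a χ X A)
    (by rw [Zr_self_eq_Zn]; exact Zn_anti le_rfl hAX) (Zn_le_Zr hAX)
    (fun m => taut h hX hA hAX hAi m) n
  obtain ⟨y, rfl⟩ := hb.2 x
  obtain ⟨f, hf, rfl⟩ := H.exists_mk y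
  obtain ⟨ε, hε, hv⟩ := exists_nhd hf.1.2
  refine ⟨ε, hε, fun N hAN hN => ⟨hAN, H.mk f ⟨⟨hf.1.1, hv.mono hN⟩, hf.2⟩, rfl⟩⟩

/-- **Continuity, surjectivity**: a class on the compact set `A` extends to a neighbourhood. -/
theorem exists_extension (h : Tw a χ X) (hX : Inv a X) (hA : IsCompact A) (hAX : A ⊆ X)
    (hAi : Inv a A) {n : ℕ} (x : Ha a χ A n) :
    ∃ ε₀ > 0, ∀ N, A ⊆ N → N ⊆ Nb X A ε₀ →
      ∃ (hN : A ⊆ N) (y : Ha a χ N n), res hN n y = x := by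
  obtain ⟨y, rfl⟩ := (world_bijective' (k := k) (a := a) (χ := χ) hAX le_rfl hAi n).2 x
  have hb := Hinc_bijective_of_bot (T := Zn a χ X A) (T' := Zr a χ X A) (S := Cc a χ X)
    (Zn_le_Zr hAX) Zr_le_Cc (fun m => taut h hX hA hAX hAi m) n
  obtain ⟨z, rfl⟩ := hb.2 y
  obtain ⟨f, hf, rfl⟩ := H.exists_mk z
  obtain ⟨ε, hε, hv⟩ := exists_nhd hf.2.2
  have hf1 : Eqv a χ X f := hf.1
  refine ⟨ε, hε, fun N hAN hN => ⟨hAN, H.mk f ⟨?_, ?_, ?_⟩, rfl⟩⟩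
  · exact hf1.mono (hN.trans Nb_sub)
  · exact hf1.d.mono (hN.trans Nb_sub)
  · exact hv.mono hN

/-- **Continuity, injectivity**: a class on `X` which vanishes on the compact set `A` vanishes on
a neighbourhood of `A`. -/
theorem exists_vanishing_nhd (h : Tw a χ X) (hX : Inv a X) (hA : IsCompact A) (hAX : A ⊆ X)
    (hAi : Inv a A) {n : ℕ} (x : Ha a χ X n) (hx : res hAX n x = 0) :
    ∃ ε₀ > 0, ∀ N, N ⊆ Nb X A ε₀ → ∀ hN : N ⊆ X, res hN n x = 0 := by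
  -- in the world `X`
  have h1 : Hinc (le_refl (Cc a χ X)) (Zr_anti le_rfl hAX : Zr a χ X X ≤ Zr a χ X A) n x = 0 := by
    apply (world_bijective' (k := k) (a := a) (χ := χ) hAX le_rfl hAi n).1
    rw [map_zero, Hinc_comp]
    exact hx
  have hb := Hinc_bijective_of_bot (T := Zn a χ X A) (T' := Zr a χ X A) (S := Cc a χ X)
    (Zn_le_Zr hAX) Zr_le_Cc (fun m => taut h hX hA hAX hAi m) n
  have l : Zr a χ X X ≤ Zn a χ X A := by rw [Zr_self_eq_Zn]; exact Zn_anti le_rfl hAX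
  have h2 : Hinc (le_refl (Cc a χ X)) l n x = 0 := by
    apply hb.1
    rw [map_zero, Hinc_comp]
    exact h1
  obtain ⟨f, hf, rfl⟩ := H.exists_mk x
  rw [Hinc_mk, H.mk_eq_zero] at h2
  obtain ⟨t, ht, w, hw, htw⟩ := mem_Bc.1 h2
  obtain ⟨ε, hε, hv⟩ := exists_nhd ht.2
  refine ⟨ε, hε, fun N hN hNX => ?_⟩
  change H.mk f (Zc_mono (Cc_anti hNX) (Zr_anti hNX hNX) n hf) = 0
  rw [H.mk_eq_zero, mem_Bc]
  refine ⟨t, ⟨ht.1.mono hNX, hv.mono hN⟩, w, im_mono (Cc_anti hNX) n hw, htw⟩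

end Vale.Agent.P216.AS
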