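import Vale.Agent.P216.AS.TotLevel

set_option linter.unusedSectionVars false

/-! # Functoriality of the total complex, comparison theorem -/

open Module LinearMap

namespace Vale.Agent.P216.AS

variable {k : Type} [Field k] {C C' C'' : Amb k} {G : GCx C} {G' : GCx C'} {G'' : GCx C''}

/-- A morphism of invariant pairs: chain map commuting with `g` and the norm, everything modulo
the smaller subcomplex. -/
structure IsGMor (P : G.Pair) (P' : G'.Pair) (φ : ∀ n, C.K n →ₗ[k] C'.K n) : Prop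
    extends IsMor P.S P.T P'.S P'.T φ where
  comm_g : ∀ {n x}, x ∈ P.S.S n → G'.g n (φ n x) - φ n (G.g n x) ∈ P'.T.S n
  comm_nm : ∀ {n x}, x ∈ P.S.S n → G'.nm n (φ n x) - φ n (G.nm n x) ∈ P'.T.S n

namespace IsGMor

variable {P : G.Pair} {P' : G'.Pair} {P'' : G''.Pair} {φ ψ : ∀ n, C.K n →ₗ[k] C'.K n}

theorem comm_θ (h : IsGMor P P' φ) (i : ℕ) {n : ℕ} {x : C.K n} (hx : x ∈ P.S.S n) :
    G'.θ i n (φ n x) - φ n (G.θ i n x) ∈ P'.T.S n := by
  rcases Nat.mod_two_eq_zero_or_one i with hi | hi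
  · rw [G'.θ_even hi, G.θ_even hi]; exact h.comm_nm hx
  · rw [G'.θ_odd hi, G.θ_odd hi, map_sub]
    have := Submodule.neg_mem _ (h.comm_g hx)
    convert this using 1
    abel

theorem comp {χ : ∀ n, C'.K n →ₗ[k] C''.K n} (h' : IsGMor P' P'' χ) (h : IsGMor P P' φ) :
    IsGMor P P'' fun n => χ n ∘ₗ φ n where
  toIsMor := h'.toIsMor.comp h.toIsMor
  comm_g {n x} hx := by
    have h1 := h'.comm_g (h.mapS hx)
    have h2 := h'.mapT (h.comm_g hx)
    rw [map_sub] at h2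
    simpa using Submodule.add_mem _ h1 h2
  comm_nm {n x} hx := by
    have h1 := h'.comm_nm (h.mapS hx)
    have h2 := h'.mapT (h.comm_nm hx)
    rw [map_sub] at h2
    simpa using Submodule.add_mem _ h1 h2

/-- inclusions -/
theorem id_of_le {P P' : G.Pair} (hS : P.S ≤ P'.S) (hT : P.T ≤ P'.T) :
    IsGMor P P' fun _ => LinearMap.id where
  toIsMor := IsMor.id_of_le hS hT
  comm_g {n x} _ := by simp
  comm_nm {n x} _ := by simp

variable (φ) in
/-- the map on sequences -/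
def seq : (∀ q, C.K q) →ₗ[k] (∀ q, C'.K q) where
  toFun c q := φ q (c q)
  map_add' c c' := by funext q; simp
  map_smul' a c := by funext q; simp

theorem seq_apply (c : ∀ q, C.K q) (q : ℕ) : seq φ c q = φ q (c q) := rfl

theorem seq_D (h : IsGMor P P' φ) {n : ℕ} {c : ∀ q, C.K q}
    (hc : c ∈ (G.TotS P.S P.hS).S n) :
    G'.D n (seq φ c) - seq φ (G.D n c) ∈ (G'.TotS P'.T P'.hT).S (n + 1) := by
  have hcS : ∀ q, c q ∈ P.S.S q := fun q => by
    rcases Nat.lt_or_ge n q with hq | hq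
    · rw [hc.2 q hq]; exact Submodule.zero_mem _
    · exact hc.1 q hq
  refine ⟨fun q hq => ?_, fun q hq => ?_⟩
  · cases q with
    | zero =>
      change G'.θ (n + 1) 0 (φ 0 (c 0)) - φ 0 (G.θ (n + 1) 0 (c 0)) ∈ _
      exact h.comm_θ _ (hcS 0)
    | succ q =>
      change G'.D n (seq φ c) (q + 1) - φ (q + 1) (G.D n c (q + 1)) ∈ _
      rw [G'.D_succ, G.D_succ, map_add, map_smul, seq_apply, seq_apply]
      have h1 := h.comm (hcS q)
      have h2 := Submodule.smul_mem _ ((-1 : k) ^ (q + 1))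
        (h.comm_θ (n + 1 + (q + 1)) (hcS (q + 1)))
      have h3 := Submodule.add_mem _ h1 h2
      rw [smul_sub] at h3
      convert h3 using 1
      abel
  · cases q with
    | zero => omega
    | succ q =>
      change G'.D n (seq φ c) (q + 1) - φ (q + 1) (G.D n c (q + 1)) = _
      rw [G'.D_succ, G.D_succ, seq_apply, seq_apply, hc.2 q (by omega),
        hc.2 (q + 1) (by omega)]
      simp

theorem seq_TS (h : ∀ {n x}, x ∈ P.S.S n → φ n x ∈ P'.S.S n) {n : ℕ} {c : ∀ q, C.K q}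
    (hc : c ∈ (G.TotS P.S P.hS).S n) : seq φ c ∈ (G'.TotS P'.S P'.hS).S n :=
  ⟨fun q hq => h (hc.1 q hq), fun q hq => by rw [seq_apply, hc.2 q hq, map_zero]⟩

theorem seq_TT (h : ∀ {n x}, x ∈ P.T.S n → φ n x ∈ P'.T.S n) {n : ℕ} {c : ∀ q, C.K q}
    (hc : c ∈ (G.TotS P.T P.hT).S n) : seq φ c ∈ (G'.TotS P'.T P'.hT).S n :=
  ⟨fun q hq => h (hc.1 q hq), fun q hq => by rw [seq_apply, hc.2 q hq, map_zero]⟩

theorem seq_TU (h : IsGMor P P' φ) {n : ℕ} {c : ∀ q, C.K q}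
    (hc : c ∈ (G.TotU P.S P.T P.hS P.hT P.le).S n) :
    seq φ c ∈ (G'.TotU P'.S P'.T P'.hS P'.hT P'.le).S n :=
  ⟨fun q hq => h.mapS (hc.1 q hq), fun q hq hq' => h.mapT (hc.2.1 q hq hq'),
    fun q hq => by rw [seq_apply, hc.2.2 q hq, map_zero]⟩

/-- the morphism of total complexes -/
theorem tot (h : IsGMor P P' φ) :
    IsMor (G.TotS P.S P.hS) (G.TotS P.T P.hT) (G'.TotS P'.S P'.hS) (G'.TotS P'.T P'.hT)
      (fun _ => seq φ : ∀ n, G.Tot.K n →ₗ[k] G'.Tot.K n) where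
  mapS hx := seq_TS h.mapS hx
  mapT hx := seq_TT h.mapT hx
  comm hx := h.seq_D hx

theorem totE (h : IsGMor P P' φ) :
    IsMor (G.TotS P.S P.hS) (G.TotU P.S P.T P.hS P.hT P.le) (G'.TotS P'.S P'.hS)
      (G'.TotU P'.S P'.T P'.hS P'.hT P'.le)
      (fun _ => seq φ : ∀ n, G.Tot.K n →ₗ[k] G'.Tot.K n) where
  mapS hx := seq_TS h.mapS hx
  mapT hx := h.seq_TU hx
  comm hx := P'.TT_le_TU (h.seq_D hx)

/-- map on `H` -/
def mapH (h : IsGMor P P' φ) (n : ℕ) : P.HH n →ₗ[k] P'.HH n := Hmap h.toIsMor n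

/-- map on `F` -/
def mapF (h : IsGMor P P' φ) (n : ℕ) : P.FF n →ₗ[k] P'.FF n := Hmap h.tot n

/-- map on `E` -/
def mapE (h : IsGMor P P' φ) (n : ℕ) : P.EE n →ₗ[k] P'.EE n := Hmap h.totE n

theorem mapF_mk (h : IsGMor P P' φ) {n : ℕ} {c : ∀ q, C.K q}
    (hc : c ∈ Zc (G.TotS P.S P.hS) (G.TotS P.T P.hT) n) :
    h.mapF n (H.mk c hc) = H.mk (seq φ c) (h.tot.mapZ hc) := rfl

theorem mapF_comp {χ : ∀ n, C'.K n →ₗ[k] C''.K n} (h' : IsGMor P' P'' χ) (h : IsGMor P P' φ)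
    (n : ℕ) (x : P.FF n) : (h'.comp h).mapF n x = h'.mapF n (h.mapF n x) := by
  obtain ⟨x, hx, rfl⟩ := H.exists_mk x
  rfl

theorem mapH_comp {χ : ∀ n, C'.K n →ₗ[k] C''.K n} (h' : IsGMor P' P'' χ) (h : IsGMor P P' φ)
    (n : ℕ) (x : P.HH n) : (h'.comp h).mapH n x = h'.mapH n (h.mapH n x) := by
  obtain ⟨x, hx, rfl⟩ := H.exists_mk x
  rfl

theorem mapF_id (h : IsGMor P P fun _ => LinearMap.id) (n : ℕ) (x : P.FF n) :
    h.mapF n x = x := by
  obtain ⟨x, hx, rfl⟩ := H.exists_mk x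
  rfl

theorem mapF_incl {P P' : G.Pair} (hS : P.S ≤ P'.S) (hT : P.T ≤ P'.T) (n : ℕ) :
    (id_of_le hS hT).mapF n = GCx.Pair.resF hS hT n := by
  refine H.hom_ext fun x hx => ?_
  rfl

theorem u_mapF (h : IsGMor P P' φ) (n : ℕ) (x : P.FF n) :
    P'.u n (h.mapF n x) = h.mapF (n + 2) (P.u n x) := by
  obtain ⟨x, hx, rfl⟩ := H.exists_mk x
  rfl

theorem π_mapF (h : IsGMor P P' φ) (n : ℕ) (x : P.FF n) :
    P'.π n (h.mapF n x) = h.mapE n (P.π n x) := by
  obtain ⟨x, hx, rfl⟩ := H.exists_mk x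
  rfl

theorem b_mapE (h : IsGMor P P' φ) (n : ℕ) (x : P.EE n) :
    P'.b n (h.mapE n x) = h.mapH n (P.b n x) := by
  obtain ⟨x, hx, rfl⟩ := H.exists_mk x
  rfl

theorem a_mapH (h : IsGMor P P' φ) (n : ℕ) (x : P.HH n) :
    P'.a n (h.mapH n x) = h.mapE (n + 1) (P.a n x) := by
  obtain ⟨x, hx, rfl⟩ := H.exists_mk x
  change H.mk _ _ = H.mk _ _
  rw [H.mk_eq_mk]
  have : (GCx.Pair.sg n (φ n x) : ∀ q, C'.K q) - seq φ (GCx.Pair.sg n x) = 0 := by
    funext q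
    rw [Pi.sub_apply, seq_apply]
    rcases eq_or_ne q n with rfl | hne
    · rw [GCx.Pair.sg_same, GCx.Pair.sg_same, sub_self]; rfl
    · rw [GCx.Pair.sg_ne hne, GCx.Pair.sg_ne hne, map_zero, sub_zero]; rfl
  change (GCx.Pair.sg n (φ n x) : ∀ q, C'.K q) - seq φ (GCx.Pair.sg n x) ∈ _
  rw [this]
  exact Submodule.zero_mem _

/-- naturality of the connecting map -/
theorem δ_mapE (h : IsGMor P P' φ) (n : ℕ) (x : P.EE (n + 1)) :
    P'.δ n (h.mapE (n + 1) x) = h.mapF n (P.δ n x) := by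
  obtain ⟨c, hc, rfl⟩ := H.exists_mk x
  obtain ⟨y, hy, hcy⟩ := P.exists_δ hc
  rw [P.δ_mk hc hy hcy]
  refine P'.δ_mk (h.totE.mapZ hc) (h.tot.mapZ hy) ?_
  have h1 := h.seq_D (n := n + 1) (c := c) (mem_Zc.mp hc).1
  have h2 : seq φ (G.D (n + 1) c - y) ∈ (G'.TotS P'.T P'.hT).S (n + 2) :=
    seq_TT h.mapT hcy
  rw [map_sub] at h2
  have h3 := Submodule.add_mem _ h1 h2
  convert h3 using 1
  change G'.D (n + 1) (seq φ c) - seq φ y = _
  abel

end IsGMor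

/-! ### The operator `1 - g` on `H` -/

namespace GCx.Pair

variable (P : G.Pair)

/-- `1 - g` on `H`. -/
def oneSub (n : ℕ) : P.HH n →ₗ[k] P.HH n :=
  H.gmap (LinearMap.id - G.g n)
    (fun x hx => mem_Zc.mpr ⟨Submodule.sub_mem _ (mem_Zc.mp hx).1
        (P.hS.g_mem n _ (mem_Zc.mp hx).1), by
      rw [LinearMap.sub_apply, LinearMap.id_apply, map_sub, G.d_g]
      exact Submodule.sub_mem _ (mem_Zc.mp hx).2 (P.hT.g_mem _ _ (mem_Zc.mp hx).2)⟩)
    (by
      intro x hx hB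
      cases n with
      | zero =>
        exact mem_Bc_zero.mpr (Submodule.sub_mem _ (mem_Bc_zero.mp hB)
          (P.hT.g_mem _ _ (mem_Bc_zero.mp hB)))
      | succ n =>
        obtain ⟨y, hy, hyx⟩ := mem_Bc_succ.mp hB
        refine mem_Bc_succ.mpr ⟨y - G.g n y, Submodule.sub_mem _ hy (P.hS.g_mem _ _ hy), ?_⟩
        have := Submodule.sub_mem _ hyx (P.hT.g_mem _ _ hyx)
        rw [LinearMap.sub_apply, LinearMap.id_apply, map_sub, G.d_g]
        convert this using 1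
        rw [map_sub]
        abel)

theorem oneSub_mk {n : ℕ} {x : C.K n} (hx : x ∈ Zc P.S P.T n) :
    P.oneSub n (H.mk x hx) = H.mk (x - G.g n x)
      (mem_Zc.mpr ⟨Submodule.sub_mem _ (mem_Zc.mp hx).1
        (P.hS.g_mem n _ (mem_Zc.mp hx).1), by
      rw [map_sub, G.d_g]
      exact Submodule.sub_mem _ (mem_Zc.mp hx).2 (P.hT.g_mem _ _ (mem_Zc.mp hx).2)⟩) := rfl

theorem a_mk {n : ℕ} {x : C.K n} (hx : x ∈ Zc P.S P.T n) :
    ∃ h, P.a n (H.mk x hx) = H.mk (sg n x) h := ⟨_, rfl⟩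

/-- `ker a ≤ range (1 - g)` -/
theorem exists_of_a_eq_zero {n : ℕ} (x : P.HH n) (h : P.a n x = 0) :
    ∃ y, P.oneSub n y = x := by
  obtain ⟨x, hx, rfl⟩ := H.exists_mk x
  obtain ⟨h', he⟩ := P.a_mk hx
  rw [he, H.mk_eq_zero] at h
  obtain ⟨y, hy, hyx⟩ := mem_Bc_succ.mp h
  have h1 := hyx.2.1 (n + 1) le_rfl (by omega)
  change sg n x (n + 1) - G.D n y (n + 1) ∈ _ at h1
  rw [sg_ne (by omega), G.D_succ, hy.2 (n + 1) (by omega), map_zero, smul_zero, add_zero,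
    zero_sub] at h1
  have h1' := (Submodule.neg_mem_iff _).mp h1
  have hyn := hy.1 n le_rfl
  have hz : ((-1 : k) ^ n) • y n ∈ Zc P.S P.T n :=
    mem_Zc.mpr ⟨Submodule.smul_mem _ _ hyn, by
      rw [map_smul]; exact Submodule.smul_mem _ _ h1'⟩
  refine ⟨H.mk _ hz, ?_⟩
  rw [oneSub_mk, H.mk_eq_mk]
  have h2 := hyx.2.1 n (by omega) (by omega)
  change sg n x n - G.D n y n ∈ _ at h2
  rw [sg_same] at h2
  cases n with
  | zero =>
    rw [G.D_zero, G.θ_odd (by omega)] at h2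
    refine mem_Bc_zero.mpr ?_
    have := Submodule.neg_mem _ h2
    rw [pow_zero, one_smul]
    convert this using 1
    abel
  | succ n =>
    rw [G.D_succ, G.θ_odd (by omega)] at h2
    refine mem_Bc_succ.mpr ⟨-(y n), Submodule.neg_mem _ (hy.1 n (by omega)), ?_⟩
    have := Submodule.neg_mem _ h2
    rw [map_smul, map_neg, ← smul_sub]
    convert this using 1
    abel

theorem a_oneSub {n : ℕ} (x : P.HH n) : P.a n (P.oneSub n x) = 0 := by
  obtain ⟨x, hx, rfl⟩ := H.exists_mk x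
  obtain ⟨h1, h2⟩ := mem_Zc.mp hx
  rw [oneSub_mk]
  obtain ⟨h', he⟩ := P.a_mk (n := n) (x := x - G.g n x) (mem_Zc.mpr ⟨Submodule.sub_mem _ h1
        (P.hS.g_mem n _ h1), by
      rw [map_sub, G.d_g]
      exact Submodule.sub_mem _ h2 (P.hT.g_mem _ _ h2)⟩)
  rw [he, H.mk_eq_zero]
  have h4 : sg n x ∈ (G.TotS P.S P.hS).S n := sg_mem_TS le_rfl h1
  have h5 : ((-1 : k) ^ n) • sg n x ∈ (G.TotS P.S P.hS).S n := Submodule.smul_mem _ _ h4
  refine mem_Bc_succ.mpr ⟨_, h5, ?_⟩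
  have h6 : sg n (x - G.g n x) ∈ (G.TotS P.S P.hS).S (n + 1) :=
    sg_mem_TS (by omega) (Submodule.sub_mem _ h1 (P.hS.g_mem n _ h1))
  have h7 := Submodule.sub_mem _ h6 ((G.TotS P.S P.hS).d_mem h5)
  refine ⟨fun q hq => h7.1 q (by omega), fun q hq hq' => ?_, h7.2⟩
  change sg n (x - G.g n x) q - G.D n (((-1 : k) ^ n) • sg n x) q ∈ _
  rw [map_smul, Pi.smul_apply]
  rcases eq_or_ne q n with rfl | hne
  · rw [sg_same, D_sg_same, G.θ_odd (by omega), smul_smul, ← mul_pow]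
    simp
  · obtain rfl : q = n + 1 := by omega
    rw [sg_ne (by omega), D_sg_succ, zero_sub]
    exact Submodule.neg_mem _ (Submodule.smul_mem _ _ h2)

theorem oneSub_b {n : ℕ} (x : P.EE n) : P.oneSub n (P.b n x) = 0 := by
  obtain ⟨c, hc, rfl⟩ := H.exists_mk x
  obtain ⟨h1, h2⟩ := mem_Zc.mp hc
  have h3 := h2.2.1 n (by omega) (by omega)
  rw [tot_d] at h3
  refine (H.mk_eq_zero (x := c n - G.g n (c n))).mpr ?_
  cases n with
  | zero =>
    rw [G.D_zero, G.θ_odd (by omega)] at h3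
    exact mem_Bc_zero.mpr h3
  | succ n =>
    rw [G.D_succ, G.θ_odd (by omega)] at h3
    have h4 := Submodule.smul_mem _ ((-1 : k) ^ (n + 1)) h3
    rw [smul_add, smul_smul, ← mul_pow] at h4
    refine mem_Bc_succ.mpr ⟨(-1 : k) ^ n • c n, Submodule.smul_mem _ _ (h1.1 n (by omega)), ?_⟩
    convert h4 using 1
    rw [map_smul, pow_succ]
    simp
    abel

/-- `ker (1 - g) ≤ range b` -/
theorem exists_of_oneSub_eq_zero {n : ℕ} (x : P.HH n) (h : P.oneSub n x = 0) :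
    ∃ y, P.b n y = x := by
  obtain ⟨x, hx, rfl⟩ := H.exists_mk x
  obtain ⟨h1, h2⟩ := mem_Zc.mp hx
  rw [oneSub_mk, H.mk_eq_zero] at h
  have key : ∃ w : ∀ q, C.K q, w ∈ (G.TotS P.S P.hS).S n ∧ w n = 0 ∧
      G.D n w n + (-1 : k) ^ n • (x - G.g n x) ∈ P.T.S n ∧ G.D n w (n + 1) = 0 := by
    cases n with
    | zero =>
      refine ⟨0, Submodule.zero_mem _, rfl, ?_, by simp⟩
      have := mem_Bc_zero.mp h
      simpa using this
    | succ n =>
      obtain ⟨y, hy, hyx⟩ := mem_Bc_succ.mp h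
      have h3 : sg n (((-1 : k) ^ n) • y) ∈ (G.TotS P.S P.hS).S (n + 1) :=
        sg_mem_TS (by omega) (Submodule.smul_mem _ _ hy)
      refine ⟨_, h3, sg_ne (by omega) _, ?_, ?_⟩
      · rw [D_sg_succ, map_smul]
        have := Submodule.smul_mem _ ((-1 : k) ^ (n + 1)) hyx
        convert this using 1
        rw [pow_succ]
        module
      · exact D_sg_ne _ _ (by omega) (by omega)
  obtain ⟨w, hw, hwn, hwD, hwD'⟩ := key
  have hc : w + sg n x ∈ Zc (G.TotS P.S P.hS) (G.TotU P.S P.T P.hS P.hT P.le) n := by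
    have h3 : w + sg n x ∈ (G.TotS P.S P.hS).S n :=
      Submodule.add_mem _ hw (sg_mem_TS le_rfl h1)
    have h4 := (G.TotS P.S P.hS).d_mem h3
    refine mem_Zc.mpr ⟨h3, fun q hq => h4.1 q (by omega), fun q hq hq' => ?_, h4.2⟩
    rw [tot_d, map_add, Pi.add_apply]
    rcases eq_or_ne q n with rfl | hne
    · rw [D_sg_same, G.θ_odd (by omega)]
      exact hwD
    · obtain rfl : q = n + 1 := by omega
      rw [D_sg_succ, hwD', zero_add]
      exact h2
  refine ⟨H.mk _ hc, ?_⟩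
  refine (H.mk_eq_mk (x := (w + sg n x : ∀ q, C.K q) n) (y := x)).mpr ?_
  change w n + sg n x n - x ∈ _
  rw [hwn, sg_same, zero_add, sub_self]
  exact Submodule.zero_mem _

end GCx.Pair

namespace IsGMor

variable {P : G.Pair} {P' : G'.Pair} {φ : ∀ n, C.K n →ₗ[k] C'.K n}

theorem oneSub_mapH (h : IsGMor P P' φ) (n : ℕ) (x : P.HH n) :
    P'.oneSub n (h.mapH n x) = h.mapH n (P.oneSub n x) := by
  obtain ⟨x, hx, rfl⟩ := H.exists_mk x
  obtain ⟨h1, h2⟩ := mem_Zc.mp hx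
  refine (H.mk_eq_mk (x := φ n x - G'.g n (φ n x)) (y := φ n (x - G.g n x))).mpr ?_
  have h3 := Submodule.neg_mem _ (h.comm_g h1)
  refine T_le_Bc _ _ _ ?_
  convert h3 using 1
  rw [map_sub]
  abel

/-! ### Comparison -/

section Comparison

variable (h : IsGMor P P' φ) (hH : ∀ n, Function.Bijective (h.mapH n))

include hH

theorem mapE_injective (n : ℕ) : Function.Injective (h.mapE n) := by
  cases n with
  | zero =>
    intro x y hxy
    apply P.b_zero_inj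
    apply (hH 0).1
    rw [← h.b_mapE, ← h.b_mapE, hxy]
  | succ n =>
    rw [injective_iff_map_eq_zero]
    intro x hx
    have h1 : P.b (n + 1) x = 0 := by
      apply (hH (n + 1)).1
      rw [map_zero, ← h.b_mapE, hx, map_zero]
    obtain ⟨y, rfl⟩ := (P.exab n x).mp h1
    rw [← h.a_mapH] at hx
    obtain ⟨z', hz'⟩ := P'.exists_of_a_eq_zero _ hx
    obtain ⟨z, rfl⟩ := (hH n).2 z'
    rw [h.oneSub_mapH] at hz'
    rw [← (hH n).1 hz', P.a_oneSub]

theorem mapE_surjective (n : ℕ) : Function.Surjective (h.mapE n) := by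
  intro x'
  have key : ∃ x, P'.b n (h.mapE n x) = P'.b n x' := by
    obtain ⟨y, hy⟩ := (hH n).2 (P'.b n x')
    have h1 : P.oneSub n y = 0 := by
      apply (hH n).1
      rw [← h.oneSub_mapH, hy, P'.oneSub_b, map_zero]
    obtain ⟨x, rfl⟩ := P.exists_of_oneSub_eq_zero _ h1
    exact ⟨x, by rw [h.b_mapE, hy]⟩
  obtain ⟨x, hx⟩ := key
  cases n with
  | zero => exact ⟨x, P'.b_zero_inj hx⟩
  | succ n =>
    have h2 : P'.b (n + 1) (x' - h.mapE (n + 1) x) = 0 := by rw [map_sub, hx, sub_self]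
    obtain ⟨w', hw'⟩ := (P'.exab n _).mp h2
    obtain ⟨w, rfl⟩ := (hH n).2 w'
    refine ⟨x + P.a n w, ?_⟩
    rw [map_add, ← h.a_mapH, hw']
    abel

theorem mapF_bijective (n : ℕ) : Function.Bijective (h.mapF n) := by
  have hEi := h.mapE_injective hH
  have hEs := h.mapE_surjective hH
  induction n using Nat.strong_induction_on with
  | _ n ih =>
    match n, ih with
    | 0, _ =>
      constructor
      · intro x y hxy
        apply P.π_zero_inj
        apply hEi 0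
        rw [← h.π_mapF, ← h.π_mapF, hxy]
      · intro x'
        obtain ⟨e, he⟩ := hEs 0 (P'.π 0 x')
        obtain ⟨x, rfl⟩ := P.π_zero_surj e
        exact ⟨x, P'.π_zero_inj (by rw [h.π_mapF, he])⟩
    | 1, ih =>
      constructor
      · intro x y hxy
        apply P.π_one_inj
        apply hEi 1
        rw [← h.π_mapF, ← h.π_mapF, hxy]
      · intro x'
        obtain ⟨e, he⟩ := hEs 1 (P'.π 1 x')
        have h1 : P.δ 0 e = 0 := by
          apply (ih 0 (by omega)).1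
          rw [← h.δ_mapE, he, map_zero]
          exact (P'.ex1 0 _).mpr ⟨x', rfl⟩
        obtain ⟨x, rfl⟩ := (P.ex1 0 e).mp h1
        exact ⟨x, P'.π_one_inj (by rw [h.π_mapF, he])⟩
    | n + 2, ih =>
      constructor
      · rw [injective_iff_map_eq_zero]
        intro x hx
        have h1 : P.π (n + 2) x = 0 := by
          apply hEi (n + 2)
          rw [← h.π_mapF, hx, map_zero, map_zero]
        obtain ⟨y, rfl⟩ := (P.ex3 n x).mp h1
        rw [← h.u_mapF] at hx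
        obtain ⟨e', he'⟩ := (P'.ex2 n _).mp hx
        obtain ⟨e, rfl⟩ := hEs (n + 1) e'
        rw [h.δ_mapE] at he'
        rw [← (ih n (by omega)).1 he']
        exact (P.ex2 n _).mpr ⟨e, rfl⟩
      · intro x'
        obtain ⟨e, he⟩ := hEs (n + 2) (P'.π (n + 2) x')
        have h1 : P.δ (n + 1) e = 0 := by
          apply (ih (n + 1) (by omega)).1
          rw [← h.δ_mapE, he, map_zero]
          exact (P'.ex1 (n + 1) _).mpr ⟨x', rfl⟩
        obtain ⟨x, rfl⟩ := (P.ex1 (n + 1) e).mp h1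
        have h2 : P'.π (n + 2) (x' - h.mapF (n + 2) x) = 0 := by
          rw [map_sub, h.π_mapF, he, sub_self]
        obtain ⟨y', hy'⟩ := (P'.ex3 n _).mp h2
        obtain ⟨y, rfl⟩ := (ih n (by omega)).2 y'
        refine ⟨x + P.u n y, ?_⟩
        rw [map_add, ← h.u_mapF, hy']
        abel

end Comparison

/-! ### Equivariance under the reversal -/

section RevEq

variable {R : Rev G} {R' : Rev G'}

theorem seq_RT (h : IsGMor P P' φ)
    (hr : ∀ {n x}, x ∈ P.S.S n → R'.r n (φ n x) - φ n (R.r n x) ∈ P'.T.S n)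
    (hR : P.RStable R) (m : ℕ) {n : ℕ} {c : ∀ q, C.K q}
    (hc : c ∈ (G.TotS P.S P.hS).S n) :
    R'.RT m (seq φ c) - seq φ (R.RT m c) ∈ (G'.TotS P'.T P'.hT).S n := by
  refine ⟨fun q hq => ?_, fun q hq => ?_⟩
  · change R'.ρ (m + 3 * q) q (φ q (c q)) - φ q (R.ρ (m + 3 * q) q (c q)) ∈ _
    have hcq := hc.1 q hq
    have h1 := hr hcq
    have h2 : G'.g q (R'.r q (φ q (c q))) - φ q (G.g q (R.r q (c q))) ∈ P'.T.S q := by
      have h3 := P'.hT.g_mem _ _ h1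
      have h4 := h.comm_g (hR.S _ _ hcq)
      rw [map_sub] at h3
      have := Submodule.add_mem _ h3 h4
      convert this using 1
      abel
    rcases Rev.four_cases (m + 3 * q) with h' | h' | h' | h'
    · rw [R.ρ_zero h', R'.ρ_zero h']; exact h1
    · rw [R.ρ_one h', R'.ρ_one h', map_neg]
      have := Submodule.neg_mem _ h2
      convert this using 1
      abel
    · rw [R.ρ_two h', R'.ρ_two h', map_neg]
      have := Submodule.neg_mem _ h1
      convert this using 1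
      abel
    · rw [R.ρ_three h', R'.ρ_three h']; exact h2
  · change R'.ρ (m + 3 * q) q (φ q (c q)) - φ q (R.ρ (m + 3 * q) q (c q)) = 0
    rw [hc.2 q hq]
    simp

theorem rF_mapF (h : IsGMor P P' φ)
    (hr : ∀ {n x}, x ∈ P.S.S n → R'.r n (φ n x) - φ n (R.r n x) ∈ P'.T.S n)
    (hR : P.RStable R) (hR' : P'.RStable R') (n : ℕ) (x : P.FF n) :
    GCx.Pair.rF hR' n (h.mapF n x) = h.mapF n (GCx.Pair.rF hR n x) := by
  obtain ⟨x, hx, rfl⟩ := H.exists_mk x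
  refine (H.mk_eq_mk (C := G'.Tot) (n := n) (x := R'.RT n (seq φ x))
    (y := seq φ (R.RT n x))).mpr ?_
  exact T_le_Bc _ _ _ (h.seq_RT hr hR n (mem_Zc.mp hx).1)

theorem rH_mapH (h : IsGMor P P' φ)
    (hr : ∀ {n x}, x ∈ P.S.S n → R'.r n (φ n x) - φ n (R.r n x) ∈ P'.T.S n)
    (hR : P.RStable R) (hR' : P'.RStable R') (n : ℕ) (x : P.HH n) :
    GCx.Pair.rH hR' n (h.mapH n x) = h.mapH n (GCx.Pair.rH hR n x) := by
  obtain ⟨x, hx, rfl⟩ := H.exists_mk x
  refine (H.mk_eq_mk (x := R'.r n (φ n x)) (y := φ n (R.r n x))).mpr ?_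
  exact T_le_Bc _ _ _ (hr (mem_Zc.mp hx).1)

end RevEq

end IsGMor

/-! ### The long exact sequence of `F` and the reversal -/

namespace GCx.Pair

variable (S₀ S₁ S₂ : Sub C) (h₀ : G.Stable S₀) (h₁ : G.Stable S₁) (h₂ : G.Stable S₂)
  (h01 : S₀ ≤ S₁) (h12 : S₁ ≤ S₂)

/-- the pair `S₀ ≤ S₁` -/
@[simps] def ofLe {S₀ S₁ : Sub C} (h₀ : G.Stable S₀) (h₁ : G.Stable S₁) (h01 : S₀ ≤ S₁) :
    G.Pair := ⟨S₁, S₀, h₁, h₀, h01⟩

/-- connecting map of `F` for the triple `S₀ ≤ S₁ ≤ S₂` -/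
def delF {S₀ S₁ S₂ : Sub C} (h₀ : G.Stable S₀) (h₁ : G.Stable S₁) (h₂ : G.Stable S₂)
    (h01 : S₀ ≤ S₁) (h12 : S₁ ≤ S₂) (n : ℕ) :
    (ofLe h₁ h₂ h12).FF n →ₗ[k] (ofLe h₀ h₁ h01).FF (n + 1) :=
  Hdel (G.TotS S₂ h₂) (G.TotS S₁ h₁) (G.TotS S₀ h₀) n

theorem u_delF (n : ℕ) (x : (ofLe h₁ h₂ h12).FF n) :
    (ofLe h₀ h₁ h01).u (n + 1) (delF h₀ h₁ h₂ h01 h12 n x) =
      delF h₀ h₁ h₂ h01 h12 (n + 2) ((ofLe h₁ h₂ h12).u n x) := by
  obtain ⟨x, hx, rfl⟩ := H.exists_mk x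
  refine (H.mk_eq_mk (C := G.Tot) (n := n + 3) (x := G.D n x) (y := G.D (n + 2) x)).mpr ?_
  rw [G.D_add_two, sub_self]
  exact Submodule.zero_mem _

theorem rF_delF (R : Rev G) (hR : (ofLe h₁ h₂ h12).RStable R) (hR' : (ofLe h₀ h₁ h01).RStable R)
    (n : ℕ) (x : (ofLe h₁ h₂ h12).FF n) :
    rF hR' (n + 1) (delF h₀ h₁ h₂ h01 h12 n x) = delF h₀ h₁ h₂ h01 h12 n (rF hR n x) := by
  obtain ⟨x, hx, rfl⟩ := H.exists_mk x
  refine (H.mk_eq_mk (C := G.Tot) (n := n + 1) (x := R.RT (n + 1) (G.D n x))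
    (y := G.D n (R.RT n x))).mpr ?_
  rw [R.D_RT, sub_self]
  exact Submodule.zero_mem _

end GCx.Pair

end Vale.Agent.P216.AS
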