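import Vale.Agent.P216.Spine.Contract
import Vale.Agent.P216.AS.Htpy
import Vale.Agent.P216.AS.TotMap
import Vale.Agent.P216.H609.Op

set_option linter.unusedSectionVars false

/-! # The invariant pairs of a `GSys` -/

open Set Topology
open Module (finrank)

namespace Vale.Agent.P216.AS

/-! ### Stability of the subcomplexes -/

section Stab

variable {E : Type} [PseudoMetricSpace E] {k : Type} [Field k] {I : Type}

/-- powers of a pull back -/
theorem pbK_pow (f : E → E) (n j : ℕ) (c : (ASK E k).K n) :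
    ((pbK k f n : Module.End k ((ASK E k).K n)) ^ j) c = pbK k (f^[j]) n c := by
  induction j generalizing c with
  | zero => rfl
  | succ j ih =>
    rw [pow_succ, Module.End.mul_apply, ih]
    funext x
    rw [pbK_apply, pbK_apply, pbK_apply]
    congr 1
    funext i
    simp only [Function.comp_apply, Function.iterate_succ']

/-- the norm commutes with everything that commutes with the powers -/
theorem nm_mem {n : ℕ} {g : Module.End k ((ASK E k).K n)} {W : Submodule k ((ASK E k).K n)}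
    (h : ∀ x ∈ W, g x ∈ W) (p : ℕ) {x : (ASK E k).K n} (hx : x ∈ W) :
    H609.nm p g x ∈ W := by
  have hpow : ∀ j, (g ^ j) x ∈ W := by
    intro j
    induction j with
    | zero => exact hx
    | succ j ih => rw [pow_succ']; exact h _ ih
  unfold H609.nm
  rw [LinearMap.sum_apply]
  exact Submodule.sum_mem _ fun j _ => hpow j

/-- Data of a rotation and a reversal on `E`. -/
structure Sym (E : Type) [PseudoMetricSpace E] (k : Type) [Field k] (I : Type) (p : ℕ) where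
  /-- the symmetries defining the coefficients -/
  a : I → E → E
  χ : I → k
  /-- rotation -/
  g : E → E
  /-- reversal -/
  r : E → E
  g_pow : ∀ x, g^[p] x = x
  r_r : ∀ x, r (r x) = x
  grg : ∀ x, g (r (g x)) = r x
  a_g : ∀ i x, a i (g x) = g (a i x)
  a_r : ∀ i x, a i (r x) = r (a i x)

namespace Sym

variable {p : ℕ} (Y : Sym E k I p)

/-- the operator `g` on cochains -/
def gK (n : ℕ) : Module.End k ((ASK E k).K n) := pbK k Y.g n

theorem gK_pow (n : ℕ) : Y.gK n ^ p = 1 := by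
  apply LinearMap.ext
  intro c
  rw [gK, pbK_pow]
  funext x
  rw [pbK_apply]
  congr 1
  funext i
  exact Y.g_pow _

theorem d_gK_pow (n j : ℕ) (c : (ASK E k).K n) :
    (ASK E k).d n ((Y.gK n ^ j) c) = (Y.gK (n + 1) ^ j) ((ASK E k).d n c) := by
  rw [gK, gK, pbK_pow, pbK_pow, pbK_d]

/-- The `GCx`. -/
def gcx : GCx (ASK E k) where
  g n := Y.gK n
  nm n := H609.nm p (Y.gK n)
  d_g n x := pbK_d _ _ _
  d_nm n x := by
    unfold H609.nm
    rw [LinearMap.sum_apply, LinearMap.sum_apply, map_sum]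
    exact Finset.sum_congr rfl fun j _ => Y.d_gK_pow n j x
  g_nm n x := by
    have := congrArg (fun T : Module.End k ((ASK E k).K n) => T x)
      (H609.mul_nm (Y.gK_pow n))
    exact this
  nm_g n x := by
    have := congrArg (fun T : Module.End k ((ASK E k).K n) => T x)
      (H609.nm_mul (Y.gK_pow n))
    exact this

theorem gcx_g (n : ℕ) : Y.gcx.g n = Y.gK n := rfl
theorem gcx_nm (n : ℕ) : Y.gcx.nm n = H609.nm p (Y.gK n) := rfl

/-- the reversal on cochains -/
def rK (n : ℕ) : Module.End k ((ASK E k).K n) := pbK k Y.r n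

theorem gK_rK_gK (n : ℕ) : Y.gK n * Y.rK n * Y.gK n = Y.rK n := by
  apply LinearMap.ext
  intro c
  funext x
  change c (Y.g ∘ (Y.r ∘ (Y.g ∘ x))) = c (Y.r ∘ x)
  congr 1
  funext i
  exact Y.grg _

theorem pow_rK_pow (n j : ℕ) : Y.gK n ^ j * Y.rK n * Y.gK n ^ j = Y.rK n := by
  induction j with
  | zero => simp
  | succ j ih =>
    calc Y.gK n ^ (j + 1) * Y.rK n * Y.gK n ^ (j + 1)
        = Y.gK n ^ j * (Y.gK n * Y.rK n * Y.gK n) * Y.gK n ^ j := by
          rw [pow_succ, show Y.gK n ^ j * Y.gK n * Y.rK n * (Y.gK n ^ j * Y.gK n) =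
            Y.gK n ^ j * Y.gK n * Y.rK n * (Y.gK n * Y.gK n ^ j) by rw [← pow_succ, ← pow_succ']]
          noncomm_ring
      _ = _ := by rw [gK_rK_gK, ih]

theorem nm_rK (n : ℕ) : H609.nm p (Y.gK n) * Y.rK n = Y.rK n * H609.nm p (Y.gK n) := by
  unfold H609.nm
  rw [Finset.sum_mul, Finset.mul_sum]
  have h : ∀ j ≤ p, Y.rK n * Y.gK n ^ j = Y.gK n ^ (p - j) * Y.rK n := by
    intro j hj
    have h1 := Y.pow_rK_pow n j
    calc Y.rK n * Y.gK n ^ j = (Y.gK n ^ (p - j) * Y.gK n ^ j) * (Y.rK n * Y.gK n ^ j) := by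
          rw [← pow_add, Nat.sub_add_cancel hj, Y.gK_pow, one_mul]
      _ = Y.gK n ^ (p - j) * (Y.gK n ^ j * Y.rK n * Y.gK n ^ j) := by noncomm_ring
      _ = _ := by rw [h1]
  rcases Nat.eq_zero_or_pos p with rfl | hp
  · simp
  obtain ⟨m, rfl⟩ : ∃ m, p = m + 1 := ⟨p - 1, by omega⟩
  rw [Finset.sum_congr rfl fun j hj => h j (Finset.mem_range.mp hj).le]
  rw [← Finset.sum_range_reflect, Finset.sum_range_succ, Finset.sum_range_succ']
  congr 1
  · refine Finset.sum_congr rfl fun j hj => ?_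
    have := Finset.mem_range.mp hj
    congr 2
    omega
  · simp [Y.gK_pow n]

/-- The reversal. -/
def rev : Rev Y.gcx where
  r n := Y.rK n
  d_r n x := pbK_d _ _ _
  r_r n x := by
    funext y
    change x (Y.r ∘ (Y.r ∘ y)) = x y
    congr 1
    funext i
    exact Y.r_r _
  grg n x := by
    have := congrArg (fun T : Module.End k ((ASK E k).K n) => T x) (Y.gK_rK_gK n)
    exact this
  nm_r n x := by
    have := congrArg (fun T : Module.End k ((ASK E k).K n) => T x) (Y.nm_rK n)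
    exact this

variable {Y}

/-- `X` is preserved by the rotation and the reversal, with uniform continuity. -/
structure Good (Y : Sym E k I p) (X : Set E) : Prop where
  compact : IsCompact X
  cg : ContinuousOn Y.g X
  cr : ContinuousOn Y.r X
  mg : MapsTo Y.g X X
  mr : MapsTo Y.r X X
  ma : ∀ i, MapsTo (Y.a i) X X

theorem eqv_pb {f : E → E} (hf : ∀ i x, Y.a i (f x) = f (Y.a i x)) {X : Set E}
    (hm : MapsTo f X X) {n : ℕ} {c : (Fin n → E) → k} (hc : Eqv Y.a Y.χ X c) :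
    Eqv Y.a Y.χ X (P265.AS.pb f c) := by
  intro i x hx
  have h1 := hc i (f ∘ x) fun j => hm (hx j)
  change c (f ∘ (Y.a i ∘ x)) = Y.χ i * c (f ∘ x)
  rw [← h1]
  congr 1
  funext j
  exact (hf i _).symm

theorem van_pb {f : E → E} {X A : Set E} (hX : IsCompact X) (hf : ContinuousOn f X)
    (hA : A ⊆ X) (hm : MapsTo f A A) {n : ℕ} {c : (Fin n → E) → k} (hc : Van A c) :
    Van A (P265.AS.pb f c) := by
  obtain ⟨ε, hε, h⟩ := hc
  have huc := hX.uniformContinuousOn_of_continuous hf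
  rw [Metric.uniformContinuousOn_iff] at huc
  obtain ⟨δ, hδ, h'⟩ := huc ε hε
  refine ⟨δ, hδ, fun x hx => h _ ⟨fun i => hm (hx.1 i), fun i j => ?_⟩⟩
  exact h' _ (hA (hx.1 i)) _ (hA (hx.1 j)) (hx.2 i j)

theorem stable_Cc {X : Set E} (h : Y.Good X) : Y.gcx.Stable (Cc Y.a Y.χ X) := by
  have h1 : ∀ n x, x ∈ (Cc Y.a Y.χ X).S n → Y.gcx.g n x ∈ (Cc Y.a Y.χ X).S n :=
    fun n x hx => eqv_pb Y.a_g h.mg hx
  exact ⟨h1, fun n x hx => nm_mem (fun y hy => h1 n y hy) p hx⟩

theorem stable_Zr {X A : Set E} (h : Y.Good X) (hA : A ⊆ X) (hm : MapsTo Y.g A A) :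
    Y.gcx.Stable (Zr Y.a Y.χ X A) := by
  have h1 : ∀ n x, x ∈ (Zr Y.a Y.χ X A).S n → Y.gcx.g n x ∈ (Zr Y.a Y.χ X A).S n :=
    fun n x hx => ⟨eqv_pb Y.a_g h.mg hx.1, van_pb h.compact h.cg hA hm hx.2⟩
  exact ⟨h1, fun n x hx => nm_mem (fun y hy => h1 n y hy) p hx⟩

theorem rstable_Cc {X : Set E} (h : Y.Good X) : Y.rev.Stable (Cc Y.a Y.χ X) :=
  fun _ _ hx => eqv_pb Y.a_r h.mr hx

theorem rstable_Zr {X A : Set E} (h : Y.Good X) (hA : A ⊆ X) (hm : MapsTo Y.r A A) :
    Y.rev.Stable (Zr Y.a Y.χ X A) :=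
  fun _ _ hx => ⟨eqv_pb Y.a_r h.mr hx.1, van_pb h.compact h.cr hA hm hx.2⟩

/-- invariant subset of a good set -/
structure GoodSub (Y : Sym E k I p) (X A : Set E) : Prop where
  sub : A ⊆ X
  mg : MapsTo Y.g A A
  mr : MapsTo Y.r A A

theorem Good.self {X : Set E} (h : Y.Good X) : Y.GoodSub X X := ⟨Subset.rfl, h.mg, h.mr⟩

theorem Good.goodSub {X A : Set E} (h : Y.Good X) (hA : Y.Good A) (hs : A ⊆ X) :
    Y.GoodSub X A := ⟨hs, hA.mg, hA.mr⟩

/-- The pair computing the cohomology of `X` (twisted by `χ`). -/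
def PA {X : Set E} (h : Y.Good X) : Y.gcx.Pair :=
  ⟨Cc Y.a Y.χ X, Zr Y.a Y.χ X X, stable_Cc h, stable_Zr h Subset.rfl h.mg, Zr_le_Cc⟩

/-- The pair computing the cohomology of `(A, B)` in the world `X`. -/
def PR {X A B : Set E} (h : Y.Good X) (hA : Y.GoodSub X A) (hB : Y.GoodSub X B) (hBA : B ⊆ A) :
    Y.gcx.Pair :=
  ⟨Zr Y.a Y.χ X B, Zr Y.a Y.χ X A, stable_Zr h hB.sub hB.mg, stable_Zr h hA.sub hA.mg,
    Zr_anti Subset.rfl hBA⟩

/-- The pair computing the cohomology of `A` in the world `X`. -/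
def PM {X A : Set E} (h : Y.Good X) (hA : Y.GoodSub X A) : Y.gcx.Pair :=
  ⟨Cc Y.a Y.χ X, Zr Y.a Y.χ X A, stable_Cc h, stable_Zr h hA.sub hA.mg, Zr_le_Cc⟩

theorem PA_rstable {X : Set E} (h : Y.Good X) : (PA h).RStable Y.rev :=
  ⟨rstable_Cc h, rstable_Zr h Subset.rfl h.mr⟩

theorem PR_rstable {X A B : Set E} (h : Y.Good X) (hA : Y.GoodSub X A) (hB : Y.GoodSub X B)
    (hBA : B ⊆ A) : (PR h hA hB hBA).RStable Y.rev :=
  ⟨rstable_Zr h hB.sub hB.mr, rstable_Zr h hA.sub hA.mr⟩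

theorem PM_rstable {X A : Set E} (h : Y.Good X) (hA : Y.GoodSub X A) :
    (PM h hA).RStable Y.rev :=
  ⟨rstable_Cc h, rstable_Zr h hA.sub hA.mr⟩

end Sym

end Stab

end Vale.Agent.P216.AS

namespace Vale.Agent.P216.GSys

open AS

variable {Λ : Type} [PseudoMetricSpace Λ] (S : GSys Λ)

/-- the symmetries of a `GSys` at the prime `p` -/
def sym (k : Type) [Field k] (p : ℕ) (hp : 0 < p) : Sym Λ k Unit p where
  a _ := S.τ
  χ _ := -1
  g := S.rot p
  r := S.θ
  g_pow := S.rot_pow p hp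
  r_r := S.θ_θ
  grg := S.θ_rot p
  a_g _ x := S.τ_rot p x
  a_r _ x := S.τ_θ x

theorem good (k : Type) [Field k] (p : ℕ) (hp : 0 < p) (s : ℝ) : (S.sym k p hp).Good (S.X s) where
  compact := S.compact s
  cg := S.cont_rot p s
  cr := S.cont_θ s
  mg := S.rot_mem p s
  mr := S.θ_mem s
  ma _ := S.τ_mem s

/-- The invariant pair of `X s`; its `HH` is `S.V k s`. -/
def P (k : Type) [Field k] (p : ℕ) (hp : 0 < p) (s : ℝ) : (S.sym k p hp).gcx.Pair :=
  Sym.PA (S.good k p hp s)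

theorem P_HH (k : Type) [Field k] (p : ℕ) (hp : 0 < p) (s : ℝ) (n : ℕ) :
    (S.P k p hp s).HH n = S.V k s n := rfl

theorem P_rstable (k : Type) [Field k] (p : ℕ) (hp : 0 < p) (s : ℝ) :
    (S.P k p hp s).RStable (S.sym k p hp).rev := Sym.PA_rstable _

/-- The level of `X s`. -/
noncomputable def level (k : Type) [Field k] (p : ℕ) (hp : 0 < p) (s : ℝ) :=
  GCx.Pair.level (S.P_rstable k p hp s)

/-- restriction of levels -/
noncomputable def levelHom (k : Type) [Field k] (p : ℕ) (hp : 0 < p) {s t : ℝ} (h : s ≤ t) :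
    LevelHom (S.level k p hp t) (S.level k p hp s) :=
  GCx.Pair.levelHom (S.P_rstable k p hp t) (S.P_rstable k p hp s)
    (Cc_anti (S.mono s t h)) (Zr_anti (S.mono s t h) (S.mono s t h))

end Vale.Agent.P216.GSys
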