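import Vale.Agent.P216.AS.End707
import Vale.Agent.P216.Cross.Nil
import Vale.Agent.P216.H467.Cross707
import Vale.Agent.P216.Bor.LocFinal

/-!
# The topological half of Theorem A

There is no `GSys` with bounded bars, bounded cohomology and a base level with nonzero Euler
characteristic.
-/

open Set Topology
open Module (finrank)

namespace Vale.Agent.P216.GSys

open AS AS.GCx.Pair

variable {Λ : Type} [MetricSpace Λ] (S : GSys Λ)

theorem loc_prop : S.Loc := by
  intro p _ hp h2 s hs hf hf' J hJ m
  have hp' : (0 : ℝ) < p := by exact_mod_cast hp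
  have key : ∀ s' : ℝ, (p : ℝ) * s' / p = s' := fun s' => mul_div_cancel_left₀ s' hp'.ne'
  have h1 := S.loc h2 hp (s := (p : ℝ) * s) (by positivity) hf'
  rw [key] at h1
  exact h1 hf (J₀ := J) hJ m J

theorem crossTors_prop : S.CrossTors := by
  intro p hpp hp h2 a ha hap
  obtain ⟨e₀, he₀, hea, m, h⟩ := Cross.cross_nil S (ZMod p) hpp.out h2 ha hap
  exact ⟨e₀, he₀, hea, fun e he hle => (h e he hle _ _).uTors⟩

theorem crossBal_prop : S.CrossBal := by
  intro p hpp hp h2 a ha
  obtain ⟨e₀, he₀, hea, h⟩ := S.chi_cross_sym hpp.out h2 ha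
  refine ⟨e₀, he₀, hea, fun e he hle _ => ?_⟩
  have h1 := h e he hle (ZMod p) (S.Q (ZMod p) p hp (show a - e ≤ a + e by linarith)) rfl rfl
    (S.Q_rstable (ZMod p) p hp (show a - e ≤ a + e by linarith))
  exact ⟨fun n => (h1 n).1, fun n => (h1 n).2⟩

/-- **The topological half**: no system with bounded bars, bounded cohomology and a base. -/
theorem no_gsys (hBars : S.Bars) (hBound : S.Bound) (hBase : S.Base) : False :=
  no_gsys_of hBars hBound hBase S.loc_prop S.crossTors_prop S.crossBal_prop

end Vale.Agent.P216.GSys
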