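import Vale.Agent.P216.AS.Window707
import Vale.Agent.P216.AS.GMap

set_option linter.unusedSectionVars false

/-! # The total complex computing `Z/p`-equivariant cohomology (Borel construction) -/

namespace Vale.Agent.P216.AS

variable {k : Type} [Field k]

/-- A complex with a `Z/p`-action (`g`) given by a chain map with `g^p = 1`; `nm` is the norm. -/
structure GCx (C : Amb k) where
  g : ∀ n, C.K n →ₗ[k] C.K n
  nm : ∀ n, C.K n →ₗ[k] C.K n
  d_g : ∀ n x, C.d n (g n x) = g (n + 1) (C.d n x)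
  d_nm : ∀ n x, C.d n (nm n x) = nm (n + 1) (C.d n x)
  g_nm : ∀ n x, g n (nm n x) = nm n x
  nm_g : ∀ n x, nm n (g n x) = nm n x

namespace GCx

variable {C : Amb k} (G : GCx C)

/-- `θ i = 1 - g` for `i` odd, the norm for `i` even. -/
def θ (i : ℕ) (n : ℕ) : C.K n →ₗ[k] C.K n :=
  if i % 2 = 1 then LinearMap.id - G.g n else G.nm n

theorem θ_odd {i : ℕ} (hi : i % 2 = 1) (n : ℕ) (x : C.K n) : G.θ i n x = x - G.g n x := by
  simp [θ, hi]

theorem θ_even {i : ℕ} (hi : i % 2 = 0) (n : ℕ) (x : C.K n) : G.θ i n x = G.nm n x := by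
  simp [θ, hi]

theorem θ_congr {i j : ℕ} (h : i % 2 = j % 2) : G.θ i = G.θ j := by
  funext n
  simp [θ, h]

theorem d_θ (i n : ℕ) (x : C.K n) : C.d n (G.θ i n x) = G.θ i (n + 1) (C.d n x) := by
  rcases Nat.mod_two_eq_zero_or_one i with h | h
  · rw [θ_even _ h, θ_even _ h, G.d_nm]
  · rw [θ_odd _ h, θ_odd _ h, map_sub, G.d_g]

theorem θ_θ {i j : ℕ} (h : (i + j) % 2 = 1) (n : ℕ) (x : C.K n) : G.θ i n (G.θ j n x) = 0 := by
  rcases Nat.mod_two_eq_zero_or_one i with hi | hi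
  · have hj : j % 2 = 1 := by omega
    rw [θ_even _ hi, θ_odd _ hj, map_sub, G.nm_g, sub_self]
  · have hj : j % 2 = 0 := by omega
    rw [θ_odd _ hi, θ_even _ hj, G.g_nm, sub_self]

/-- The differential of the total complex. -/
def D (n : ℕ) : (∀ q, C.K q) →ₗ[k] (∀ q, C.K q) where
  toFun c q := match q with
    | 0 => G.θ (n + 1) 0 (c 0)
    | q + 1 => C.d q (c q) + (-1 : k) ^ (q + 1) • G.θ (n + 1 + (q + 1)) (q + 1) (c (q + 1))
  map_add' c c' := by
    funext q
    cases q with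
    | zero => simp
    | succ q => simp only [Pi.add_apply, map_add, smul_add]; abel
  map_smul' a c := by
    funext q
    cases q with
    | zero => simp
    | succ q =>
      simp only [Pi.smul_apply, map_smul, RingHom.id_apply, smul_add]
      rw [smul_comm]

theorem D_zero (n : ℕ) (c : ∀ q, C.K q) : G.D n c 0 = G.θ (n + 1) 0 (c 0) := rfl

theorem D_succ (n : ℕ) (c : ∀ q, C.K q) (q : ℕ) : G.D n c (q + 1) =
    C.d q (c q) + (-1 : k) ^ (q + 1) • G.θ (n + 1 + (q + 1)) (q + 1) (c (q + 1)) := rfl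

theorem D_D (n : ℕ) (c : ∀ q, C.K q) : G.D (n + 1) (G.D n c) = 0 := by
  funext q
  match q with
  | 0 =>
    rw [D_zero, D_zero, G.θ_θ (by omega)]
    rfl
  | 1 =>
    rw [D_succ, D_succ, D_zero, map_add, map_smul, G.d_θ, G.θ_θ (by omega),
      G.θ_congr (i := n + 1 + 1 + (0 + 1)) (j := n + 1) (by omega)]
    simp
  | q + 2 =>
    rw [D_succ, D_succ, D_succ, map_add, map_add, map_smul, map_smul, C.d_d, G.d_θ,
      G.θ_θ (by omega),
      G.θ_congr (i := n + 1 + 1 + (q + 1 + 1)) (j := n + 1 + (q + 1)) (by omega)]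
    rw [smul_zero, add_zero, zero_add, pow_succ (-1 : k) (q + 1)]
    simp

theorem D_add_two (n : ℕ) : G.D (n + 2) = G.D n := by
  ext c q
  cases q with
  | zero => rw [D_zero, D_zero, G.θ_congr (i := n + 2 + 1) (j := n + 1) (by omega)]
  | succ q =>
    rw [D_succ, D_succ, G.θ_congr (i := n + 2 + 1 + (q + 1)) (j := n + 1 + (q + 1)) (by omega)]

/-- The total complex. -/
abbrev Tot : Amb k where
  K _ := ∀ q, C.K q
  d n := G.D n
  d_d n x := G.D_D n x

/-- invariance of a subcomplex under the action -/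
structure Stable (S : Sub C) : Prop where
  g_mem : ∀ n x, x ∈ S.S n → G.g n x ∈ S.S n
  nm_mem : ∀ n x, x ∈ S.S n → G.nm n x ∈ S.S n

theorem Stable.θ_mem {G : GCx C} {S : Sub C} (hS : G.Stable S) (i : ℕ) {n : ℕ} {x : C.K n}
    (hx : x ∈ S.S n) : G.θ i n x ∈ S.S n := by
  rcases Nat.mod_two_eq_zero_or_one i with h | h
  · rw [θ_even _ h]; exact hS.nm_mem n x hx
  · rw [θ_odd _ h]; exact (S.S n).sub_mem hx (hS.g_mem n x hx)

/-- `Tot S`. -/
def TotS (S : Sub C) (hS : G.Stable S) : Sub G.Tot where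
  S n :=
    { carrier := {c : ∀ q, C.K q | (∀ q, q ≤ n → c q ∈ S.S q) ∧ ∀ q, n < q → c q = 0}
      zero_mem' := ⟨fun q _ => (S.S q).zero_mem, fun _ _ => rfl⟩
      add_mem' := by
        rintro c c' ⟨h1, h2⟩ ⟨h1', h2'⟩
        refine ⟨fun q hq => (S.S q).add_mem (h1 q hq) (h1' q hq), fun q hq => ?_⟩
        change c q + c' q = 0
        rw [h2 q hq, h2' q hq, add_zero]
      smul_mem' := by
        rintro a c ⟨h1, h2⟩
        refine ⟨fun q hq => (S.S q).smul_mem a (h1 q hq), fun q hq => ?_⟩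
        change a • c q = 0
        rw [h2 q hq, smul_zero] }
  d_mem := by
    rintro n c ⟨h1, h2⟩
    refine ⟨fun q hq => ?_, fun q hq => ?_⟩
    · cases q with
      | zero => exact hS.θ_mem _ (h1 0 (Nat.zero_le _))
      | succ q =>
        change C.d q (c q) + (-1 : k) ^ (q + 1) • G.θ (n + 1 + (q + 1)) (q + 1) (c (q + 1)) ∈ _
        refine (S.S _).add_mem (S.d_mem (h1 q (by omega))) ((S.S _).smul_mem _ ?_)
        rcases Nat.lt_or_ge n (q + 1) with h | h
        · rw [h2 (q + 1) h, map_zero]; exact (S.S _).zero_mem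
        · exact hS.θ_mem _ (h1 _ h)
    · cases q with
      | zero => omega
      | succ q =>
        change C.d q (c q) + (-1 : k) ^ (q + 1) • G.θ (n + 1 + (q + 1)) (q + 1) (c (q + 1)) = _
        rw [h2 q (by omega), h2 (q + 1) (by omega)]
        simp

/-- The subcomplex `u Tot S + Tot T` of `Tot S`. -/
def TotU (S T : Sub C) (hS : G.Stable S) (hT : G.Stable T) (hTS : ∀ n, T.S n ≤ S.S n) :
    Sub G.Tot where
  S n :=
    { carrier := {c : ∀ q, C.K q | (∀ q, q + 2 ≤ n → c q ∈ S.S q) ∧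
        (∀ q, q ≤ n → n < q + 2 → c q ∈ T.S q) ∧ ∀ q, n < q → c q = 0}
      zero_mem' := ⟨fun q _ => (S.S q).zero_mem, fun q _ _ => (T.S q).zero_mem, fun _ _ => rfl⟩
      add_mem' := by
        rintro c c' ⟨h1, h3, h2⟩ ⟨h1', h3', h2'⟩
        refine ⟨fun q hq => (S.S q).add_mem (h1 q hq) (h1' q hq),
          fun q hq hq' => (T.S q).add_mem (h3 q hq hq') (h3' q hq hq'), fun q hq => ?_⟩
        change c q + c' q = 0
        rw [h2 q hq, h2' q hq, add_zero]
      smul_mem' := by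
        rintro a c ⟨h1, h3, h2⟩
        refine ⟨fun q hq => (S.S q).smul_mem a (h1 q hq),
          fun q hq hq' => (T.S q).smul_mem a (h3 q hq hq'), fun q hq => ?_⟩
        change a • c q = 0
        rw [h2 q hq, smul_zero] }
  d_mem := by
    rintro n c ⟨h1, h3, h2⟩
    refine ⟨fun q hq => ?_, fun q hq hq' => ?_, fun q hq => ?_⟩
    · cases q with
      | zero =>
        change G.θ (n + 1) 0 (c 0) ∈ _
        refine hS.θ_mem _ ?_
        rcases Nat.lt_or_ge n 2 with h | h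
        · exact hTS _ (h3 0 (by omega) (by omega))
        · exact h1 0 (by omega)
      | succ q =>
        change C.d q (c q) + (-1 : k) ^ (q + 1) • G.θ (n + 1 + (q + 1)) (q + 1) (c (q + 1)) ∈ _
        refine (S.S _).add_mem (S.d_mem (h1 q (by omega))) ((S.S _).smul_mem _ ?_)
        refine hS.θ_mem _ ?_
        rcases Nat.lt_or_ge n (q + 1 + 2) with h | h
        · exact hTS _ (h3 (q + 1) (by omega) (by omega))
        · exact h1 _ (by omega)
    · cases q with
      | zero =>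
        change G.θ (n + 1) 0 (c 0) ∈ _
        exact hT.θ_mem _ (h3 0 (by omega) (by omega))
      | succ q =>
        change C.d q (c q) + (-1 : k) ^ (q + 1) • G.θ (n + 1 + (q + 1)) (q + 1) (c (q + 1)) ∈ _
        refine (T.S _).add_mem (T.d_mem (h3 q (by omega) (by omega)))
          ((T.S _).smul_mem _ ?_)
        rcases Nat.lt_or_ge n (q + 1) with h | h
        · rw [h2 (q + 1) h, map_zero]; exact (T.S _).zero_mem
        · exact hT.θ_mem _ (h3 _ h (by omega))
    · cases q with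
      | zero => omega
      | succ q =>
        change C.d q (c q) + (-1 : k) ^ (q + 1) • G.θ (n + 1 + (q + 1)) (q + 1) (c (q + 1)) = _
        rw [h2 q (by omega), h2 (q + 1) (by omega)]
        simp

/-- The data of an invariant pair `T ≤ S`. -/
structure Pair (G : GCx C) where
  S : Sub C
  T : Sub C
  hS : G.Stable S
  hT : G.Stable T
  le : ∀ n, T.S n ≤ S.S n

namespace Pair

variable {G} (P : G.Pair)

/-- cohomology -/
abbrev HH (n : ℕ) : Type := H P.S P.T n

/-- equivariant cohomology -/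
abbrev FF (n : ℕ) : Type := H (G.TotS P.S P.hS) (G.TotS P.T P.hT) n

/-- cohomology of the cone of `1 - g` -/
abbrev EE (n : ℕ) : Type := H (G.TotS P.S P.hS) (G.TotU P.S P.T P.hS P.hT P.le) n

theorem memTS {S : Sub C} {hS : G.Stable S} {n : ℕ} {c : ∀ q, C.K q} :
    c ∈ (G.TotS S hS).S n ↔ (∀ q, q ≤ n → c q ∈ S.S q) ∧ ∀ q, n < q → c q = 0 := Iff.rfl

theorem memTU {S T : Sub C} {hS : G.Stable S} {hT : G.Stable T} {hTS : ∀ n, T.S n ≤ S.S n}
    {n : ℕ} {c : ∀ q, C.K q} :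
    c ∈ (G.TotU S T hS hT hTS).S n ↔ (∀ q, q + 2 ≤ n → c q ∈ S.S q) ∧
        (∀ q, q ≤ n → n < q + 2 → c q ∈ T.S q) ∧ ∀ q, n < q → c q = 0 := Iff.rfl

theorem tot_d (n : ℕ) (c : ∀ q, C.K q) : G.Tot.d n c = G.D n c := rfl

theorem TS_mono {m n : ℕ} (h : m ≤ n) {S : Sub C} {hS : G.Stable S} {c : ∀ q, C.K q}
    (hc : c ∈ (G.TotS S hS).S m) : c ∈ (G.TotS S hS).S n := by
  refine ⟨fun q _ => ?_, fun q hq => hc.2 q (by omega)⟩
  rcases Nat.lt_or_ge m q with h' | h'
  · rw [hc.2 q h']; exact (S.S q).zero_mem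
  · exact hc.1 q h'

theorem TT_le_TS {n : ℕ} {c : ∀ q, C.K q} (hc : c ∈ (G.TotS P.T P.hT).S n) :
    c ∈ (G.TotS P.S P.hS).S n := ⟨fun q hq => P.le q (hc.1 q hq), hc.2⟩

theorem TT_le_TU {n : ℕ} {c : ∀ q, C.K q} (hc : c ∈ (G.TotS P.T P.hT).S n) :
    c ∈ (G.TotU P.S P.T P.hS P.hT P.le).S n :=
  ⟨fun q hq => P.le q (hc.1 q (by omega)), fun q hq _ => hc.1 q hq, hc.2⟩

theorem TU_le_TS {n : ℕ} {c : ∀ q, C.K q} (hc : c ∈ (G.TotU P.S P.T P.hS P.hT P.le).S n) :
    c ∈ (G.TotS P.S P.hS).S n := by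
  refine ⟨fun q hq => ?_, hc.2.2⟩
  rcases Nat.lt_or_ge n (q + 2) with h | h
  · exact P.le q (hc.2.1 q hq h)
  · exact hc.1 q h

theorem TS_le_TU {n : ℕ} {c : ∀ q, C.K q} (hc : c ∈ (G.TotS P.S P.hS).S n) :
    c ∈ (G.TotU P.S P.T P.hS P.hT P.le).S (n + 2) :=
  ⟨fun q hq => hc.1 q (by omega), fun q hq hq' => by
    rw [hc.2 q (by omega)]; exact (P.T.S q).zero_mem, fun q hq => hc.2 q (by omega)⟩

/-- the periodicity operator -/
def u (n : ℕ) : P.FF n →ₗ[k] P.FF (n + 2) :=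
  H.gmap (LinearMap.id : (∀ q, C.K q) →ₗ[k] (∀ q, C.K q))
    (by
      intro c hc
      obtain ⟨h1, h2⟩ := mem_Zc.mp hc
      refine mem_Zc.mpr ⟨TS_mono (by omega) h1, ?_⟩
      rw [LinearMap.id_apply, tot_d, D_add_two]
      exact TS_mono (by omega) h2)
    (by
      intro c hc hcB
      cases n with
      | zero =>
        exact mem_Bc_succ.mpr ⟨0, (Submodule.zero_mem _), by
          simpa using TS_mono (m := 0) (by omega) (mem_Bc_zero.mp hcB)⟩
      | succ n =>
        obtain ⟨y, hy, hyc⟩ := mem_Bc_succ.mp hcB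
        refine mem_Bc_succ.mpr ⟨y, TS_mono (by omega) hy, ?_⟩
        rw [LinearMap.id_apply, tot_d, D_add_two]
        exact TS_mono (by omega) hyc)

/-- the projection -/
def π (n : ℕ) : P.FF n →ₗ[k] P.EE n :=
  H.gmap (LinearMap.id : (∀ q, C.K q) →ₗ[k] (∀ q, C.K q))
    (by
      intro c hc
      obtain ⟨h1, h2⟩ := mem_Zc.mp hc
      exact mem_Zc.mpr ⟨h1, P.TT_le_TU h2⟩)
    (by
      intro c hc hcB
      cases n with
      | zero => exact mem_Bc_zero.mpr (P.TT_le_TU (mem_Bc_zero.mp hcB))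
      | succ n =>
        obtain ⟨y, hy, hyc⟩ := mem_Bc_succ.mp hcB
        exact mem_Bc_succ.mpr ⟨y, hy, P.TT_le_TU hyc⟩)

theorem TU_low {n : ℕ} (hn : n < 2) {c : ∀ q, C.K q}
    (hc : c ∈ (G.TotU P.S P.T P.hS P.hT P.le).S n) : c ∈ (G.TotS P.T P.hT).S n :=
  ⟨fun q hq => hc.2.1 q hq (by omega), hc.2.2⟩

theorem π_zero_inj : Function.Injective (P.π 0) :=
  H.gmap_injective fun _ _ h => mem_Bc_zero.mpr (P.TU_low (by norm_num) (mem_Bc_zero.mp h))

theorem π_one_inj : Function.Injective (P.π 1) :=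
  H.gmap_injective fun c _ h => by
    obtain ⟨y, hy, hyc⟩ := mem_Bc_succ.mp h
    exact mem_Bc_succ.mpr ⟨y, hy, P.TU_low (by norm_num) hyc⟩

theorem π_zero_surj : Function.Surjective (P.π 0) :=
  H.gmap_surjective fun c hc => by
    obtain ⟨h1, h2⟩ := mem_Zc.mp hc
    refine ⟨c, mem_Zc.mpr ⟨h1, P.TU_low (by norm_num) h2⟩, ?_⟩
    rw [LinearMap.id_apply, sub_self]
    exact Submodule.zero_mem _

/-- `Exact (u n) (π (n + 2))` -/
theorem ex3 (n : ℕ) : Function.Exact (P.u n) (P.π (n + 2)) := by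
  refine H.gmap_exact ?_ ?_
  · intro c hc
    obtain ⟨h1, h2⟩ := mem_Zc.mp hc
    exact mem_Bc_succ.mpr ⟨0, Submodule.zero_mem _, by simpa using P.TS_le_TU h1⟩
  · intro c hc hcB
    obtain ⟨h1, h2⟩ := mem_Zc.mp hc
    obtain ⟨y, hy, hyc⟩ := mem_Bc_succ.mp hcB
    -- `c - D y` lies in `TotU`; cut it
    set e : ∀ q, C.K q := c - G.D (n + 1) y with he
    have hyc' : e ∈ (G.TotU P.S P.T P.hS P.hT P.le).S (n + 2) := hyc
    let x : ∀ q, C.K q := fun q => if q ≤ n then e q else 0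
    have hx1 : x ∈ (G.TotS P.S P.hS).S n := by
      refine ⟨fun q hq => ?_, fun q hq => ?_⟩
      · have : x q = e q := if_pos hq
        rw [this]
        exact hyc'.1 q (by omega)
      · exact if_neg (by omega)
    have hex : e - x ∈ (G.TotS P.T P.hT).S (n + 2) := by
      refine ⟨fun q hq => ?_, fun q hq => ?_⟩
      · rcases Nat.lt_or_ge n q with h | h
        · have : (e - x) q = e q := by
            change e q - x q = e q
            rw [show x q = 0 from if_neg (by omega), sub_zero]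
          rw [this]
          exact hyc'.2.1 q hq (by omega)
        · have : (e - x) q = 0 := by
            change e q - x q = 0
            rw [show x q = e q from if_pos h, sub_self]
          rw [this]
          exact (P.T.S q).zero_mem
      · change e q - x q = 0
        rw [show x q = 0 from if_neg (by omega), sub_zero]
        exact hyc'.2.2 q hq
    -- `D x ∈ Tot T`
    have hDe : G.D n e ∈ (G.TotS P.T P.hT).S (n + 3) := by
      have : G.D n e = G.D n c - G.D n (G.D (n + 1) y) := by rw [he, map_sub]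
      rw [this]
      have h0 : G.D n (G.D (n + 1) y) = 0 := by
        have := G.D_D (n + 1) y
        rwa [D_add_two] at this
      rw [h0, sub_zero]
      have := h2
      rw [tot_d, D_add_two] at this
      exact this
    have hDx : G.D n x ∈ (G.TotS P.T P.hT).S (n + 1) := by
      have h3 : G.D n (e - x) ∈ (G.TotS P.T P.hT).S (n + 3) := by
        have := (G.TotS P.T P.hT).d_mem hex
        rw [tot_d, D_add_two] at this
        exact this
      have h4 : G.D n x ∈ (G.TotS P.T P.hT).S (n + 3) := by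
        have := Submodule.sub_mem _ hDe h3
        rw [← map_sub] at this
        simpa using this
      refine ⟨fun q hq => h4.1 q (by omega), ?_⟩
      have h5 := ((G.TotS P.S P.hS).d_mem hx1).2
      exact h5
    refine ⟨x, mem_Zc.mpr ⟨hx1, hDx⟩, mem_Bc_succ.mpr ⟨y, hy, ?_⟩⟩
    rw [LinearMap.id_apply, tot_d]
    have : c - x - G.D (n + 1) y = e - x := by rw [he]; abel
    rw [this]
    exact hex

/-- the relation defining the connecting map `E (n+1) → F n`: `D c - y ∈ Tot T` -/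
def relR (n : ℕ) : Submodule k ((∀ q, C.K q) × (∀ q, C.K q)) where
  carrier := {z | G.D (n + 1) z.1 - z.2 ∈ (G.TotS P.T P.hT).S (n + 2)}
  zero_mem' := by simp
  add_mem' := by
    intro a b ha hb
    have := Submodule.add_mem ((G.TotS P.T P.hT).S (n + 2)) (show
      G.D (n + 1) a.1 - a.2 ∈ _ from ha) (show G.D (n + 1) b.1 - b.2 ∈ _ from hb)
    change G.D (n + 1) (a.1 + b.1) - (a.2 + b.2) ∈ (G.TotS P.T P.hT).S (n + 2)
    rw [map_add]
    convert this using 1
    abel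
  smul_mem' := by
    intro r a ha
    have := Submodule.smul_mem ((G.TotS P.T P.hT).S (n + 2)) r (show
      G.D (n + 1) a.1 - a.2 ∈ _ from ha)
    change G.D (n + 1) (r • a.1) - (r • a.2) ∈ (G.TotS P.T P.hT).S (n + 2)
    rw [map_smul, ← smul_sub]
    exact this

theorem mem_relR {n : ℕ} {c y : ∀ q, C.K q} :
    (c, y) ∈ P.relR n ↔ G.D (n + 1) c - y ∈ (G.TotS P.T P.hT).S (n + 2) := Iff.rfl

theorem cut_TU {n : ℕ} {e : ∀ q, C.K q}
    (he : e ∈ (G.TotU P.S P.T P.hS P.hT P.le).S (n + 2)) :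
    ∃ x ∈ (G.TotS P.S P.hS).S n, e - x ∈ (G.TotS P.T P.hT).S (n + 2) := by
  refine ⟨fun q => if q ≤ n then e q else 0, ⟨fun q hq => ?_, fun q hq => ?_⟩,
    ⟨fun q hq => ?_, fun q hq => ?_⟩⟩
  · change (if q ≤ n then e q else 0) ∈ P.S.S q
    rw [if_pos hq]
    exact he.1 q (by omega)
  · exact if_neg (by omega)
  · change e q - (if q ≤ n then e q else 0) ∈ P.T.S q
    split_ifs with h
    · rw [sub_self]; exact (P.T.S q).zero_mem
    · rw [sub_zero]; exact he.2.1 q hq (by omega)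
  · change e q - (if q ≤ n then e q else 0) = 0
    rw [if_neg (by omega), sub_zero]
    exact he.2.2 q hq

/-- If `x ∈ Tot S n` and `D x ∈ Tot T (n+3)` then `D x ∈ Tot T (n+1)`. -/
theorem D_mem_low {n : ℕ} {x : ∀ q, C.K q} (hx : x ∈ (G.TotS P.S P.hS).S n)
    (h : G.D n x ∈ (G.TotS P.T P.hT).S (n + 3)) : G.D n x ∈ (G.TotS P.T P.hT).S (n + 1) :=
  ⟨fun q hq => h.1 q (by omega), ((G.TotS P.S P.hS).d_mem hx).2⟩

theorem rel_cocycle {n : ℕ} {c y : ∀ q, C.K q} (hy : y ∈ (G.TotS P.S P.hS).S n)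
    (h : G.D (n + 1) c - y ∈ (G.TotS P.T P.hT).S (n + 2)) :
    y ∈ Zc (G.TotS P.S P.hS) (G.TotS P.T P.hT) n := by
  refine mem_Zc.mpr ⟨hy, P.D_mem_low hy ?_⟩
  have h3 := (G.TotS P.T P.hT).d_mem h
  rw [tot_d, D_add_two, map_sub] at h3
  have h0 : G.D n (G.D (n + 1) c) = 0 := by
    have := G.D_D (n + 1) c
    rwa [D_add_two] at this
  rw [h0, zero_sub] at h3
  exact (Submodule.neg_mem_iff _).mp h3

/-- connecting map -/
noncomputable def δ (n : ℕ) : P.EE (n + 1) →ₗ[k] P.FF n :=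
  H.rel (P.relR n)
    (by
      intro c hc
      obtain ⟨h1, h2⟩ := mem_Zc.mp hc
      obtain ⟨y, hy, hcy⟩ := P.cut_TU (n := n) h2
      exact ⟨y, P.rel_cocycle hy hcy, hcy⟩)
    (by
      intro c hc hcB y hy hcy
      obtain ⟨h1, h2⟩ := mem_Zc.mp hc
      obtain ⟨h3, h4⟩ := mem_Zc.mp hy
      obtain ⟨z, hz, hzc⟩ := mem_Bc_succ.mp hcB
      rw [mem_relR] at hcy
      -- `c = D z + w`, `w ∈ TotU (n+1)`; so `D c = D w`
      set w : ∀ q, C.K q := c - G.D n z with hw
      have hwU : w ∈ (G.TotU P.S P.T P.hS P.hT P.le).S (n + 1) := hzc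
      have hDw : G.D (n + 1) w = G.D (n + 1) c := by
        rw [hw, map_sub, G.D_D, sub_zero]
      rw [← hDw] at hcy
      cases n with
      | zero =>
        have hwT := P.TU_low (by norm_num) hwU
        have := (G.TotS P.T P.hT).d_mem hwT
        rw [mem_Bc_zero]
        have h5 := Submodule.sub_mem _ this hcy
        rw [tot_d, sub_sub_cancel] at h5
        exact ⟨fun q hq => h5.1 q (by omega), h3.2⟩
      | succ n =>
        obtain ⟨b, hb, hwb⟩ := P.cut_TU (n := n) hwU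
        refine mem_Bc_succ.mpr ⟨b, hb, ?_⟩
        have h6 : G.D (n + 1 + 1) (w - b) ∈ (G.TotS P.T P.hT).S (n + 1 + 2) :=
          (G.TotS P.T P.hT).d_mem hwb
        have h7 := Submodule.sub_mem _ h6 hcy
        have h8 : G.D (n + 1 + 1) (w - b) - (G.D (n + 1 + 1) w - y) = y - G.D n b := by
          rw [map_sub, show n + 1 + 1 = n + 2 from rfl, D_add_two]
          abel
        rw [h8] at h7
        refine ⟨fun q hq => h7.1 q (by omega), fun q hq => ?_⟩
        change y q - G.D n b q = 0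
        have h9 : G.D n b q = 0 := ((G.TotS P.S P.hS).d_mem hb).2 q hq
        rw [h9, h3.2 q hq, sub_zero])

theorem δ_mk {n : ℕ} {c y : ∀ q, C.K q}
    (hc : c ∈ Zc (G.TotS P.S P.hS) (G.TotU P.S P.T P.hS P.hT P.le) (n + 1))
    (hy : y ∈ Zc (G.TotS P.S P.hS) (G.TotS P.T P.hT) n)
    (h : G.D (n + 1) c - y ∈ (G.TotS P.T P.hT).S (n + 2)) :
    P.δ n (H.mk c hc) = H.mk y hy :=
  H.rel_mk _ _ _ hc hy h

/-- every element of `E (n+1)` with its connecting data -/
theorem exists_δ {n : ℕ} {c : ∀ q, C.K q}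
    (hc : c ∈ Zc (G.TotS P.S P.hS) (G.TotU P.S P.T P.hS P.hT P.le) (n + 1)) :
    ∃ y, ∃ hy : y ∈ Zc (G.TotS P.S P.hS) (G.TotS P.T P.hT) n,
      G.D (n + 1) c - y ∈ (G.TotS P.T P.hT).S (n + 2) := by
  obtain ⟨y, hy, hcy⟩ := P.cut_TU (n := n) (mem_Zc.mp hc).2
  exact ⟨y, P.rel_cocycle hy hcy, hcy⟩

/-- `Exact (π (n + 1)) (δ n)` -/
theorem ex1 (n : ℕ) : Function.Exact (P.π (n + 1)) (P.δ n) := by
  intro a
  obtain ⟨c, hc, rfl⟩ := H.exists_mk a
  obtain ⟨y, hy, hcy⟩ := P.exists_δ hc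
  obtain ⟨h1, h2⟩ := mem_Zc.mp hc
  obtain ⟨h3, h4⟩ := mem_Zc.mp hy
  rw [P.δ_mk hc hy hcy]
  constructor
  · intro h0
    rw [H.mk_eq_zero] at h0
    -- `y ∈ B F n`
    cases n with
    | zero =>
      rw [mem_Bc_zero] at h0
      have h5 := Submodule.add_mem _ hcy (TS_mono (G := G) (m := 0) (n := 2) (by omega) h0)
      rw [sub_add_cancel] at h5
      exact ⟨H.mk c (mem_Zc.mpr ⟨h1, h5⟩), rfl⟩
    | succ n =>
      obtain ⟨z, hz, hzy⟩ := mem_Bc_succ.mp h0
      -- `c - z`, with `z` in degree `n`, viewed in degree `n + 2`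
      have hz2 : z ∈ (G.TotS P.S P.hS).S (n + 1 + 1) := TS_mono (by omega) hz
      have hDz : G.D (n + 1 + 1) z = G.D n z := by
        rw [show n + 1 + 1 = n + 2 from rfl, D_add_two]
      have h5 : G.D (n + 1 + 1) (c - z) ∈ (G.TotS P.T P.hT).S (n + 1 + 1 + 1) := by
        have h6 := Submodule.add_mem _ hcy
          (TS_mono (G := G) (m := n + 1) (n := n + 1 + 2) (by omega) hzy)
        rw [map_sub, hDz]
        convert h6 using 1
        change _ = _ - y + (y - G.D n z)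
        abel
      refine ⟨H.mk (c - z) (mem_Zc.mpr ⟨Submodule.sub_mem _ h1 hz2, h5⟩), ?_⟩
      change H.mk _ _ = _
      rw [H.mk_eq_mk]
      refine mem_Bc_succ.mpr ⟨0, Submodule.zero_mem _, ?_⟩
      change c - z - c - G.D (n + 1) 0 ∈ _
      rw [map_zero, sub_zero, sub_sub_cancel_left]
      exact Submodule.neg_mem _ (P.TS_le_TU hz)
  · rintro ⟨b, hb⟩
    obtain ⟨x, hx, rfl⟩ := H.exists_mk b
    obtain ⟨h5, h6⟩ := mem_Zc.mp hx
    have h7 : P.δ n (P.π (n + 1) (H.mk x hx)) = 0 := by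
      have h8 : (0 : ∀ q, C.K q) ∈ Zc (G.TotS P.S P.hS) (G.TotS P.T P.hT) n :=
        Submodule.zero_mem _
      have h9 : P.π (n + 1) (H.mk x hx) = H.mk x (mem_Zc.mpr ⟨h5, P.TT_le_TU h6⟩) := rfl
      rw [h9, P.δ_mk _ h8 (by rw [sub_zero]; exact h6)]
      rw [H.mk_eq_zero]
      exact Submodule.zero_mem _
    rw [← P.δ_mk hc hy hcy, ← hb]
    exact h7

/-- `Exact (δ n) (u n)` -/
theorem ex2 (n : ℕ) : Function.Exact (P.δ n) (P.u n) := by
  intro a
  obtain ⟨y, hy, rfl⟩ := H.exists_mk a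
  obtain ⟨h1, h2⟩ := mem_Zc.mp hy
  constructor
  · intro h0
    have h0' : y ∈ Bc (G.TotS P.S P.hS) (G.TotS P.T P.hT) (n + 2) := H.mk_eq_zero.mp h0
    obtain ⟨c, hc, hcy⟩ := mem_Bc_succ.mp h0'
    have hcy' : G.D (n + 1) c - y ∈ (G.TotS P.T P.hT).S (n + 2) := by
      rw [← neg_sub]
      exact Submodule.neg_mem _ hcy
    have hc' : c ∈ Zc (G.TotS P.S P.hS) (G.TotU P.S P.T P.hS P.hT P.le) (n + 1) := by
      refine mem_Zc.mpr ⟨hc, ?_⟩
      have h5 := Submodule.add_mem _ (P.TT_le_TU hcy') (P.TS_le_TU h1)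
      rw [sub_add_cancel] at h5
      exact h5
    exact ⟨H.mk c hc', P.δ_mk hc' hy hcy'⟩
  · rintro ⟨b, hb⟩
    obtain ⟨c, hc, rfl⟩ := H.exists_mk b
    obtain ⟨y', hy', hcy'⟩ := P.exists_δ hc
    rw [P.δ_mk hc hy' hcy'] at hb
    rw [← hb]
    change H.mk _ _ = 0
    rw [H.mk_eq_zero]
    refine mem_Bc_succ.mpr ⟨c, (mem_Zc.mp hc).1, ?_⟩
    rw [← neg_sub]
    exact Submodule.neg_mem _ hcy'

/-- The `u`-sequence. -/
noncomputable def uSeq : USeq k P.FF P.EE where
  u := P.u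
  π := P.π
  d := P.δ
  inj0 := P.π_zero_inj
  surj0 := P.π_zero_surj
  inj1 := P.π_one_inj
  ex1 := P.ex1
  ex2 := P.ex2
  ex3 := P.ex3

/-! ### The cone sequence `H n → E (n + 1) → H (n + 1)` -/

/-- evaluation at the top component -/
def b (n : ℕ) : P.EE n →ₗ[k] P.HH n :=
  H.gmap (LinearMap.proj n : (∀ q, C.K q) →ₗ[k] C.K n)
    (by
      intro c hc
      obtain ⟨h1, h2⟩ := mem_Zc.mp hc
      refine mem_Zc.mpr ⟨h1.1 n le_rfl, ?_⟩
      have h3 := h2.2.1 (n + 1) le_rfl (by omega)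
      rw [tot_d, D_succ, h1.2 (n + 1) (by omega), map_zero, smul_zero, add_zero] at h3
      exact h3)
    (by
      intro c hc hcB
      cases n with
      | zero => exact mem_Bc_zero.mpr ((mem_Bc_zero.mp hcB).2.1 0 le_rfl (by omega))
      | succ n =>
        obtain ⟨y, hy, hyc⟩ := mem_Bc_succ.mp hcB
        refine mem_Bc_succ.mpr ⟨y n, hy.1 n le_rfl, ?_⟩
        have h3 := hyc.2.1 (n + 1) le_rfl (by omega)
        rw [tot_d] at h3
        change c (n + 1) - G.D n y (n + 1) ∈ _ at h3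
        rw [D_succ, hy.2 (n + 1) (by omega), map_zero, smul_zero, add_zero] at h3
        exact h3)

theorem b_zero_inj : Function.Injective (P.b 0) :=
  H.gmap_injective fun c hc h => by
    refine mem_Bc_zero.mpr ⟨fun q hq => by omega, fun q hq _ => ?_, (mem_Zc.mp hc).1.2⟩
    obtain rfl : q = 0 := by omega
    exact mem_Bc_zero.mp h

/-- the sequence with the single entry `x` in degree `n` -/
def sg (n : ℕ) : C.K n →ₗ[k] (∀ q, C.K q) := LinearMap.single k C.K n

theorem sg_same (n : ℕ) (x : C.K n) : sg n x n = x := Pi.single_eq_same n x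

theorem sg_ne {n q : ℕ} (h : q ≠ n) (x : C.K n) : sg n x q = 0 := Pi.single_eq_of_ne h x

theorem D_sg_succ (m n : ℕ) (x : C.K n) : G.D m (sg n x) (n + 1) = C.d n x := by
  rw [D_succ, sg_same, sg_ne (by omega), map_zero, smul_zero, add_zero]

theorem D_sg_same (m n : ℕ) (x : C.K n) :
    G.D m (sg n x) n = (-1 : k) ^ n • G.θ (m + 1 + n) n x := by
  cases n with
  | zero => rw [D_zero, sg_same, pow_zero, one_smul, add_zero]
  | succ n => rw [D_succ, sg_same, sg_ne (by omega), map_zero, zero_add]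

theorem D_sg_ne (m : ℕ) {n q : ℕ} (x : C.K n) (h1 : q ≠ n) (h2 : q ≠ n + 1) :
    G.D m (sg n x) q = 0 := by
  cases q with
  | zero => rw [D_zero, sg_ne h1, map_zero]
  | succ q =>
    rw [D_succ, sg_ne h1, sg_ne (by omega), map_zero, map_zero, smul_zero, add_zero]

theorem sg_mem_TS {S : Sub C} {hS : G.Stable S} {m n : ℕ} (h : n ≤ m) {x : C.K n}
    (hx : x ∈ S.S n) : sg n x ∈ (G.TotS S hS).S m := by
  refine ⟨fun q _ => ?_, fun q hq => sg_ne (by omega) x⟩
  rcases eq_or_ne q n with rfl | h'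
  · rw [sg_same]; exact hx
  · rw [sg_ne h']; exact (S.S q).zero_mem

/-- inclusion at the second component -/
def a (n : ℕ) : P.HH n →ₗ[k] P.EE (n + 1) :=
  H.gmap (sg n : C.K n →ₗ[k] (∀ q, C.K q))
    (by
      intro x hx
      obtain ⟨h1, h2⟩ := mem_Zc.mp hx
      have h3 : sg n x ∈ (G.TotS P.S P.hS).S (n + 1) := sg_mem_TS (by omega) h1
      refine mem_Zc.mpr ⟨h3, fun q hq => ?_, fun q hq hq' => ?_, ?_⟩
      · exact ((G.TotS P.S P.hS).d_mem h3).1 q (by omega)
      · rw [tot_d]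
        rcases eq_or_ne q (n + 1) with rfl | hne
        · rw [D_sg_succ]; exact h2
        · rw [D_sg_ne _ _ (by omega) hne]; exact (P.T.S q).zero_mem
      · exact ((G.TotS P.S P.hS).d_mem h3).2)
    (by
      intro x hx hxB
      cases n with
      | zero =>
        exact mem_Bc_succ.mpr ⟨0, Submodule.zero_mem _, by
          rw [tot_d, map_zero, sub_zero]
          exact P.TT_le_TU (sg_mem_TS (by omega) (mem_Bc_zero.mp hxB))⟩
      | succ n =>
        obtain ⟨y, hy, hyx⟩ := mem_Bc_succ.mp hxB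
        have h3 : sg n y ∈ (G.TotS P.S P.hS).S (n + 1) := sg_mem_TS (by omega) hy
        refine mem_Bc_succ.mpr ⟨sg n y, h3, ?_⟩
        have h4 : sg (n + 1) x ∈ (G.TotS P.S P.hS).S (n + 2) :=
          sg_mem_TS (by omega) (mem_Zc.mp hx).1
        have h5 := Submodule.sub_mem _ h4 ((G.TotS P.S P.hS).d_mem h3)
        refine ⟨fun q hq => h5.1 q (by omega), fun q hq hq' => ?_, h5.2⟩
        change sg (n + 1) x q - G.D (n + 1) (sg n y) q ∈ _
        rcases eq_or_ne q (n + 1) with rfl | hne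
        · rw [D_sg_succ, sg_same]; exact hyx
        · rw [D_sg_ne _ _ (by omega) hne, sg_ne hne, sub_zero]; exact (P.T.S q).zero_mem)

theorem exab (n : ℕ) : Function.Exact (P.a n) (P.b (n + 1)) := by
  refine H.gmap_exact ?_ ?_
  · intro x hx
    change sg n x (n + 1) ∈ _
    rw [sg_ne (by omega)]
    exact Submodule.zero_mem _
  · intro c hc hcB
    obtain ⟨h1, h2⟩ := mem_Zc.mp hc
    obtain ⟨y, hy, hyc⟩ := mem_Bc_succ.mp hcB
    change c (n + 1) - C.d n y ∈ _ at hyc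
    -- subtract `D (sg n y)` in degree `n`
    have hy' : sg n y ∈ (G.TotS P.S P.hS).S n := sg_mem_TS le_rfl hy
    set e : ∀ q, C.K q := c - G.D n (sg n y) with he
    have heS : e ∈ (G.TotS P.S P.hS).S (n + 1) :=
      Submodule.sub_mem _ h1 ((G.TotS P.S P.hS).d_mem hy')
    have he1 : e (n + 1) ∈ P.T.S (n + 1) := by
      change c (n + 1) - G.D n (sg n y) (n + 1) ∈ _
      rw [D_sg_succ]; exact hyc
    have heD : G.D (n + 1) e ∈ (G.TotU P.S P.T P.hS P.hT P.le).S (n + 2) := by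
      rw [he, map_sub, D_D, sub_zero]; exact h2
    refine ⟨e n, mem_Zc.mpr ⟨heS.1 n (by omega), ?_⟩, ?_⟩
    · have h3 := heD.2.1 (n + 1) (by omega) (by omega)
      rw [D_succ] at h3
      have h4 := (P.T.S (n + 1)).smul_mem ((-1 : k) ^ (n + 1))
        (P.hT.θ_mem (n + 1 + 1 + (n + 1)) he1)
      have h5 := Submodule.sub_mem _ h3 h4
      rwa [add_sub_cancel_right] at h5
    · refine mem_Bc_succ.mpr ⟨sg n y, hy', ?_⟩
      change c - sg n (e n) - G.D n (sg n y) ∈ _
      have h6 : c - sg n (e n) - G.D n (sg n y) = e - sg n (e n) := by rw [he]; abel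
      rw [h6]
      have h7 : e - sg n (e n) ∈ (G.TotS P.S P.hS).S (n + 1) :=
        Submodule.sub_mem _ heS (sg_mem_TS (by omega) (heS.1 n (by omega)))
      refine ⟨fun q hq => h7.1 q (by omega), fun q hq hq' => ?_, h7.2⟩
      rcases eq_or_ne q n with rfl | hne
      · change e q - sg q (e q) q ∈ _
        rw [sg_same, sub_self]
        exact Submodule.zero_mem _
      · obtain rfl : q = n + 1 := by omega
        change e (n + 1) - sg n (e n) (n + 1) ∈ _
        rw [sg_ne (by omega), sub_zero]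
        exact he1

end Pair

end GCx

end Vale.Agent.P216.AS
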