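import Vale.Agent.P216.AS.Tot

set_option linter.unusedSectionVars false

/-! # The reversal on the total complex, `Level`, `LevelHom`, finiteness -/

open Module LinearMap

namespace Vale.Agent.P216.AS

variable {k : Type} [Field k] {C : Amb k}

/-- The reversal: an involution `r` commuting with `d` and with `g r g = r`. -/
structure Rev (G : GCx C) where
  r : ∀ n, C.K n →ₗ[k] C.K n
  d_r : ∀ n x, C.d n (r n x) = r (n + 1) (C.d n x)
  r_r : ∀ n x, r n (r n x) = x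
  grg : ∀ n x, G.g n (r n (G.g n x)) = r n x
  nm_r : ∀ n x, G.nm n (r n x) = r n (G.nm n x)

namespace Rev

variable {G : GCx C} (R : Rev G)

/-- `ρ m = r, -g r, -r, g r` for `m = 0, 1, 2, 3` modulo `4`. -/
def ρ (m n : ℕ) : C.K n →ₗ[k] C.K n :=
  if m % 4 = 0 then R.r n else if m % 4 = 1 then -(G.g n ∘ₗ R.r n)
    else if m % 4 = 2 then -R.r n else G.g n ∘ₗ R.r n

theorem ρ_zero {m : ℕ} (h : m % 4 = 0) (n : ℕ) (x : C.K n) : R.ρ m n x = R.r n x := by
  simp [ρ, h]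

theorem ρ_one {m : ℕ} (h : m % 4 = 1) (n : ℕ) (x : C.K n) :
    R.ρ m n x = -G.g n (R.r n x) := by simp [ρ, h]

theorem ρ_two {m : ℕ} (h : m % 4 = 2) (n : ℕ) (x : C.K n) : R.ρ m n x = -R.r n x := by
  simp [ρ, h]

theorem ρ_three {m : ℕ} (h : m % 4 = 3) (n : ℕ) (x : C.K n) :
    R.ρ m n x = G.g n (R.r n x) := by simp [ρ, h]

theorem ρ_congr {m m' : ℕ} (h : m % 4 = m' % 4) : R.ρ m = R.ρ m' := by
  funext n
  simp [ρ, h]

theorem four_cases (m : ℕ) : m % 4 = 0 ∨ m % 4 = 1 ∨ m % 4 = 2 ∨ m % 4 = 3 := by omega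

theorem d_ρ (m n : ℕ) (x : C.K n) : C.d n (R.ρ m n x) = R.ρ m (n + 1) (C.d n x) := by
  rcases four_cases m with h | h | h | h
  · rw [ρ_zero _ h, ρ_zero _ h, R.d_r]
  · rw [ρ_one _ h, ρ_one _ h, map_neg, G.d_g, R.d_r]
  · rw [ρ_two _ h, ρ_two _ h, map_neg, R.d_r]
  · rw [ρ_three _ h, ρ_three _ h, G.d_g, R.d_r]

theorem grgr (n : ℕ) (x : C.K n) : G.g n (R.r n (G.g n (R.r n x))) = x := by
  rw [R.grg, R.r_r]

theorem ρ_ρ (m n : ℕ) (x : C.K n) : R.ρ m n (R.ρ m n x) = x := by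
  rcases four_cases m with h | h | h | h
  · rw [ρ_zero _ h, ρ_zero _ h, R.r_r]
  · rw [ρ_one _ h, ρ_one _ h, map_neg, map_neg, neg_neg, R.grgr]
  · rw [ρ_two _ h, ρ_two _ h, map_neg, neg_neg, R.r_r]
  · rw [ρ_three _ h, ρ_three _ h, R.grgr]

theorem ρ_add_two (m n : ℕ) (x : C.K n) : R.ρ (m + 2) n x = -R.ρ m n x := by
  rcases four_cases m with h | h | h | h
  · rw [ρ_zero _ h, ρ_two _ (by omega)]
  · rw [ρ_one _ h, ρ_three _ (by omega), neg_neg]
  · rw [ρ_two _ h, ρ_zero _ (by omega), neg_neg]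
  · rw [ρ_three _ h, ρ_one _ (by omega)]

theorem θ_ρ (m j n : ℕ) (hj : (j + m) % 2 = 1) (x : C.K n) :
    G.θ j n (R.ρ m n x) = R.ρ (m + 1) n (G.θ j n x) := by
  rcases four_cases m with h | h | h | h
  · rw [G.θ_odd (by omega), G.θ_odd (by omega), ρ_zero _ h, ρ_one _ (by omega)]
    rw [map_sub, map_sub, R.grg]
    abel
  · rw [G.θ_even (by omega), G.θ_even (by omega), ρ_one _ h, ρ_two _ (by omega)]
    rw [map_neg, G.nm_g, R.nm_r]
  · rw [G.θ_odd (by omega), G.θ_odd (by omega), ρ_two _ h, ρ_three _ (by omega)]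
    rw [map_sub, map_sub, R.grg, map_neg]
    abel
  · rw [G.θ_even (by omega), G.θ_even (by omega), ρ_three _ h, ρ_zero _ (by omega)]
    rw [G.nm_g, R.nm_r]

/-- The reversal on the total complex in degree `n`. -/
def RT (n : ℕ) : (∀ q, C.K q) →ₗ[k] (∀ q, C.K q) where
  toFun c q := R.ρ (n + 3 * q) q (c q)
  map_add' c c' := by funext q; simp
  map_smul' a c := by funext q; simp

theorem RT_apply (n : ℕ) (c : ∀ q, C.K q) (q : ℕ) : R.RT n c q = R.ρ (n + 3 * q) q (c q) := rfl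

theorem RT_RT (n : ℕ) (c : ∀ q, C.K q) : R.RT n (R.RT n c) = c := by
  funext q
  rw [RT_apply, RT_apply, ρ_ρ]

theorem RT_add_two (n : ℕ) (c : ∀ q, C.K q) : R.RT (n + 2) c = -R.RT n c := by
  funext q
  rw [RT_apply, Pi.neg_apply, RT_apply, ← ρ_add_two,
    R.ρ_congr (m := n + 2 + 3 * q) (m' := n + 3 * q + 2) (by omega)]

theorem D_RT (n : ℕ) (c : ∀ q, C.K q) : G.D n (R.RT n c) = R.RT (n + 1) (G.D n c) := by
  funext q
  cases q with
  | zero =>
    rw [G.D_zero, RT_apply, RT_apply, G.D_zero, R.θ_ρ _ _ _ (by omega),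
      R.ρ_congr (m := n + 3 * 0 + 1) (m' := n + 1 + 3 * 0) (by omega)]
  | succ q =>
    rw [G.D_succ, RT_apply, RT_apply, RT_apply, G.D_succ, R.d_ρ, map_add, map_smul,
      R.θ_ρ _ _ _ (by omega),
      R.ρ_congr (m := n + 1 + 3 * (q + 1)) (m' := n + 3 * q) (by omega),
      R.ρ_congr (m := n + 3 * (q + 1) + 1) (m' := n + 3 * q) (by omega)]

/-- invariance of a subcomplex under the reversal -/
def Stable (S : Sub C) : Prop := ∀ n x, x ∈ S.S n → R.r n x ∈ S.S n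

variable {R}

theorem Stable.ρ_mem {S : Sub C} (hR : R.Stable S) (hS : G.Stable S) (m : ℕ) {n : ℕ} {x : C.K n}
    (hx : x ∈ S.S n) : R.ρ m n x ∈ S.S n := by
  rcases four_cases m with h | h | h | h
  · rw [ρ_zero _ h]; exact hR n x hx
  · rw [ρ_one _ h]; exact (S.S n).neg_mem (hS.g_mem n _ (hR n x hx))
  · rw [ρ_two _ h]; exact (S.S n).neg_mem (hR n x hx)
  · rw [ρ_three _ h]; exact hS.g_mem n _ (hR n x hx)

theorem Stable.TS {S : Sub C} (hR : R.Stable S) (hS : G.Stable S) (m : ℕ) {n : ℕ}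
    {c : ∀ q, C.K q} (hc : c ∈ (G.TotS S hS).S n) : R.RT m c ∈ (G.TotS S hS).S n :=
  ⟨fun q hq => hR.ρ_mem hS _ (hc.1 q hq), fun q hq => by rw [RT_apply, hc.2 q hq, map_zero]⟩

end Rev

namespace GCx.Pair

variable {G : GCx C} (P : G.Pair) (R : Rev G)

/-- invariance of the pair under the reversal -/
structure RStable : Prop where
  S : R.Stable P.S
  T : R.Stable P.T

variable {P R}

theorem RStable.TU (h : P.RStable R) (m : ℕ) {n : ℕ} {c : ∀ q, C.K q}
    (hc : c ∈ (G.TotU P.S P.T P.hS P.hT P.le).S n) :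
    R.RT m c ∈ (G.TotU P.S P.T P.hS P.hT P.le).S n :=
  ⟨fun q hq => h.S.ρ_mem P.hS _ (hc.1 q hq), fun q hq hq' => h.T.ρ_mem P.hT _ (hc.2.1 q hq hq'),
    fun q hq => by rw [Rev.RT_apply, hc.2.2 q hq, map_zero]⟩

/-- reversal on `H` -/
def rH (h : P.RStable R) (n : ℕ) : P.HH n →ₗ[k] P.HH n :=
  H.gmap (R.r n)
    (fun x hx => mem_Zc.mpr ⟨h.S n x (mem_Zc.mp hx).1, by
      rw [R.d_r]; exact h.T _ _ (mem_Zc.mp hx).2⟩)
    (by
      intro x hx hB
      cases n with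
      | zero => exact mem_Bc_zero.mpr (h.T _ _ (mem_Bc_zero.mp hB))
      | succ n =>
        obtain ⟨y, hy, hyx⟩ := mem_Bc_succ.mp hB
        refine mem_Bc_succ.mpr ⟨R.r n y, h.S _ _ hy, ?_⟩
        rw [R.d_r, ← map_sub]
        exact h.T _ _ hyx)

/-- reversal on `F` -/
def rF (h : P.RStable R) (n : ℕ) : P.FF n →ₗ[k] P.FF n :=
  H.gmap (R.RT n)
    (fun x hx => mem_Zc.mpr ⟨h.S.TS P.hS _ (mem_Zc.mp hx).1, by
      rw [tot_d, R.D_RT]; exact h.T.TS P.hT _ (mem_Zc.mp hx).2⟩)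
    (by
      intro x hx hB
      cases n with
      | zero => exact mem_Bc_zero.mpr (h.T.TS P.hT _ (mem_Bc_zero.mp hB))
      | succ n =>
        obtain ⟨y, hy, hyx⟩ := mem_Bc_succ.mp hB
        refine mem_Bc_succ.mpr ⟨R.RT n y, h.S.TS P.hS _ hy, ?_⟩
        rw [tot_d, R.D_RT, ← map_sub]
        exact h.T.TS P.hT _ hyx)

/-- reversal on `E` -/
def rE (h : P.RStable R) (n : ℕ) : P.EE n →ₗ[k] P.EE n :=
  H.gmap (R.RT n)
    (fun x hx => mem_Zc.mpr ⟨h.S.TS P.hS _ (mem_Zc.mp hx).1, by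
      rw [tot_d, R.D_RT]; exact h.TU _ (mem_Zc.mp hx).2⟩)
    (by
      intro x hx hB
      cases n with
      | zero => exact mem_Bc_zero.mpr (h.TU _ (mem_Bc_zero.mp hB))
      | succ n =>
        obtain ⟨y, hy, hyx⟩ := mem_Bc_succ.mp hB
        refine mem_Bc_succ.mpr ⟨R.RT n y, h.S.TS P.hS _ hy, ?_⟩
        rw [tot_d, R.D_RT, ← map_sub]
        exact h.TU _ hyx)

theorem rH_mk (h : P.RStable R) {n : ℕ} {x : C.K n} (hx : x ∈ Zc P.S P.T n) :
    rH h n (H.mk x hx) = H.mk (R.r n x) (mem_Zc.mpr ⟨h.S n x (mem_Zc.mp hx).1, by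
      rw [R.d_r]; exact h.T _ _ (mem_Zc.mp hx).2⟩) := rfl

/-- The `Level` of an invariant pair. -/
noncomputable def level (h : P.RStable R) : Level k P.HH P.FF P.EE where
  toUSeq := P.uSeq
  a := P.a
  b := P.b
  injb0 := P.b_zero_inj
  exab := P.exab
  rH := rH h
  rF := rF h
  rE := rE h
  rH_rH n x := by
    obtain ⟨x, hx, rfl⟩ := H.exists_mk x
    unfold rH
    rw [H.gmap_mk, H.gmap_mk, H.mk_eq_mk, R.r_r, sub_self]
    exact Submodule.zero_mem _
  rF_rF n x := by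
    obtain ⟨x, hx, rfl⟩ := H.exists_mk x
    unfold rF
    rw [H.gmap_mk, H.gmap_mk, H.mk_eq_mk, R.RT_RT, sub_self]
    exact Submodule.zero_mem _
  rE_rE n x := by
    obtain ⟨x, hx, rfl⟩ := H.exists_mk x
    unfold rE
    rw [H.gmap_mk, H.gmap_mk, H.mk_eq_mk, R.RT_RT, sub_self]
    exact Submodule.zero_mem _
  u_rF n x := by
    obtain ⟨x, hx, rfl⟩ := H.exists_mk x
    change P.u n (rF h n _) = -rF h (n + 2) (P.u n _)
    unfold rF u
    rw [H.gmap_mk, H.gmap_mk, H.gmap_mk, H.gmap_mk, ← H.mk_neg, H.mk_eq_mk]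
    rw [LinearMap.id_apply, LinearMap.id_apply, R.RT_add_two, neg_neg, sub_self]
    exact Submodule.zero_mem _
  π_rF n x := by
    obtain ⟨x, hx, rfl⟩ := H.exists_mk x
    rfl
  a_rH n x := by
    obtain ⟨x, hx, rfl⟩ := H.exists_mk x
    unfold rE rH a
    rw [H.gmap_mk, H.gmap_mk, H.gmap_mk, H.gmap_mk, ← H.mk_neg, H.mk_eq_mk]
    obtain ⟨h1, h2⟩ := mem_Zc.mp hx
    -- `sg n (r x) + R (sg n x) = sg n ((1 - g) (r x))`
    have h3 : R.RT (n + 1) (sg n x) = sg n (-G.g n (R.r n x)) := by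
      funext q
      rw [Rev.RT_apply]
      rcases eq_or_ne q n with rfl | hne
      · rw [sg_same, sg_same, R.ρ_one (by omega)]
      · rw [sg_ne hne, sg_ne hne, map_zero]
    rw [h3, ← map_neg, neg_neg, ← map_sub]
    -- boundary of `sg n (r x)` in degree `n`
    have h4 : sg n (R.r n x) ∈ (G.TotS P.S P.hS).S n := sg_mem_TS le_rfl (h.S n x h1)
    have h5 : ((-1 : k) ^ n) • sg n (R.r n x) ∈ (G.TotS P.S P.hS).S n :=
      Submodule.smul_mem _ _ h4
    refine mem_Bc_succ.mpr ⟨_, h5, ?_⟩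
    have h6 : sg n (R.r n x - G.g n (R.r n x)) ∈ (G.TotS P.S P.hS).S (n + 1) :=
      sg_mem_TS (by omega) (Submodule.sub_mem _ (h.S n x h1) (P.hS.g_mem n _ (h.S n x h1)))
    have h7 := Submodule.sub_mem _ h6 ((G.TotS P.S P.hS).d_mem h5)
    refine ⟨fun q hq => h7.1 q (by omega), fun q hq hq' => ?_, h7.2⟩
    change sg n (R.r n x - G.g n (R.r n x)) q - G.D n (((-1 : k) ^ n) • sg n (R.r n x)) q ∈ _
    rw [map_smul, Pi.smul_apply]
    rcases eq_or_ne q n with rfl | hne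
    · rw [sg_same, D_sg_same, G.θ_odd (by omega), smul_smul, ← mul_pow]
      simp
    · obtain rfl : q = n + 1 := by omega
      rw [sg_ne (by omega), D_sg_succ, zero_sub, R.d_r]
      exact Submodule.neg_mem _ (Submodule.smul_mem _ _ (h.T _ _ h2))
  b_rE n x := by
    obtain ⟨x, hx, rfl⟩ := H.exists_mk x
    unfold rE rH b
    rw [H.gmap_mk, H.gmap_mk, H.gmap_mk, H.gmap_mk, H.mk_eq_mk]
    change R.RT n x n - R.r n (x n) ∈ _
    rw [Rev.RT_apply, R.ρ_zero (by omega), sub_self]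
    exact Submodule.zero_mem _

theorem level_rH (h : P.RStable R) : (level h).rH = rH h := rfl
theorem level_rF (h : P.RStable R) : (level h).rF = rF h := rfl
theorem level_u (h : P.RStable R) : (level h).u = P.u := rfl

/-! ### Restriction maps -/

variable {P' : G.Pair}

/-- restriction on `H` -/
def resH (hS : P.S ≤ P'.S) (hT : P.T ≤ P'.T) (n : ℕ) : P.HH n →ₗ[k] P'.HH n := Hinc hS hT n

theorem TotS_mono {S S' : Sub C} (hS : G.Stable S) (hS' : G.Stable S') (h : S ≤ S') :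
    G.TotS S hS ≤ G.TotS S' hS' := fun _ _ hc => ⟨fun q hq => h q (hc.1 q hq), hc.2⟩

theorem TotU_mono (hS : P.S ≤ P'.S) (hT : P.T ≤ P'.T) :
    G.TotU P.S P.T P.hS P.hT P.le ≤ G.TotU P'.S P'.T P'.hS P'.hT P'.le :=
  fun _ _ hc => ⟨fun q hq => hS q (hc.1 q hq), fun q hq hq' => hT q (hc.2.1 q hq hq'), hc.2.2⟩

/-- restriction on `F` -/
def resF (hS : P.S ≤ P'.S) (hT : P.T ≤ P'.T) (n : ℕ) : P.FF n →ₗ[k] P'.FF n :=
  Hinc (TotS_mono P.hS P'.hS hS) (TotS_mono P.hT P'.hT hT) n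

/-- restriction on `E` -/
def resE (hS : P.S ≤ P'.S) (hT : P.T ≤ P'.T) (n : ℕ) : P.EE n →ₗ[k] P'.EE n :=
  Hinc (TotS_mono P.hS P'.hS hS) (TotU_mono hS hT) n

/-- The morphism of levels given by restriction. -/
noncomputable def levelHom (h : P.RStable R) (h' : P'.RStable R) (hS : P.S ≤ P'.S)
    (hT : P.T ≤ P'.T) : LevelHom (level h) (level h') where
  fH := resH hS hT
  fF := resF hS hT
  fE := resE hS hT
  comm_π n x := by
    obtain ⟨x, hx, rfl⟩ := H.exists_mk x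
    rfl
  comm_a n x := by
    obtain ⟨x, hx, rfl⟩ := H.exists_mk x
    rfl
  comm_b n x := by
    obtain ⟨x, hx, rfl⟩ := H.exists_mk x
    rfl

theorem rF_resF (h : P.RStable R) (h' : P'.RStable R) (hS : P.S ≤ P'.S)
    (hT : P.T ≤ P'.T) (n : ℕ) (x : P.FF n) :
    rF h' n (resF hS hT n x) = resF hS hT n (rF h n x) := by
  obtain ⟨x, hx, rfl⟩ := H.exists_mk x
  rfl

theorem rH_resH (h : P.RStable R) (h' : P'.RStable R) (hS : P.S ≤ P'.S)
    (hT : P.T ≤ P'.T) (n : ℕ) (x : P.HH n) :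
    rH h' n (resH hS hT n x) = resH hS hT n (rH h n x) := by
  obtain ⟨x, hx, rfl⟩ := H.exists_mk x
  rfl

theorem u_resF (hS : P.S ≤ P'.S) (hT : P.T ≤ P'.T) (n : ℕ) (x : P.FF n) :
    P'.u n (resF hS hT n x) = resF hS hT (n + 2) (P.u n x) := by
  obtain ⟨x, hx, rfl⟩ := H.exists_mk x
  rfl

/-! ### Finiteness and vanishing -/

variable (P)

theorem finite_of_exact {A B D : Type*} [AddCommGroup A] [Module k A] [AddCommGroup B]
    [Module k B] [AddCommGroup D] [Module k D] [FiniteDimensional k A] [FiniteDimensional k D]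
    (φ : A →ₗ[k] B) (ψ : B →ₗ[k] D) (h : Function.Exact φ ψ) : FiniteDimensional k B := by
  have h1 : FiniteDimensional k (LinearMap.ker ψ) := by
    rw [LinearMap.exact_iff.mp h]
    infer_instance
  have h2 : FiniteDimensional k (LinearMap.range ψ) := inferInstance
  have h3 : FiniteDimensional k (B ⧸ LinearMap.ker ψ) :=
    Module.Finite.equiv (LinearMap.quotKerEquivRange ψ).symm
  exact Module.Finite.of_submodule_quotient (LinearMap.ker ψ)

theorem finite_E (hH : ∀ n, FiniteDimensional k (P.HH n)) (n : ℕ) :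
    FiniteDimensional k (P.EE n) := by
  cases n with
  | zero => exact FiniteDimensional.of_injective (P.b 0) P.b_zero_inj
  | succ n => exact finite_of_exact (P.a n) (P.b (n + 1)) (P.exab n)

theorem finite_F (hH : ∀ n, FiniteDimensional k (P.HH n)) (n : ℕ) :
    FiniteDimensional k (P.FF n) := by
  have hE := P.finite_E hH
  induction n using Nat.strong_induction_on with
  | _ n ih =>
    match n, ih with
    | 0, _ => exact FiniteDimensional.of_injective (P.π 0) P.π_zero_inj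
    | 1, _ => exact FiniteDimensional.of_injective (P.π 1) P.π_one_inj
    | n + 2, ih =>
      have := ih n (by omega)
      exact finite_of_exact (P.u n) (P.π (n + 2)) (P.ex3 n)

theorem subsingleton_E (hH : ∀ n, Subsingleton (P.HH n)) (n : ℕ) : Subsingleton (P.EE n) := by
  cases n with
  | zero => exact P.b_zero_inj.subsingleton
  | succ n =>
    refine ⟨fun x y => ?_⟩
    have key : ∀ x : P.EE (n + 1), x = 0 := by
      intro x
      obtain ⟨z, rfl⟩ := (P.exab n x).mp (Subsingleton.elim _ _)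
      rw [Subsingleton.elim z 0, map_zero]
    rw [key x, key y]

theorem subsingleton_F (hH : ∀ n, Subsingleton (P.HH n)) (n : ℕ) : Subsingleton (P.FF n) := by
  have hE := P.subsingleton_E hH
  induction n using Nat.strong_induction_on with
  | _ n ih =>
    match n, ih with
    | 0, _ => exact P.π_zero_inj.subsingleton
    | 1, _ => exact P.π_one_inj.subsingleton
    | n + 2, ih =>
      have := ih n (by omega)
      refine ⟨fun x y => ?_⟩
      have key : ∀ x : P.FF (n + 2), x = 0 := by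
        intro x
        obtain ⟨z, rfl⟩ := (P.ex3 n x).mp (Subsingleton.elim _ _)
        rw [Subsingleton.elim z 0, map_zero]
      rw [key x, key y]

end GCx.Pair

end Vale.Agent.P216.AS
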