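import Vale.Agent.P216.AS.Alg707

set_option linter.unusedSectionVars false

/-!
# The window argument (P216, Theorem A, steps (3), (5), (6), (7) of note 8651)

`Level k H F E` is the algebraic structure carried by one sublevel set `X_s`:
`H` = (twisted) cohomology, `F` = `Z/p`-equivariant cohomology with the periodicity operator `u`,
`E` = cohomology of the cone of `1 - g`, together with the action of the reversal.
-/

open Module LinearMap

namespace Vale.Agent.P216.AS

/-- The algebraic structure carried by one sublevel set. -/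
structure Level (k : Type*) [Field k] (H F E : ℕ → Type*)
    [∀ n, AddCommGroup (H n)] [∀ n, Module k (H n)]
    [∀ n, AddCommGroup (F n)] [∀ n, Module k (F n)]
    [∀ n, AddCommGroup (E n)] [∀ n, Module k (E n)] extends USeq k F E where
  a : ∀ n, H n →ₗ[k] E (n + 1)
  b : ∀ n, E n →ₗ[k] H n
  injb0 : Function.Injective (b 0)
  exab : ∀ n, Function.Exact (a n) (b (n + 1))
  rH : ∀ n, H n →ₗ[k] H n
  rF : ∀ n, F n →ₗ[k] F n
  rE : ∀ n, E n →ₗ[k] E n
  rH_rH : ∀ n x, rH n (rH n x) = x
  rF_rF : ∀ n x, rF n (rF n x) = x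
  rE_rE : ∀ n x, rE n (rE n x) = x
  u_rF : ∀ n x, u n (rF n x) = - rF (n + 2) (u n x)
  π_rF : ∀ n x, π n (rF n x) = rE n (π n x)
  a_rH : ∀ n x, a n (rH n x) = - rE (n + 1) (a n x)
  b_rE : ∀ n x, b n (rE n x) = rH n (b n x)

theorem chi_zero_map (k : Type*) [Field k] :
    chi (0 : (Fin 0 → k) →ₗ[k] (Fin 0 → k)) = 0 := by
  have h : ∀ W : Submodule k (Fin 0 → k), finrank k W = 0 := fun W =>
    finrank_zero_of_subsingleton
  unfold chi
  rw [h, h]
  rfl

namespace Level

variable {k : Type*} [Field k] {H F E : ℕ → Type*}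
    [∀ n, AddCommGroup (H n)] [∀ n, Module k (H n)]
    [∀ n, AddCommGroup (F n)] [∀ n, Module k (F n)]
    [∀ n, AddCommGroup (E n)] [∀ n, Module k (E n)]
    [∀ n, FiniteDimensional k (H n)] [∀ n, FiniteDimensional k (F n)]
    [∀ n, FiniteDimensional k (E n)] (S : Level k H F E)

include S

theorem e_zero_le : finrank k (E 0) ≤ finrank k (H 0) :=
  LinearMap.finrank_le_finrank_of_injective S.injb0

theorem e_succ_le (n : ℕ) : finrank k (E (n + 1)) ≤ finrank k (H n) + finrank k (H (n + 1)) :=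
  finrank_le_of_exact (S.a n) (S.b (n + 1)) (S.exab n)

theorem sum_e_le (m : ℕ) : ∑ n ∈ Finset.range (m + 1), finrank k (E n) ≤
    2 * ∑ n ∈ Finset.range m, finrank k (H n) + finrank k (H m) := by
  induction m with
  | zero => simpa using S.e_zero_le
  | succ m ih =>
    rw [Finset.sum_range_succ, Finset.sum_range_succ (fun n => finrank k (H n)) m]
    have := S.e_succ_le m
    omega

theorem sum_e_le' (N : ℕ) (hN : ∀ m, ∑ n ∈ Finset.range m, finrank k (H n) ≤ N) (m : ℕ) :
    ∑ n ∈ Finset.range m, finrank k (E n) ≤ 2 * N := by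
  cases m with
  | zero => simp
  | succ m =>
    have h1 := S.sum_e_le m
    have h2 := hN (m + 1)
    rw [Finset.sum_range_succ] at h2
    omega

/-- Smith inequality. -/
theorem smith (N N' : ℕ) (hN : ∀ m, ∑ n ∈ Finset.range m, finrank k (H n) ≤ N)
    (hF : ∃ m', 2 * N' ≤ finrank k (F (m' + 1)) + finrank k (F m')) : N' ≤ N :=
  S.toUSeq.smith_le N N' (S.sum_e_le' N hN) hF

section Equality

variable {S}
variable (N : ℕ) (hN : ∀ m, ∑ n ∈ Finset.range m, finrank k (H n) ≤ N)
  (hF : ∀ m, ∃ m' ≥ m, 2 * N ≤ finrank k (F (m' + 1)) + finrank k (F m'))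

include hN hF

theorem inj_u (n : ℕ) : Function.Injective (S.u n) :=
  S.toUSeq.injective_of_le N (S.sum_e_le' N hN) hF n

theorem sum_e_ge (m : ℕ) : ∃ m' ≥ m, 2 * N ≤ ∑ n ∈ Finset.range m', finrank k (E n) := by
  obtain ⟨m', hm', h⟩ := hF m
  refine ⟨m' + 2, by omega, ?_⟩
  rw [S.toUSeq.sum_e_of_inj (fun n => inj_u (S := S) N hN hF n)]
  exact h

/-- total defect -/
theorem defect (n : ℕ) :
    finrank k (E 0) = finrank k (H 0) ∧
    finrank k (E (n + 1)) = finrank k (H n) + finrank k (H (n + 1)) := by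
  obtain ⟨m', hm', h⟩ := sum_e_ge (S := S) N hN hF (n + 2)
  -- compare the two sums
  have key : ∀ m, ∑ i ∈ Finset.range (m + 1), finrank k (E i) +
      ((finrank k (H 0) - finrank k (E 0)) + ∑ i ∈ Finset.range m,
        (finrank k (H i) + finrank k (H (i + 1)) - finrank k (E (i + 1)))) =
      2 * ∑ i ∈ Finset.range m, finrank k (H i) + finrank k (H m) := by
    intro m
    induction m with
    | zero =>
      have := S.e_zero_le
      simp
      omega
    | succ m ih =>
      rw [Finset.sum_range_succ, Finset.sum_range_succ (fun i => finrank k (H i)) m,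
        Finset.sum_range_succ (fun i =>
          (finrank k (H i) + finrank k (H (i + 1)) - finrank k (E (i + 1)))) m]
      have := S.e_succ_le m
      omega
  obtain ⟨m, rfl⟩ : ∃ m, m' = m + 1 := ⟨m' - 1, by omega⟩
  have h1 := key m
  have h2 := hN (m + 1)
  rw [Finset.sum_range_succ] at h2
  have h3 : (finrank k (H 0) - finrank k (E 0)) = 0 := by omega
  have h4 : ∑ i ∈ Finset.range m,
        (finrank k (H i) + finrank k (H (i + 1)) - finrank k (E (i + 1))) = 0 := by omega
  rw [Finset.sum_eq_zero_iff] at h4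
  have h5 := h4 n (Finset.mem_range.mpr (by omega))
  have h6 := S.e_zero_le
  have h7 := S.e_succ_le n
  omega

theorem inj_a (n : ℕ) : Function.Injective (S.a n) := by
  have h := (defect (S := S) N hN hF n).2
  have h1 := finrank_of_exact (S.a n) (S.b (n + 1)) (S.exab n)
  have h2 := LinearMap.finrank_range_add_finrank_ker (S.a n)
  have h3 : finrank k (LinearMap.range (S.b (n + 1))) ≤ finrank k (H (n + 1)) :=
    Submodule.finrank_le _
  rw [← LinearMap.ker_eq_bot]
  apply Submodule.finrank_eq_zero.mp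
  omega

theorem surj_b (n : ℕ) : Function.Surjective (S.b n) := by
  rw [← LinearMap.range_eq_top]
  apply Submodule.eq_top_of_finrank_eq
  cases n with
  | zero =>
    have h := (defect (S := S) N hN hF 0).1
    rw [LinearMap.finrank_range_of_inj S.injb0, h]
  | succ n =>
    have h := (defect (S := S) N hN hF n).2
    have h1 := finrank_of_exact (S.a n) (S.b (n + 1)) (S.exab n)
    have h2 : finrank k (LinearMap.range (S.a n)) ≤ finrank k (H n) :=
      LinearMap.finrank_range_le _
    have h3 : finrank k (LinearMap.range (S.b (n + 1))) ≤ finrank k (H (n + 1)) :=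
      Submodule.finrank_le _
    omega

theorem surj_π (n : ℕ) : Function.Surjective (S.π n) := by
  cases n with
  | zero => exact S.surj0
  | succ n =>
    intro x
    apply (S.ex1 n x).mp
    apply inj_u (S := S) N hN hF n
    rw [map_zero]
    exact (S.ex2 n _).mpr ⟨x, rfl⟩

theorem chi_E_F_zero (h2 : (2 : k) ≠ 0) : chi (S.rE 0) = chi (S.rF 0) := by
  have := chi_of_exact (A := (Fin 0 → k)) (ρ := 0) (r := S.rF 0) (t := S.rE 0) h2 (S.rF_rF 0)
    (φ := 0) (ψ := S.π 0) (Function.injective_of_subsingleton _) S.surj0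
    (by
      rw [LinearMap.exact_iff, LinearMap.ker_eq_bot.mpr S.inj0]
      simp)
    (by simp) (S.π_rF 0)
  rw [this, chi_zero_map k, zero_add]

theorem chi_E_F_one (h2 : (2 : k) ≠ 0) : chi (S.rE 1) = chi (S.rF 1) := by
  have := chi_of_exact (A := (Fin 0 → k)) (ρ := 0) (r := S.rF 1) (t := S.rE 1) h2 (S.rF_rF 1)
    (φ := 0) (ψ := S.π 1) (Function.injective_of_subsingleton _)
    (surj_π (S := S) N hN hF 1)
    (by
      rw [LinearMap.exact_iff, LinearMap.ker_eq_bot.mpr S.inj1]
      simp)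
    (by simp) (S.π_rF 1)
  rw [this, chi_zero_map k, zero_add]

theorem chi_E_F (h2 : (2 : k) ≠ 0) (n : ℕ) :
    chi (S.rE (n + 2)) = chi (S.rF (n + 2)) + chi (S.rF n) := by
  have := chi_of_exact_neg (ρ := S.rF n) (r := S.rF (n + 2)) (t := S.rE (n + 2)) h2
    (S.rF_rF _) (S.u n) (S.π (n + 2)) (inj_u (S := S) N hN hF n)
    (surj_π (S := S) N hN hF (n + 2)) (S.ex3 n) (S.u_rF n) (S.π_rF (n + 2))
  rw [this]
  ring

theorem chi_E_H_zero (h2 : (2 : k) ≠ 0) : chi (S.rE 0) = chi (S.rH 0) := by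
  have := chi_of_exact (A := (Fin 0 → k)) (ρ := 0) (r := S.rE 0) (t := S.rH 0) h2 (S.rE_rE 0)
    (φ := 0) (ψ := S.b 0) (Function.injective_of_subsingleton _)
    (surj_b (S := S) N hN hF 0)
    (by
      rw [LinearMap.exact_iff, LinearMap.ker_eq_bot.mpr S.injb0]
      simp)
    (by simp) (S.b_rE 0)
  rw [this, chi_zero_map k, zero_add]

theorem chi_E_H (h2 : (2 : k) ≠ 0) (n : ℕ) :
    chi (S.rE (n + 1)) = chi (S.rH (n + 1)) - chi (S.rH n) := by
  have := chi_of_exact_neg (ρ := S.rH n) (r := S.rE (n + 1)) (t := S.rH (n + 1)) h2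
    (S.rE_rE _) (S.a n) (S.b (n + 1)) (inj_a (S := S) N hN hF n)
    (surj_b (S := S) N hN hF (n + 1)) (S.exab n) (S.a_rH n) (S.b_rE (n + 1))
  rw [this]
  ring

theorem sum_chi_E (h2 : (2 : k) ≠ 0) (m : ℕ) :
    ∑ n ∈ Finset.range (m + 1), (-1 : ℤ) ^ n * chi (S.rE n) =
      2 * ∑ n ∈ Finset.range m, (-1 : ℤ) ^ n * chi (S.rH n) + (-1) ^ m * chi (S.rH m) := by
  induction m with
  | zero => simp [chi_E_H_zero (S := S) N hN hF h2]
  | succ m ih =>
    rw [Finset.sum_range_succ, ih, Finset.sum_range_succ (n := m),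
      chi_E_H (S := S) N hN hF h2]
    ring

/-- If the Lefschetz number of the reversal is nonzero then some `chi (rE q)` is nonzero. -/
theorem exists_chi_E_ne_zero (h2 : (2 : k) ≠ 0)
    (hL : ∀ m, ∃ m' ≥ m, ∑ n ∈ Finset.range m', (-1 : ℤ) ^ n * chi (S.rH n) ≠ 0)
    (hH : ∃ m, ∀ n ≥ m, finrank k (H n) = 0) : ∃ q, chi (S.rE q) ≠ 0 := by
  by_contra hcon
  push Not at hcon
  obtain ⟨m, hm⟩ := hH
  obtain ⟨m', hm', hne⟩ := hL m
  apply hne
  have h := sum_chi_E (S := S) N hN hF h2 m'
  have h0 : chi (S.rH m') = 0 := by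
    have h1 := hm m' hm'
    have ha : finrank k (eig (S.rH m') (1 : k)) = 0 := by
      have : finrank k (eig (S.rH m') (1 : k)) ≤ finrank k (H m') := Submodule.finrank_le _
      omega
    have hb : finrank k (eig (S.rH m') (-1 : k)) = 0 := by
      have : finrank k (eig (S.rH m') (-1 : k)) ≤ finrank k (H m') := Submodule.finrank_le _
      omega
    unfold chi
    rw [ha, hb]
    simp
  rw [h0] at h
  have h3 : ∑ n ∈ Finset.range (m' + 1), (-1 : ℤ) ^ n * chi (S.rE n) = 0 :=
    Finset.sum_eq_zero (fun n _ => by rw [hcon n, mul_zero])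
  rw [h3] at h
  omega

end Equality

end Level

/-- A morphism of levels (restriction from a larger sublevel set to a smaller one). -/
structure LevelHom {k : Type*} [Field k] {H F E H' F' E' : ℕ → Type*}
    [∀ n, AddCommGroup (H n)] [∀ n, Module k (H n)]
    [∀ n, AddCommGroup (F n)] [∀ n, Module k (F n)]
    [∀ n, AddCommGroup (E n)] [∀ n, Module k (E n)]
    [∀ n, AddCommGroup (H' n)] [∀ n, Module k (H' n)]
    [∀ n, AddCommGroup (F' n)] [∀ n, Module k (F' n)]
    [∀ n, AddCommGroup (E' n)] [∀ n, Module k (E' n)]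
    (S : Level k H F E) (S' : Level k H' F' E') where
  fH : ∀ n, H n →ₗ[k] H' n
  fF : ∀ n, F n →ₗ[k] F' n
  fE : ∀ n, E n →ₗ[k] E' n
  comm_π : ∀ n x, fE n (S.π n x) = S'.π n (fF n x)
  comm_a : ∀ n x, fE (n + 1) (S.a n x) = S'.a n (fH n x)
  comm_b : ∀ n x, fH n (S.b n x) = S'.b n (fE n x)

/-- **Window theorem.** A chain of `L + 1` levels satisfying Smith equality, with
zero restriction maps in `H`, injective restriction maps in `F`, constant characters in `F`
and nonzero Lefschetz number has length `L < 4 K + 2`. -/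
theorem window {k : Type*} [Field k] (h2 : (2 : k) ≠ 0) (H F E : ℕ → ℕ → Type*)
    [∀ j n, AddCommGroup (H j n)] [∀ j n, Module k (H j n)]
    [∀ j n, AddCommGroup (F j n)] [∀ j n, Module k (F j n)]
    [∀ j n, AddCommGroup (E j n)] [∀ j n, Module k (E j n)]
    [∀ j n, FiniteDimensional k (H j n)] [∀ j n, FiniteDimensional k (F j n)]
    [∀ j n, FiniteDimensional k (E j n)]
    (L K : ℕ) (N : ℕ → ℕ) (S : ∀ j, Level k (H j) (F j) (E j))
    (hNK : ∀ j ≤ L, N j ≤ K)
    (hN : ∀ j ≤ L, ∀ m, ∑ n ∈ Finset.range m, finrank k (H j n) ≤ N j)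
    (hF : ∀ j ≤ L, ∀ m, ∃ m' ≥ m, 2 * N j ≤ finrank k (F j (m' + 1)) + finrank k (F j m'))
    (hLef : ∀ m, ∃ m' ≥ m, ∑ n ∈ Finset.range m', (-1 : ℤ) ^ n * chi ((S 0).rH n) ≠ 0)
    (hfin : ∃ m, ∀ n ≥ m, finrank k (H 0 n) = 0)
    (ρ : ∀ j, LevelHom (S (j + 1)) (S j))
    (hρH : ∀ j < L, ∀ n x, (ρ j).fH n x = 0)
    (hρF : ∀ j < L, ∀ n, Function.Injective ((ρ j).fF n))
    (hchi : ∀ j < L, ∀ n, chi ((S (j + 1)).rF n) = chi ((S j).rF n)) :
    L < 4 * K + 2 := by
  obtain ⟨q, hq⟩ := Level.exists_chi_E_ne_zero (S := S 0) (N 0) (hN 0 (Nat.zero_le _))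
    (hF 0 (Nat.zero_le _)) h2 hLef hfin
  -- the character of `F` is constant along the chain
  have hchi0 : ∀ j ≤ L, ∀ n, chi ((S j).rF n) = chi ((S 0).rF n) := by
    intro j
    induction j with
    | zero => intro _ n; rfl
    | succ j ih =>
      intro hj n
      rw [hchi j (by omega), ih (by omega)]
  have hchiE : ∀ j ≤ L, chi ((S j).rE q) = chi ((S 0).rE q) := by
    intro j hj
    rcases q with _ | _ | q
    · rw [Level.chi_E_F_zero (S := S j) (N j) (hN j hj) (hF j hj) h2,
        Level.chi_E_F_zero (S := S 0) (N 0) (hN 0 (Nat.zero_le _)) (hF 0 (Nat.zero_le _)) h2,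
        hchi0 j hj]
    · rw [show 0 + 1 = 1 from rfl,
        Level.chi_E_F_one (S := S j) (N j) (hN j hj) (hF j hj) h2,
        Level.chi_E_F_one (S := S 0) (N 0) (hN 0 (Nat.zero_le _)) (hF 0 (Nat.zero_le _)) h2,
        hchi0 j hj]
    · rw [show q + 1 + 1 = q + 2 from rfl,
        Level.chi_E_F (S := S j) (N j) (hN j hj) (hF j hj) h2,
        Level.chi_E_F (S := S 0) (N 0) (hN 0 (Nat.zero_le _)) (hF 0 (Nat.zero_le _)) h2,
        hchi0 j hj, hchi0 j hj]
  have hEpos : ∀ j ≤ L, 1 ≤ finrank k (E j q) := by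
    intro j hj
    by_contra hcon
    have h0 : finrank k (E j q) = 0 := by omega
    have ha : finrank k (eig ((S j).rE q) (1 : k)) = 0 := by
      have : finrank k (eig ((S j).rE q) (1 : k)) ≤ finrank k (E j q) :=
        Submodule.finrank_le _
      omega
    have hb : finrank k (eig ((S j).rE q) (-1 : k)) = 0 := by
      have : finrank k (eig ((S j).rE q) (-1 : k)) ≤ finrank k (E j q) :=
        Submodule.finrank_le _
      omega
    apply hq
    rw [← hchiE j hj]
    unfold chi
    rw [ha, hb]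
    simp
  -- two steps kill `E`
  have hE0 : ∀ j, j + 2 ≤ L → ∀ n (x : E (j + 2) n), (ρ j).fE n ((ρ (j + 1)).fE n x) = 0 := by
    intro j hj n x
    cases n with
    | zero =>
      apply (S j).injb0
      rw [map_zero, ← (ρ j).comm_b]
      exact hρH j (by omega) _ _
    | succ n =>
      have h1 : (S (j + 1)).b (n + 1) ((ρ (j + 1)).fE (n + 1) x) = 0 := by
        rw [← (ρ (j + 1)).comm_b]
        exact hρH (j + 1) (by omega) _ _
      obtain ⟨y, hy⟩ := ((S (j + 1)).exab n _).mp h1
      rw [← hy, (ρ j).comm_a, hρH j (by omega), map_zero]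
  have hinj2 : ∀ j, j + 2 ≤ L → ∀ n,
      Function.Injective (fun x : F (j + 2) n => (ρ j).fF n ((ρ (j + 1)).fF n x)) := by
    intro j hj n
    exact (hρF j (by omega) n).comp (hρF (j + 1) (by omega) n)
  have hπ0 : ∀ j, j + 2 ≤ L → ∀ n (x : F (j + 2) n),
      (S j).π n ((ρ j).fF n ((ρ (j + 1)).fF n x)) = 0 := by
    intro j hj n x
    rw [← (ρ j).comm_π, ← (ρ (j + 1)).comm_π]
    exact hE0 j hj n _
  have hf2 : ∀ j, j + 2 ≤ L → ∀ n, finrank k (F (j + 2) (n + 2)) ≤ finrank k (F j n) := by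
    intro j hj n
    let φ : F (j + 2) (n + 2) →ₗ[k] F j (n + 2) := ((ρ j).fF (n + 2)).comp ((ρ (j + 1)).fF (n + 2))
    have hφ : Function.Injective φ := hinj2 j hj (n + 2)
    have hr : LinearMap.range φ ≤ LinearMap.range ((S j).u n) := by
      rintro _ ⟨x, rfl⟩
      exact ((S j).ex3 n _).mp (hπ0 j hj (n + 2) x)
    rw [← LinearMap.finrank_range_of_inj hφ]
    exact (Submodule.finrank_mono hr).trans (LinearMap.finrank_range_le _)
  have hf01 : ∀ j, j + 2 ≤ L → finrank k (F (j + 2) 0) = 0 ∧ finrank k (F (j + 2) 1) = 0 := by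
    intro j hj
    constructor
    · rw [finrank_zero_iff]
      refine ⟨fun x y => hinj2 j hj 0 ?_⟩
      apply (S j).inj0
      rw [hπ0 j hj 0 x, hπ0 j hj 0 y]
    · rw [finrank_zero_iff]
      refine ⟨fun x y => hinj2 j hj 1 ?_⟩
      apply (S j).inj1
      rw [hπ0 j hj 1 x, hπ0 j hj 1 y]
  -- the number of generators of degree `≤ q`
  have hy : ∀ j, j + 2 ≤ L → ∑ n ∈ Finset.range (q + 1), finrank k (E (j + 2) n) + 1 ≤
      ∑ n ∈ Finset.range (q + 1), finrank k (E j n) := by
    intro j hj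
    have hu : ∀ i ≤ L, ∀ n, Function.Injective ((S i).u n) := fun i hi n =>
      Level.inj_u (S := S i) (N i) (hN i hi) (hF i hi) n
    have hsum : ∀ i ≤ L, ∀ m, ∑ n ∈ Finset.range (m + 2), finrank k (E i n) =
        finrank k (F i (m + 1)) + finrank k (F i m) := fun i hi m =>
      (S i).toUSeq.sum_e_of_inj (hu i hi) m
    have he0 := (S (j + 2)).toUSeq.e0
    have h01 := hf01 j hj
    have hp := hEpos j (by omega)
    rcases q with _ | _ | q
    · simp only [zero_add, Finset.sum_range_one]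
      omega
    · have h1 := hsum (j + 2) hj 0
      have h3 := hsum j (by omega) 0
      simp only [zero_add] at h1 h3 hp ⊢
      rw [h1, h3]
      have h4 : ∑ n ∈ Finset.range 2, finrank k (E j n) = finrank k (E j 0) + finrank k (E j 1) := by
        simp [Finset.sum_range_succ]
      have h5 : finrank k (E j (0 + 1)) = finrank k (E j 1) := rfl
      have h6 : finrank k (F (j + 2) (0 + 1)) = finrank k (F (j + 2) 1) := rfl
      omega
    · have h1 := hsum (j + 2) hj (q + 1)
      rw [show q + 1 + 1 + 1 = q + 1 + 2 from rfl, h1]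
      have h3 : ∑ n ∈ Finset.range (q + 1 + 2), finrank k (E j n) =
          ∑ n ∈ Finset.range (q + 1), finrank k (E j n) + finrank k (E j (q + 1)) +
            finrank k (E j (q + 2)) := by
        rw [show q + 1 + 2 = q + 1 + 1 + 1 from rfl, Finset.sum_range_succ, Finset.sum_range_succ]
      rw [h3]
      have h4 : finrank k (F (j + 2) (q + 1 + 1)) ≤ finrank k (F j q) := hf2 j hj q
      have h5 : finrank k (F (j + 2) (q + 1)) + finrank k (F j q) ≤
          ∑ n ∈ Finset.range (q + 1), finrank k (E j n) := by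
        cases q with
        | zero =>
          have := (S j).toUSeq.e0
          simp only [zero_add, Finset.sum_range_one]
          have h8 : finrank k (F (j + 2) (0 + 1)) = finrank k (F (j + 2) 1) := rfl
          omega
        | succ q =>
          have h6 := hsum j (by omega) q
          rw [show q + 1 + 1 = q + 2 from rfl, h6]
          have h7 := hf2 j hj q
          rw [show q + 1 + 1 = q + 2 from rfl]
          omega
      have hp' : 1 ≤ finrank k (E j (q + 2)) := hp
      omega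
  -- iterate
  have hit : ∀ i, 2 * i ≤ L → ∑ n ∈ Finset.range (q + 1), finrank k (E (2 * i) n) + i ≤
      ∑ n ∈ Finset.range (q + 1), finrank k (E 0 n) := by
    intro i
    induction i with
    | zero => intro _; simp
    | succ i ih =>
      intro hi
      have h1 := ih (by omega)
      have h3 := hy (2 * i) (by omega)
      rw [show 2 * (i + 1) = 2 * i + 2 from by ring]
      omega
  by_contra hcon
  have h1 := hit (2 * K + 1) (by omega)
  have h3 := (S 0).sum_e_le' (N 0) (hN 0 (Nat.zero_le _)) (q + 1)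
  have h4 := hNK 0 (Nat.zero_le _)
  omega

end Vale.Agent.P216.AS
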